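import Vale.Agent.P106.U.H661.Age

/-!
# P106 / U / H470 / AgeL : the dichotomy by age with depth `L` (type (ii) a-steps), helper470

Extension of helper661's `Age.lean`:
* `pos_sumL` : the letter `X b` (directions, hidden curvature and line digits to `L` blocks beyond the index)
  has to be known to `M (b + L K3)` only when the index has advanced by `L` blocks;
* `kap_sumL` : `Θ (k b)` has at most `N` values given `M b` (not given `M 0`);
* the cells are only nearly nested: errors `ν b`; `X b` only nearly a function: errors `ξ b`; the word letter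
  `Wd b` (a function of `M b`) is exactly nested and determines the index.
-/

set_option autoImplicit false

namespace Vale.Agent.P106.U.H470.AgeL

open Finset Vale.Agent.P127 Vale.Agent.P127.Stk Vale.Agent.P106.U.H661.Age

/-- same index and same age: same cap -/
theorem age_inj (k : ℕ → ℕ) (hk : Monotone k) {b b' : ℕ} (h1 : k b = k b') (h2 : age k b = age k b') :
    b = b' := by
  rcases lt_trichotomy b b' with h | h | h
  · obtain ⟨j, rfl⟩ := Nat.exists_eq_add_of_lt h
    have h3 := age_fwd k b (j + 1) (fun i hi => le_antisymm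
      ((hk (by omega : b + i ≤ b + j + 1)).trans h1.symm.le) (hk (by omega)))
    have h4 : b + (j + 1) = b + j + 1 := rfl
    rw [h4] at h3
    omega
  · exact h
  · obtain ⟨j, rfl⟩ := Nat.exists_eq_add_of_lt h
    have h3 := age_fwd k b' (j + 1) (fun i hi => le_antisymm
      ((hk (by omega : b' + i ≤ b' + j + 1)).trans h1.le) (hk (by omega)))
    have h4 : b' + (j + 1) = b' + j + 1 := rfl
    rw [h4] at h3
    omega

/-- fewer than `L` advances within `L K3` caps: some index stays for `K3` caps -/
theorem exists_rest (k : ℕ → ℕ) (hk : Monotone k) (b K3 : ℕ) : ∀ L, k (b + L * K3) < k b + L →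
    ∃ j < L, k (b + (j + 1) * K3) = k (b + j * K3) := by
  intro L
  induction L with
  | zero =>
    intro h
    simp at h
  | succ L ih =>
    intro h
    by_cases h1 : k (b + L * K3) < k b + L
    · obtain ⟨j, hj, h2⟩ := ih h1
      exact ⟨j, by omega, h2⟩
    · refine ⟨L, by omega, ?_⟩
      have h2 : k (b + L * K3) ≤ k (b + (L + 1) * K3) := hk (by
        have := Nat.mul_le_mul_right K3 (Nat.le_succ L)
        simp only [Nat.succ_eq_add_one] at this
        omega)
      omega

/-- age `< K1` and fewer than `L` advances within `L K3` caps: rare -/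
theorem count_stayL (k : ℕ → ℕ) (hk : Monotone k) {K1 K3 L : ℕ} (h3 : 0 < K3) (K : ℕ) :
    K3 * ((range K).filter fun b => age k b < K1 ∧ k (b + L * K3) < k b + L).card ≤
      L * K1 * (K + L * K3) := by
  classical
  -- the cap where the resting index has age `K3`
  have hex : ∀ b, k (b + L * K3) < k b + L → ∃ c, c ≤ b + L * K3 ∧ age k c = K3 ∧
      k b ≤ k c ∧ k c < k b + L := by
    intro b hb
    obtain ⟨j, hj, h4⟩ := exists_rest k hk b K3 L hb
    have e1 : b + (j + 1) * K3 = b + j * K3 + K3 := by ring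
    rw [e1] at h4
    have h5 : age k (b + j * K3 + K3) = age k (b + j * K3) + K3 :=
      age_fwd k (b + j * K3) K3 (fun i hi => le_antisymm
        ((hk (by omega : b + j * K3 + i ≤ b + j * K3 + K3)).trans h4.le) (hk (by omega)))
    have hle : b + j * K3 + K3 ≤ b + L * K3 := by
      have := Nat.mul_le_mul_right K3 (by omega : j + 1 ≤ L)
      have e2 : (j + 1) * K3 = j * K3 + K3 := by ring
      omega
    -- go back `age (b + j K3)` caps
    have hz : age k (b + j * K3) ≤ b + j * K3 := by
      have : ∀ n, age k n ≤ n := by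
        intro n
        induction n with
        | zero => exact le_refl _
        | succ n ih =>
          have : age k (n + 1) = if k (n + 1) = k n then age k n + 1 else 0 := rfl
          rw [this]
          split_ifs <;> omega
      exact this _
    set u := b + j * K3 + K3 - age k (b + j * K3) with hu
    have e3 : u + age k (b + j * K3) = b + j * K3 + K3 := by omega
    have h6 := age_back k u (age k (b + j * K3)) (by rw [e3]; omega)
    rw [e3] at h6
    refine ⟨u, by omega, by omega, ?_, ?_⟩
    · rw [← h6.2]; exact hk (by omega)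
    · rw [← h6.2]
      exact lt_of_le_of_lt (hk hle) hb
  choose! c hc1 hc2 hc3 hc4 using hex
  have hcard : ((range K).filter fun b => age k b < K1 ∧ k (b + L * K3) < k b + L).card ≤
      (((range (K + L * K3)).filter fun b => age k b = K3) ×ˢ (range L ×ˢ range K1)).card := by
    refine Finset.card_le_card_of_injOn (fun b => (c b, (k (c b) - k b, age k b))) ?_ ?_
    · intro b hb
      simp only [Finset.coe_filter, Set.mem_ofPred_eq, Finset.mem_range] at hb
      have q1 := hc1 b hb.2.2
      have q2 := hc2 b hb.2.2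
      have q3 := hc3 b hb.2.2
      have q4 := hc4 b hb.2.2
      simp only [Finset.coe_product, Finset.coe_filter, Set.mem_prod, Set.mem_ofPred_eq,
        Finset.mem_range, Finset.coe_range, Set.mem_Iio]
      exact ⟨⟨by omega, q2⟩, by omega, hb.2.1⟩
    · intro b hb b' hb' e
      simp only [Finset.coe_filter, Set.mem_ofPred_eq, Finset.mem_range] at hb hb'
      simp only [Prod.mk.injEq] at e
      have q3 := hc3 b hb.2.2
      have q3' := hc3 b' hb'.2.2
      refine age_inj k hk ?_ e.2.2
      have := e.2.1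
      rw [e.1] at this q3
      omega
  rw [Finset.card_product, Finset.card_product, Finset.card_range, Finset.card_range] at hcard
  have h4 := count_age' k h3 (K + L * K3)
  calc K3 * _ ≤ K3 * (((range (K + L * K3)).filter fun b => age k b = K3).card * (L * K1)) :=
        Nat.mul_le_mul_left _ hcard
    _ = L * K1 * (K3 * ((range (K + L * K3)).filter fun b => age k b = K3).card) := by ring
    _ ≤ L * K1 * (K + L * K3) := Nat.mul_le_mul_left _ h4

section law

variable {Ω : Type} [Fintype Ω] (P : Law Ω) {S S' V W : Type*}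

/-- `X b`, if the age is `< K1` and the index advances by `L` within `K2` caps -/
def adv (K1 K2 L : ℕ) (k : ℕ → Ω → ℕ) (X : ℕ → Ω → V) (b : ℕ) (ω : Ω) : Option V :=
  if ag k b ω < K1 ∧ k b ω + L ≤ k (b + K2) ω then some (X b ω) else none

variable {M : ℕ → Ω → S} {Wd : ℕ → Ω → W} (hW : ∀ b, Fn P (Wd b) (Wd (b + 1)))
  (hWM : ∀ b, Fn P (Wd b) (M b)) {k : ℕ → Ω → ℕ}
  (hk : ∀ b, Fn P (k b) (Wd b)) (hmono : ∀ ω, Monotone fun b => k b ω)

include hW hWM hk hmono in
/-- **positions, depth `L`** -/
theorem pos_sumL (s : Ω → S') (X : ℕ → Ω → V) (N : ℕ) (hN : 1 ≤ N) {K1 K3 L K : ℕ} (h3 : 0 < K3)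
    (h2 : ∀ b < K + L * K3, ∀ ω, 0 < P.w ω → ∃ F : Finset S', F.card ≤ N ∧
      ∀ ω', 0 < P.w ω' → M b ω' = M b ω → s ω' ∈ F)
    (ν ξ : ℕ → ℝ) (hν : ∀ b < K, hc P (M b) (M (b + L * K3)) ≤ ν b)
    (hX : ∀ b < K, hc P (adv K1 (L * K3) L k X b) (M (b + L * K3)) ≤ ξ b) :
    ∑ b ∈ range K, mi P s (pos K1 k X b) (M b) ≤
      (L * K3 + (L * K1 * (K + L * K3) : ℝ) / K3) * Real.log N +
        ∑ b ∈ range K, ν b + ∑ b ∈ range K, ξ b := by
  have hlog : 0 ≤ Real.log N := Real.log_nonneg (by exact_mod_cast hN)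
  have hK3 : (0 : ℝ) < K3 := by exact_mod_cast h3
  have hs : ∀ b < K + L * K3, hc P s (M b) ≤ Real.log N := fun b hb => hc_le_log P s (M b) N (h2 b hb)
  set K2 := L * K3 with hK2
  set bad : ℕ → Ω → Prop := fun b ω => ag k b ω < K1 ∧ k (b + K2) ω < k b ω + L with hbad
  have hstep : ∀ b ∈ range K, mi P s (pos K1 k X b) (M b) ≤
      mi P s (M (b + K2)) (M b) + ξ b + prE P (bad b) * Real.log N := by
    intro b hb
    have hbK := Finset.mem_range.1 hb
    have a1 : mi P s (pos K1 k X b) (M b) ≤
        mi P s (fun ω => ((M (b + K2) ω, adv K1 K2 L k X b ω), pos K1 k X b ω)) (M b) :=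
      mi_mono_right P s fun ω ω' _ _ e => by
        simp only [Prod.mk.injEq] at e
        exact e.1.2
    have a2 := mi_pair P s (fun ω => (M (b + K2) ω, adv K1 K2 L k X b ω)) (pos K1 k X b) (M b)
    have a3 := mi_pair P s (M (b + K2)) (adv K1 K2 L k X b) (M b)
    have a4 : mi P s (adv K1 K2 L k X b) (fun ω => (M (b + K2) ω, M b ω)) ≤ ξ b := by
      refine (mi_le_hc' P _ _ _).trans ((hc_mono_right P _ ?_).trans (hX b hbK))
      exact fun ω ω' _ _ e => congrArg Prod.fst e
    have a5 : mi P s (pos K1 k X b) (fun ω => ((M (b + K2) ω, adv K1 K2 L k X b ω), M b ω)) ≤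
        prE P (bad b) * Real.log N := by
      refine mi_local P s _ _ _ N hN ?_ ?_
      · intro ω ω' p p' hb1 e
        simp only [Prod.mk.injEq] at e
        have w1 : Wd b ω = Wd b ω' := hWM b ω ω' p p' e.2
        have q1 : ag k b ω = ag k b ω' := age_fn P hW hk b ω ω' p p' w1
        have w2 : Wd (b + K2) ω = Wd (b + K2) ω' := hWM _ ω ω' p p' e.1.1
        have q5 : k b ω = k b ω' := hk b ω ω' p p' w1
        have q6 : k (b + K2) ω = k (b + K2) ω' := hk _ ω ω' p p' w2
        have q7 := e.1.2
        unfold pos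
        rw [← q1]
        split_ifs with q2
        · have q3 : k b ω + L ≤ k (b + K2) ω := by
            by_contra hlt
            exact hb1 ⟨q2, by omega⟩
          unfold adv at q7
          rw [← q1, ← q5, ← q6, if_pos ⟨q2, q3⟩, if_pos ⟨q2, q3⟩] at q7
          exact q7
        · rfl
      · intro ω hω
        obtain ⟨F, hF, hF2⟩ := h2 b (by omega) ω hω
        refine ⟨F, hF, fun ω' h' e => hF2 ω' h' ?_⟩
        simp only [Prod.mk.injEq] at e
        exact e.2
    linarith
  refine (Finset.sum_le_sum hstep).trans ?_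
  rw [Finset.sum_add_distrib, Finset.sum_add_distrib, ← Finset.sum_mul]
  have t1 := H833.tele_near P s M ν K K2 (H := Real.log N) hν (fun j hj => hs j (by omega))
  have t2 : ∑ b ∈ range K, prE P (bad b) ≤ (L * K1 * (K + L * K3) : ℝ) / K3 := by
    refine sum_prE P _ K _ fun ω _ => ?_
    refine ⟨(range K).filter fun b => age (fun a => k a ω) b < K1 ∧ k (b + K2) ω < k b ω + L, ?_, ?_⟩
    · intro b hb h
      exact Finset.mem_filter.2 ⟨Finset.mem_range.2 hb, h⟩
    · have := count_stayL (fun a => k a ω) (hmono ω) (K1 := K1) (L := L) h3 K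
      rw [le_div_iff₀ hK3]
      have h3 : ((K3 * ((range K).filter fun b => age (fun a => k a ω) b < K1 ∧
        k (b + K2) ω < k b ω + L).card : ℕ) : ℝ) ≤ ((L * K1 * (K + L * K3) : ℕ) : ℝ) := by
        exact_mod_cast this
      push_cast at h3
      linarith
  have t3 := mul_le_mul_of_nonneg_right t2 hlog
  have e1 : ((K2 : ℕ) : ℝ) = L * K3 := by rw [hK2]; push_cast; ring
  rw [e1] at t1
  linarith

include hW hWM hk in
/-- **kappa**: while the age is `≥ K1`, the potential has a fixed index; values counted given `M b` -/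
theorem kap_sumL (Θ : ℕ → Ω → V) (N : ℕ) (hN : 1 ≤ N) {K1 β K : ℕ} (h1 : 0 < K1) (hβ : β ≤ K1)
    (h2 : ∀ b < K + β, ∀ ω, 0 < P.w ω → K1 ≤ ag k b ω → ∃ F : Finset V, F.card ≤ N ∧
      ∀ ω', 0 < P.w ω' → M b ω' = M b ω → Θ (k b ω) ω' ∈ F)
    (ν : ℕ → ℝ) (hν : ∀ b < K, hc P (M b) (M (b + β)) ≤ ν b) :
    ∑ b ∈ range K, mi P (kap K1 k Θ b) (M (b + β)) (M b) ≤
      (β + (β * (K + β) : ℝ) / K1) * Real.log N + ∑ b ∈ range K, ν b := by
  classical
  have hlog : 0 ≤ Real.log N := Real.log_nonneg (by exact_mod_cast hN)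
  have hK1 : (0 : ℝ) < K1 := by exact_mod_cast h1
  have hcard : ∀ b < K + β, ∀ ω, 0 < P.w ω → ∃ F : Finset (Option V), F.card ≤ N ∧
      ∀ ω', 0 < P.w ω' → M b ω' = M b ω → kap K1 k Θ b ω' ∈ F := by
    intro b hb ω hω
    by_cases h : K1 ≤ ag k b ω
    · obtain ⟨F, hF, hF2⟩ := h2 b hb ω hω h
      refine ⟨F.image some, Finset.card_image_le.trans hF, fun ω' h' e => ?_⟩
      have w1 : Wd b ω' = Wd b ω := hWM b ω' ω h' hω e
      have q1 : ag k b ω' = ag k b ω := age_fn P hW hk b ω' ω h' hω w1
      have q2 : k b ω' = k b ω := hk b ω' ω h' hω w1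
      unfold kap
      rw [q1, if_pos h, q2]
      exact Finset.mem_image_of_mem _ (hF2 ω' h' e)
    · refine ⟨{none}, by simpa using hN, fun ω' h' e => ?_⟩
      have w1 : Wd b ω' = Wd b ω := hWM b ω' ω h' hω e
      have q1 : ag k b ω' = ag k b ω := age_fn P hW hk b ω' ω h' hω w1
      unfold kap
      rw [q1, if_neg h]
      simp
  have hstep : ∀ b ∈ range K, mi P (kap K1 k Θ b) (M (b + β)) (M b) ≤
      (hc P (kap K1 k Θ b) (M b) - hc P (kap K1 k Θ (b + β)) (M (b + β))) + ν b +
      prE P (fun ω => ag k b ω < K1 ∧ K1 ≤ ag k (b + β) ω) * Real.log N := by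
    intro b hb
    have hbK := Finset.mem_range.1 hb
    have a1 := H833.mi_near P (kap K1 k Θ b) (M b) (M (b + β))
    have a2 := hν b hbK
    have a3 := hc_le_add P (kap K1 k Θ (b + β)) (kap K1 k Θ b) (M (b + β))
    have a4 : hc P (kap K1 k Θ (b + β)) (fun ω => (kap K1 k Θ b ω, M (b + β) ω)) ≤
        prE P (fun ω => ag k b ω < K1 ∧ K1 ≤ ag k (b + β) ω) * Real.log N := by
      refine hc_prE P _ _ _ N ?_ ?_
      · intro ω hω hbad ω' h' e
        simp only [Prod.mk.injEq] at e
        have w1 : Wd (b + β) ω' = Wd (b + β) ω := hWM _ ω' ω h' hω e.2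
        have q1 : ag k (b + β) ω' = ag k (b + β) ω := age_fn P hW hk (b + β) ω' ω h' hω w1
        have q2 : k (b + β) ω' = k (b + β) ω := hk (b + β) ω' ω h' hω w1
        have w0 : Wd b ω' = Wd b ω := nest P hW b β ω' ω h' hω w1
        have q3 : ag k b ω' = ag k b ω := age_fn P hW hk b ω' ω h' hω w0
        have q4 : k b ω' = k b ω := hk b ω' ω h' hω w0
        by_cases h5 : K1 ≤ ag k (b + β) ω
        · have h6 : K1 ≤ ag k b ω := by
            by_contra hlt
            exact hbad ⟨not_le.1 hlt, h5⟩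
          have h7 : k (b + β) ω = k b ω := (age_back (fun a => k a ω) b β (hβ.trans h5)).2
          have h8 := e.1
          unfold kap at h8 ⊢
          rw [q3, if_pos h6, if_pos h6, q4] at h8
          rw [q1, if_pos h5, if_pos h5, q2, h7]
          exact h8
        · unfold kap
          rw [q1, if_neg h5, if_neg h5]
      · intro ω hω
        obtain ⟨F, hF, hF2⟩ := hcard (b + β) (by omega) ω hω
        refine ⟨F, hF, fun ω' h' e => hF2 ω' h' ?_⟩
        simp only [Prod.mk.injEq] at e
        exact e.2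
    linarith
  refine (Finset.sum_le_sum hstep).trans ?_
  rw [Finset.sum_add_distrib, Finset.sum_add_distrib, ← Finset.sum_mul,
    U.Cell.sum_tele (fun b => hc P (kap K1 k Θ b) (M b))]
  have t1 : ∑ j ∈ range β, (hc P (kap K1 k Θ j) (M j) - hc P (kap K1 k Θ (K + j)) (M (K + j))) ≤
      β * Real.log N := by
    have h3 : ∀ j ∈ range β, hc P (kap K1 k Θ j) (M j) - hc P (kap K1 k Θ (K + j)) (M (K + j)) ≤
        Real.log N := by
      intro j hj
      have h4 := hc_nonneg P (kap K1 k Θ (K + j)) (M (K + j))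
      have h5 := hc_le_log P (kap K1 k Θ j) (M j) N (hcard j (by
        have := Finset.mem_range.1 hj
        omega))
      linarith
    have h4 := Finset.sum_le_sum h3
    rwa [Finset.sum_const, card_range, nsmul_eq_mul] at h4
  have t2 : ∑ b ∈ range K, prE P (fun ω => ag k b ω < K1 ∧ K1 ≤ ag k (b + β) ω) ≤
      (β * (K + β) : ℝ) / K1 := by
    refine sum_prE P _ K _ fun ω _ => ?_
    refine ⟨(range K).filter fun b => age (fun a => k a ω) b < K1 ∧
      K1 ≤ age (fun a => k a ω) (b + β), ?_, ?_⟩
    · intro b hb h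
      exact Finset.mem_filter.2 ⟨Finset.mem_range.2 hb, h⟩
    · have := count_cross (fun a => k a ω) h1 hβ K
      rw [le_div_iff₀ hK1]
      have h3 : ((K1 * ((range K).filter fun b => age (fun a => k a ω) b < K1 ∧
        K1 ≤ age (fun a => k a ω) (b + β)).card : ℕ) : ℝ) ≤ ((β * (K + β) : ℕ) : ℝ) := by
        exact_mod_cast this
      push_cast at h3
      linarith
  have t3 := mul_le_mul_of_nonneg_right t2 hlog
  linarith

end law

end Vale.Agent.P106.U.H470.AgeL
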