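import Vale.Agent.P106.U.H470.XD

/-!
# P106 / U / H470 / V2Pl : the left side of `F2o.V2` at one place, by labels (helper470)

* `v2S` : the left side of `F2o.V2`.  `labs` : the labels `(a, r)`, `1 ≤ a ≤ ha`, `r ≤ B`, `r ≤ F a - F (a-1) + 1`.
* `rgP` : regime of the level `a` at the place (before the stop, lag, kappa regime with room `B`);  `flP` : flicker.
* **`C2.v2_place`** : `v2S ≤ ∑_labels (1{young, rgP} mi (..) + 1{flP} d m log 2) + (B + 1) d m log 2`.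
-/

set_option autoImplicit false

namespace Vale.Agent.P106.U.H565

open Finset Vale.Agent.P127 Vale.Agent.P127.Stk Vale.Agent.P127.U Vale.Agent.P106.W
open Vale.Agent.P106.K (Ry RyOk bl Bin)
open Vale.Agent.P127.U.CellD (q2 rd q2_pos q2_le q2_mul_pow fl1_fl1)
open Vale.Agent.P106.U Vale.Agent.P106.U.H449 Vale.Agent.P106.U.StripL Vale.Agent.P106.U.StripE
open Vale.Agent.P106.U.LinkR Vale.Agent.P106.U.InsL Vale.Agent.P106.U.InpC Vale.Agent.P106.U.LSide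
open Vale.Agent.P106.U.LinkW2
open Vale.Agent.P106.U.H823.NumG Vale.Agent.P106.U.H823.PathNum Vale.Agent.P106.U.H823.PathP
open Vale.Agent.P106.U.H428.Cls (Dt)
open Vale.Agent.P106.U.H785.Mtr Vale.Agent.P106.U.H470
open Vale.Agent.P106.U.H61.Reg (beg beg_le_J J_sub_beg lev_sub sum_pair lv_eq)

variable {Ω : Type} [Fintype Ω]

/-- the left side of `F2o.V2` -/
noncomputable def v2S {τ υ π : Type} (R : S3.Run Ω τ υ) (p : S3.Run.Num) (B bV : ℕ) (F : S3.Pf R π) (Vs Xs : Finset ℕ)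
    (μ : ℕ) (o : Fin 7 → ℝ) (o' : ℕ → ℝ) (d : ℕ) : ℝ :=
  ∑ k ∈ S3.IdK R Vs Xs, ∑ i ∈ S3.At' R p B d k,
    mi R.Q (S3.LTh ((S3.mt R F μ o o').fz k k) (R.m * R.b1) i)
      (fun ω => (((S3.mt R F μ o o').fz k k).cell k bV ω, F.Ao (S3.lv R k) ω, S3.Ob R B o' k ω))
      (S3.LDk ((S3.mt R F μ o o').fz k k) (R.m * R.b1) k)

open Classical in
/-- the labels -/
noncomputable def labs (c : C1 Ω) (B : ℕ) : Finset (ℕ × ℕ) :=
  (range (c.I.ha + 1) ×ˢ range (B + 1)).filter fun x =>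
    1 ≤ x.1 ∧ x.2 ≤ Rw c.I.pm.n c.E1 0 x.1 - Rw c.I.pm.n c.E1 0 (x.1 - 1) + 1

/-- the information of a label -/
noncomputable def C1.miX (c : C1 Ω) (hm : 3 ≤ c.I.m) (Q : Law Ω) (μ : ℕ) (o : Fin 7 → ℝ) (o' : ℕ → ℝ) (B d : ℕ)
    (RC : ℕ → ℕ) (x : ℕ × ℕ) (b bV : ℕ) : ℝ :=
  mi Q (fun ω => fl1 (c.I.m * x.1 + d * c.I.m) (c.t ω))
    (fun ω => ((c.xd hm μ o o' RC x.1 (Rw c.I.pm.n c.E1 0 x.1 + 2 - (x.2 - 1)) (RC x.1 - min x.2 1)).mtr 0 bV ω,
      c.xao hm RC B x.1 ω,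
      fl1 (c.I.rs + c.I.m * (RC x.1 - min x.2 1) + c.I.m * B)
        ((c.xd hm μ o o' RC x.1 (Rw c.I.pm.n c.E1 0 x.1 + 2 - (x.2 - 1)) (RC x.1 - min x.2 1)).κ 0 ω +
        (c.xd hm μ o o' RC x.1 (Rw c.I.pm.n c.E1 0 x.1 + 2 - (x.2 - 1)) (RC x.1 - min x.2 1)).oκ)))
    ((c.xd hm μ o o' RC x.1 (Rw c.I.pm.n c.E1 0 x.1 + 2 - (x.2 - 1)) (RC x.1 - min x.2 1)).mtr 0 b)

namespace C2

variable {c : C2 Ω} {hm : 3 ≤ c.I.m} {Rm : ℕ} {cc : ℝ} {Ac rc : ℕ}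

/-- regime of the level `a` -/
def rgP (c : C2 Ω) (B a : ℕ) : Prop :=
  c.I.m * a < c.I.num.A ∧ c.I.rs + c.I.m * c.RC a < c.I.num.QK ∧ c.RC (a - 1) + 2 ≤ Rw c.I.pm.n c.E1 1 (a - 1) ∧
    c.b1 + c.RC a + B ≤ Rw c.I.pm.n c.E1 0 a + 2

/-- flicker -/
def flP (c : C2 Ω) (B a : ℕ) : Prop :=
  Rw c.I.pm.n c.E1 0 a + 2 < c.b1 + c.RC a + B ∧ c.b1 + c.RC a ≤ Rw c.I.pm.n c.E1 0 a + 2

theorem has_e (H : c.Hyp Rm cc Ac rc) : Has c.D (c.erun hm) c.num :=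
  H823.NumG.has_ofG c.good Dt.is c.cn2 c.w2 H.N0s H.J1 H.J3 H.ps rfl rfl rfl rfl rfl rfl rfl rfl rfl rfl rfl rfl rfl rfl rfl

/-- the level is before the stop -/
theorem lev_stop {k : ℕ} (hk : k ≤ c.D.n) (h : ¬ (c.I.m * c.D.L.lev k < c.I.num.A ∧
    c.I.rs + c.I.m * c.RC (c.D.L.lev k) < c.I.num.QK)) : c.D.L.lev k = c.D.L.lev c.D.n := by
  refine le_antisymm (c.D.L.lev_mono hk) ?_
  by_contra hc
  push Not at hc
  have h1 : c.D.L.J (c.D.L.lev k) < c.D.n := by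
    by_contra h2
    push Not at h2
    have h3 := c.D.L.lev_mono h2
    rw [Lv.lev_J] at h3
    omega
  have h2 := c.D.n_stop h1
  rw [Lv.lev_J] at h2
  have h3 : c.D.L.k (c.D.L.J (c.D.L.lev k)) = c.RC (c.D.L.lev k) := by
    have := H61.Reg.k_sub c.D.L (a := c.D.L.lev k) (r := 0) (beg_le_J _ _)
    rw [Nat.sub_zero, Nat.sub_zero] at this
    rw [this]
    exact max_eq_right (c.D.L.Rm_le _)
  rw [h3] at h2
  exact h ⟨h2.1, h2.2⟩

variable {B μ bV d : ℕ} {o : Fin 7 → ℝ} {o' : ℕ → ℝ} {k0 : ℕ → ℕ} {hk : Monotone k0}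
  {hl : ∀ i, k0 i ≤ c.D.L.k (c.D.ix i)} {Vs Xs : Finset ℕ}

/-- one pair `(k, i)` -/
theorem pair_le (H : c.Hyp Rm cc Ac rc) {a r : ℕ} (ha : 1 ≤ a) (hR : c.RC a = c.RC (a - 1) + 1)
    (hr : beg c.D.L a + r ≤ c.D.L.J a) (hN : c.D.L.J a - r ≤ c.D.N)
    (hi : c.D.L.J a - r < c.D.L.J (a + d)) (hiN : c.D.L.J (a + d) < c.D.N)
    (hkap : c.I.m * c.b1 + c.D.lk (c.D.L.J a - r) < c.D.lf (c.D.L.J a - r)) :
    mi c.Q (S3.LTh ((S3.mt (c.erun hm) (c.pfd hm k0 hk hl B) μ o o').fz (c.D.L.J a - r) (c.D.L.J a - r))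
        (c.I.m * c.b1) (c.D.L.J (a + d)))
      (fun ω => (((S3.mt (c.erun hm) (c.pfd hm k0 hk hl B) μ o o').fz (c.D.L.J a - r) (c.D.L.J a - r)).cell
        (c.D.L.J a - r) bV ω, (c.pfd hm k0 hk hl B).Ao (S3.lv (c.erun hm) (c.D.L.J a - r)) ω,
        S3.Ob (c.erun hm) B o' (c.D.L.J a - r) ω))
      (S3.LDk ((S3.mt (c.erun hm) (c.pfd hm k0 hk hl B) μ o o').fz (c.D.L.J a - r) (c.D.L.J a - r))
        (c.I.m * c.b1) (c.D.L.J a - r)) ≤
      c.miX hm c.Q μ o o' B d c.RC (a, r) (c.I.m * c.b1) bV := by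
  obtain ⟨h1, h2, h3⟩ := lab_num ha hR hr hN
  have hx := xd_eq (hm := hm) (k0 := k0) (hk := hk) (hl := hl) (Bb := B) (μ := μ) (o := o) (o' := o') ha hR hr hN
  set D := S3.mt (c.erun hm) (c.pfd hm k0 hk hl B) μ o o' with hD
  set i := c.D.L.J a - r with hi0
  have e1 : D.mtr i (c.I.m * c.b1) = (c.xd hm μ o o' c.RC a (Rw c.I.pm.n c.E1 0 a + 2 - (r - 1))
      (c.RC a - min r 1)).mtr 0 (c.I.m * c.b1) := by rw [← hx]; rfl
  have e2 : D.mtr i bV = (c.xd hm μ o o' c.RC a (Rw c.I.pm.n c.E1 0 a + 2 - (r - 1))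
      (c.RC a - min r 1)).mtr 0 bV := by rw [← hx]; rfl
  have e3 : D.κ i = (c.xd hm μ o o' c.RC a (Rw c.I.pm.n c.E1 0 a + 2 - (r - 1)) (c.RC a - min r 1)).κ 0 := by
    rw [← hx]; rfl
  have e4 : S3.lv (c.erun hm) i = a := by
    rw [H61.Reg.lv_eq (has_e (hm := hm) H) hN]
    exact lev_sub c.D.L hr
  have e5 : D.a (c.D.L.J (a + d)) = c.I.m * a + d * c.I.m := by
    show c.D.la (c.D.L.J (a + d)) = _
    rw [c.D.la_eq hiN.le, Lv.lev_J, D_m]
    ring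
  refine (mi_V2 c.Q (D := D) (k := i) (b := c.I.m * c.b1) (bV := bV) ?_ hi.le _ _).trans (le_of_eq ?_)
  · have h6 : D.rr i ≤ c.D.lk i := Nat.sub_le _ _
    have h7 : D.rf i = c.D.lf i := rfl
    omega
  · unfold C1.miX
    dsimp only
    rw [e5, e1, e2]
    congr 1
    funext ω
    have e6 : S3.Ob (c.erun hm) B o' i ω = fl1 (c.I.rs + c.I.m * (c.RC a - min r 1) + c.I.m * B)
        ((c.xd hm μ o o' c.RC a (Rw c.I.pm.n c.E1 0 a + 2 - (r - 1)) (c.RC a - min r 1)).κ 0 ω +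
          (c.xd hm μ o o' c.RC a (Rw c.I.pm.n c.E1 0 a + 2 - (r - 1)) (c.RC a - min r 1)).oκ) := by
      rw [← e3, ← h3]
      rfl
    rw [e4, e6]
    rfl

/-- a label costs at most `d m log 2` -/
theorem miX_le (c : C1 Ω) {hm : 3 ≤ c.I.m} (Q : Law Ω) (RC : ℕ → ℕ) (x : ℕ × ℕ) (b : ℕ) :
    c.miX hm Q μ o o' B d RC x b bV ≤ d * c.I.m * Real.log 2 := by
  unfold C1.miX
  refine (mi_le_hc Q _ _ _).trans ?_
  have h := H420.hc_fl_finer Q (x := c.t) (s := c.I.m * x.1) (p := d * c.I.m)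
    (Y := (c.xd hm μ o o' RC x.1 (Rw c.I.pm.n c.E1 0 x.1 + 2 - (x.2 - 1)) (RC x.1 - min x.2 1)).mtr 0 b)
    (fun ω ω' _ _ e => congrArg (fun z : Lt (ℕ → ℤ → Option ℤ) × Cell.Pth.Dg => z.1.1) e)
  push_cast at h
  exact h

theorem miX_nn (c : C1 Ω) {hm : 3 ≤ c.I.m} (Q : Law Ω) (RC : ℕ → ℕ) (x : ℕ × ℕ) (b : ℕ) :
    0 ≤ c.miX hm Q μ o o' B d RC x b bV := mi_nonneg _ _ _ _

open Classical in
/-- **the left side of `F2o.V2` by labels** -/
theorem v2_place (H : c.Hyp Rm cc Ac rc)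
    (hV : ∀ v ∈ Vs, v ∉ Xs → 1 ≤ v ∧ c.RC (v - 1) + 2 ≤ Rw c.I.pm.n c.E1 1 (v - 1) ∧ c.RC v = c.RC (v - 1) + 1) :
    v2S (c.erun hm) c.num B bV (c.pfd hm k0 hk hl B) Vs Xs μ o o' d ≤
      ∑ x ∈ labs c.toC1 B, (Law.ind (x.1 ∈ Vs ∧ x.1 ∉ Xs ∧ c.rgP B x.1) *
          c.miX hm c.Q μ o o' B d c.RC x (c.I.m * c.b1) bV + Law.ind (c.flP B x.1) * (d * c.I.m * Real.log 2)) +
        (B + 1) * (d * c.I.m * Real.log 2) := by
  have hH := has_e (hm := hm) H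
  have hq : 0 ≤ d * c.I.m * Real.log 2 := by
    have := Real.log_nonneg (x := 2) (by norm_num)
    positivity
  set q : ℝ := d * c.I.m * Real.log 2 with hqd
  set f : ℕ × ℕ → ℝ := fun x => Law.ind (x.1 ∈ Vs ∧ x.1 ∉ Xs ∧ c.rgP B x.1) *
    c.miX hm c.Q μ o o' B d c.RC x (c.I.m * c.b1) bV + Law.ind (c.flP B x.1) * q with hf
  have hf0 : ∀ x, 0 ≤ f x := fun x => add_nonneg
    (mul_nonneg (ind0 _) (miX_nn c.toC1 c.Q c.RC x _)) (mul_nonneg (ind0 _) hq)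
  have hIn : ∀ k ∈ S3.IdK (c.erun hm) Vs Xs, k ≤ c.D.N := by
    intro k hk
    unfold S3.IdK at hk
    rw [Finset.mem_filter, Finset.mem_Icc] at hk
    exact le_trans (show k ≤ c.D.n from hk.1.2) c.D.n_le
  unfold v2S
  rw [sum_pair hH (A := c.I.ha + 1) (S3.IdK (c.erun hm) Vs Xs) hIn (fun k hk => by
    have := li_ha H k
    rw [c.D.li_eq (hIn k hk)] at this
    omega)]
  have key : ∀ x ∈ range (c.I.ha + 1) ×ˢ range (B + 1),
      (if c.D.L.J x.1 - x.2 ∈ S3.IdK (c.erun hm) Vs Xs ∧ beg c.D.L x.1 + x.2 ≤ c.D.L.J x.1 ∧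
          c.D.L.J x.1 - x.2 < c.D.L.J (x.1 + d) ∧ c.D.L.J (x.1 + d) ≤ c.D.L.J x.1 - x.2 + B ∧
          c.D.L.J (x.1 + d) < c.D.N then
        mi (c.erun hm).Q (S3.LTh ((S3.mt (c.erun hm) (c.pfd hm k0 hk hl B) μ o o').fz (c.D.L.J x.1 - x.2)
            (c.D.L.J x.1 - x.2)) ((c.erun hm).m * (c.erun hm).b1) (c.D.L.J (x.1 + d)))
          (fun ω => (((S3.mt (c.erun hm) (c.pfd hm k0 hk hl B) μ o o').fz (c.D.L.J x.1 - x.2)
            (c.D.L.J x.1 - x.2)).cell (c.D.L.J x.1 - x.2) bV ω,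
            (c.pfd hm k0 hk hl B).Ao (S3.lv (c.erun hm) (c.D.L.J x.1 - x.2)) ω,
            S3.Ob (c.erun hm) B o' (c.D.L.J x.1 - x.2) ω))
          (S3.LDk ((S3.mt (c.erun hm) (c.pfd hm k0 hk hl B) μ o o').fz (c.D.L.J x.1 - x.2)
            (c.D.L.J x.1 - x.2)) ((c.erun hm).m * (c.erun hm).b1) (c.D.L.J x.1 - x.2)) else 0) ≤
        (if x ∈ labs c.toC1 B then f x else 0) + (if x.1 = c.D.L.lev c.D.n then q else 0) := by
    rintro ⟨a, r⟩ hx
    dsimp only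
    split_ifs with hc h1 h2 h2 h1 h2 h2
    all_goals try (first
      | exact add_nonneg (hf0 _) hq
      | exact add_nonneg (hf0 _) le_rfl
      | exact add_nonneg le_rfl hq
      | exact add_nonneg le_rfl le_rfl)
    all_goals
      obtain ⟨c1, c2, c3, c4, c5⟩ := hc
      have c1' := c1
      unfold S3.IdK at c1'
      rw [Finset.mem_filter, Finset.mem_Icc] at c1'
      obtain ⟨⟨g1, g2⟩, g3, g4, g5⟩ := c1'
      have g2' : c.D.L.J a - r ≤ c.D.n := g2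
      have hN := hIn _ c1
      have hlev : c.D.L.lev (c.D.L.J a - r) = a := lev_sub c.D.L c2
      rw [H61.Reg.lv_eq hH hN, hlev] at g3 g4
      obtain ⟨v1, v2, v3⟩ := hV a g3 g4
      have hp := pair_le (hm := hm) (k0 := k0) (hk := hk) (hl := hl) (μ := μ) (o := o) (o' := o') (bV := bV) (B := B)
        (d := d) H v1 v3 c2 hN c3 c5 g5
      have hp' := hp.trans (miX_le c.toC1 c.Q c.RC (a, r) _)
    · -- label, level of the stop
      refine (show _ ≤ q from hp').trans ?_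
      have := hf0 (a, r)
      linarith
    · -- label, not the level of the stop
      rw [add_zero]
      have hst : c.I.m * a < c.I.num.A ∧ c.I.rs + c.I.m * c.RC a < c.I.num.QK := by
        by_contra hcon
        have := lev_stop g2' (by rw [hlev]; exact hcon)
        rw [hlev] at this
        exact h2 this
      by_cases h3 : c.b1 + c.RC a + B ≤ Rw c.I.pm.n c.E1 0 a + 2
      · refine hp.trans ?_
        rw [hf]
        dsimp only
        rw [Law.ind_of (show a ∈ Vs ∧ a ∉ Xs ∧ c.rgP B a from ⟨g3, g4, hst.1, hst.2, v2, h3⟩), one_mul]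
        have := mul_nonneg (ind0 (c.flP B a)) hq
        linarith
      · refine (show _ ≤ q from hp').trans ?_
        rw [hf]
        dsimp only
        obtain ⟨-, l2, l3⟩ := lab_num v1 v3 c2 hN
        have g6 : c.I.m * c.b1 + c.D.lk (c.D.L.J a - r) < c.D.lf (c.D.L.J a - r) := g5
        rw [l2, l3] at g6
        have g7 : c.I.m * (c.b1 + (c.RC a - min r 1)) < c.I.m * (Rw c.I.pm.n c.E1 0 a + 2 - (r - 1)) := by
          rw [Nat.mul_add]
          omega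
        have g8 := Nat.lt_of_mul_lt_mul_left g7
        rw [Law.ind_of (show c.flP B a from ⟨by omega, by omega⟩), one_mul]
        have := mul_nonneg (ind0 (a ∈ Vs ∧ a ∉ Xs ∧ c.rgP B a)) (miX_nn c.toC1 (hm := hm) (μ := μ) (o := o)
          (o' := o') (B := B) (d := d) (bV := bV) c.Q c.RC (a, r) (c.I.m * c.b1))
        linarith
    · rw [zero_add]
      exact hp'
    · -- not a label: impossible
      exfalso
      refine h1 ?_
      unfold labs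
      rw [Finset.mem_filter]
      refine ⟨hx, v1, ?_⟩
      have e0 := J_sub_beg c.D.L a
      have e1 : c.D.L.Rm a = c.RC (a - 1) := by
        unfold Lv.Rm
        rw [if_neg (by omega)]
        rfl
      have e2 : c.D.L.R a = c.RC a := rfl
      have e3 : c.D.L.F a = Rw c.I.pm.n c.E1 0 a + 2 := rfl
      have e4 : c.D.L.Fm a = Rw c.I.pm.n c.E1 0 (a - 1) + 2 := by
        unfold Lv.Fm
        rw [if_neg (by omega)]
        rfl
      rw [e1, e2, e3, e4, v3] at e0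
      show r ≤ Rw c.I.pm.n c.E1 0 a - Rw c.I.pm.n c.E1 0 (a - 1) + 1
      omega
  refine (Finset.sum_le_sum key).trans ?_
  rw [Finset.sum_add_distrib]
  refine add_le_add ?_ ?_
  · rw [← Finset.sum_filter]
    refine Finset.sum_le_sum_of_subset_of_nonneg ?_ fun x _ _ => hf0 x
    intro x hx
    exact (Finset.mem_filter.1 hx).2
  · rw [Finset.sum_product]
    have e : ∀ a ∈ range (c.I.ha + 1), (∑ _r ∈ range (B + 1), if a = c.D.L.lev c.D.n then q else 0) =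
        if a = c.D.L.lev c.D.n then (B + 1) * q else 0 := by
      intro a _
      rw [Finset.sum_const, Finset.card_range, nsmul_eq_mul]
      split_ifs
      · push_cast; ring
      · ring
    rw [Finset.sum_congr rfl e, Finset.sum_ite_eq']
    split_ifs
    · exact le_rfl
    · positivity

end C2

end Vale.Agent.P106.U.H565
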