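import Vale.Agent.P106.U.H470.V2Row
import Vale.Agent.P106.U.H470.V2Pl

/-!
# P106 / U / H470 / V2Win : the row [V2] over the caps of a window (helper470)

* `Yw` : the young levels of the places.  `C1.v2At` : the left side of `F2o.V2` at the place `(k, e)`, `0` if a bit is false.
* **`v2_win`** : `∑_(k < N) Q1.ex (v2At k (w k)) ≤ #labs ((L K3 + L K1 (N + L K3) / K3) + B) d m log 2
  + N (B + 1) d m log 2 + ∑_labs ∑_k cM (√P(Bad b_k) + √P(Bad bV_k))`.
* `C1.bd_place` : the exceptional events are those of the frozen paths of the places, all levels.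
-/

set_option autoImplicit false

namespace Vale.Agent.P106.U.H565

open Finset Vale.Agent.P127 Vale.Agent.P127.Stk Vale.Agent.P127.U Vale.Agent.P106.W
open Vale.Agent.P106.K (Ry RyOk bl Bin)
open Vale.Agent.P127.U.CellD (q2 rd q2_pos q2_le q2_mul_pow fl1_fl1)
open Vale.Agent.P106.U Vale.Agent.P106.U.H449 Vale.Agent.P106.U.StripL Vale.Agent.P106.U.StripE
open Vale.Agent.P106.U.LinkR Vale.Agent.P106.U.InsL Vale.Agent.P106.U.InpC Vale.Agent.P106.U.LSide
open Vale.Agent.P106.U.LinkW2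
open Vale.Agent.P106.U.H823.NumG Vale.Agent.P106.U.H823.PathNum Vale.Agent.P106.U.H823.PathP
open Vale.Agent.P106.U.H428.Cls (Dt)
open Vale.Agent.P106.U.H785.Mtr Vale.Agent.P106.U.H470
open Vale.Agent.P106.U.H661.Age

variable {Ω : Type} [Fintype Ω]

theorem ex_split {ι : Type*} (Q : Law Ω) (S : Finset ι) (f g : ι → Ω → ℝ) (q r : ℝ) :
    Q.ex (fun ω => ∑ x ∈ S, (f x ω + g x ω * q) + r) = ∑ x ∈ S, (Q.ex (f x) + Q.ex (g x) * q) + r := by
  unfold Law.ex
  have h1 : ∀ ω, Q.w ω * (∑ x ∈ S, (f x ω + g x ω * q) + r) =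
      ∑ x ∈ S, (Q.w ω * f x ω + Q.w ω * g x ω * q) + Q.w ω * r := by
    intro ω
    rw [mul_add, Finset.mul_sum]
    congr 1
    exact Finset.sum_congr rfl fun x _ => by ring
  rw [Finset.sum_congr rfl fun ω _ => h1 ω, Finset.sum_add_distrib, ← Finset.sum_mul, Q.sum_one, one_mul, Finset.sum_comm]
  congr 1
  refine Finset.sum_congr rfl fun x _ => ?_
  rw [Finset.sum_add_distrib, Finset.sum_mul]

theorem ex_sum0 {ι : Type*} (Q : Law Ω) (S : Finset ι) (f : ι → Ω → ℝ) :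
    Q.ex (fun ω => ∑ x ∈ S, f x ω) = ∑ x ∈ S, Q.ex (f x) := by
  unfold Law.ex
  simp only [Finset.mul_sum]
  exact Finset.sum_comm

/-- counting the flicker -/
theorem flick_card (g : ℕ → ℕ) (hg : StrictMono g) (F B N : ℕ) :
    ((range N).filter fun k => F < g k + B ∧ g k ≤ F).card ≤ B := by
  refine (Finset.card_le_card_of_injOn (fun k => F - g k) (t := range B) ?_ ?_).trans (le_of_eq (Finset.card_range B))
  · intro k hk
    simp only [Finset.coe_filter, Finset.mem_range, Set.mem_ofPred_eq] at hk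
    show F - g k ∈ (↑(range B) : Set ℕ)
    rw [Finset.mem_coe, Finset.mem_range]
    omega
  · intro k hk k' hk' e
    simp only [Finset.coe_filter, Finset.mem_range, Set.mem_ofPred_eq] at hk hk'
    dsimp only at e
    exact hg.injective (by omega)

namespace C1

variable {c : C1 Ω} {hm : 3 ≤ c.I.m} {cc : ℝ} {V : Type} {in0 : ∀ ω, c.d0.In (c.tW ω) (c.κ ω)} {hc : 0 ≤ cc}
  {b0 s T : ℕ} {w : ℕ → Ω → V} {bit : ℕ → V → Prop} {o1 : Fin 7 → ℝ} {oK oG oN : ℝ}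

variable (c hm cc) in
/-- **the young levels of the places** -/
structure Yw (b0 s N K1 : ℕ) (w : ℕ → Ω → V) (bit : ℕ → V → Prop) (Vs Xs : ℕ → V → Finset ℕ) : Prop where
  yg : ∀ k < N, ∀ ω, 0 < c.Q1.w ω → bit k (w k ω) → ∀ v ∈ Vs k (w k ω), v ∉ Xs k (w k ω) → 1 ≤ v ∧ v ≤ c.I.ha ∧
    c.rz hm cc b0 s w k (w k ω) (v - 1) + 2 ≤ Rw c.I.pm.n c.E1 1 (v - 1) ∧
    ag (fun j ω => c.RT hm cc c.Q1 (b0 + j * s) v ω) k ω < K1

open Classical in
variable (c hm cc) in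
/-- the left side of `F2o.V2` at the place `(k, e)` -/
noncomputable def v2At (in0 : ∀ ω, c.d0.In (c.tW ω) (c.κ ω)) (hc : 0 ≤ cc) (b0 s B : ℕ) (w : ℕ → Ω → V)
    (bit : ℕ → V → Prop) (o1 : Fin 7 → ℝ) (oK oG oN : ℝ) (bV : ℕ → ℕ) (Vs Xs : ℕ → V → Finset ℕ) (μ : ℕ)
    (o : Fin 7 → ℝ) (o' : ℕ → ℝ) (d k : ℕ) (e : V) : ℝ :=
  if h : 0 < c.Q1.pr (w k) e ∧ bit k e then
    v2S ((c.mk2 hm cc in0 hc (b0 + k * s) (w k) e h.1 4 o1 oK oG oN).erun hm)
      (c.mk2 hm cc in0 hc (b0 + k * s) (w k) e h.1 4 o1 oK oG oN).num B (bV k)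
      ((c.mk2 hm cc in0 hc (b0 + k * s) (w k) e h.1 4 o1 oK oG oN).pfd hm (fun _ => 0) (fun _ _ _ => le_rfl)
        (fun _ => Nat.zero_le _) B) (Vs k e) (Xs k e) μ o o' d
  else 0

/-- the exceptional event of the label `x` at the cap `k`, digits `b` -/
noncomputable def bd (c : C1 Ω) (hm : 3 ≤ c.I.m) (cc : ℝ) (B b0 s : ℕ) (w : ℕ → Ω → V) (bit : ℕ → V → Prop) (μ : ℕ)
    (o : Fin 7 → ℝ) (o' : ℕ → ℝ) (K : ℝ) (x : ℕ × ℕ) (k b : ℕ) : Ω → Prop :=
  Bd (c.Cg hm cc B b0 s w bit x.1) (c.Xl hm cc μ o o' b0 s w x.1 x.2) w (4 * K) k b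

open Classical in
/-- **the row [V2] over one window** -/
theorem Wn.v2_win {N L K3 K1 : ℕ} (H : c.Wn hm cc in0 hc b0 s (N + L * K3) w bit o1 oK oG oN) {K : ℝ} {B μ : ℕ}
    {bV : ℕ → ℕ} (Hn : Nw c K B b0 s N μ L K3 bV) {Vs Xs : ℕ → V → Finset ℕ}
    (Hy : Yw c hm cc b0 s N K1 w bit Vs Xs) (o : Fin 7 → ℝ) (o' : ℕ → ℝ) (d : ℕ) :
    ∑ k ∈ range N, c.Q1.ex (fun ω => c.v2At hm cc in0 hc b0 s B w bit o1 oK oG oN bV Vs Xs μ o o' d k (w k ω)) ≤
      (labs c B).card * (((L * K3 + (L * K1 * (N + L * K3) : ℝ) / K3) + B) * (d * c.I.m * Real.log 2)) +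
        N * ((B + 1) * (d * c.I.m * Real.log 2)) +
        ∑ x ∈ labs c B, (∑ k ∈ range N, cM (4 * K) * Real.sqrt (prE c.Q1 (c.bd hm cc B b0 s w bit μ o o' K x k
            (c.I.m * (b0 + k * s)))) +
          ∑ k ∈ range N, cM (4 * K) * Real.sqrt (prE c.Q1 (c.bd hm cc B b0 s w bit μ o o' K x k (bV k)))) := by
  have hq : 0 ≤ d * c.I.m * Real.log 2 := by
    have := Real.log_nonneg (x := 2) (by norm_num)
    positivity
  set q : ℝ := d * c.I.m * Real.log 2 with hqd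
  -- flicker of a level, at a point
  set fl : ℕ → ℕ → Ω → Prop := fun a k ω => Rw c.I.pm.n c.E1 0 a + 2 <
    b0 + k * s + c.rz hm cc b0 s w k (w k ω) a + B ∧ b0 + k * s + c.rz hm cc b0 s w k (w k ω) a ≤
      Rw c.I.pm.n c.E1 0 a + 2 with hfl
  set M : ℕ × ℕ → ℕ → Ω → ℝ := fun x k ω => Law.ind (ag (fun j ω => c.RT hm cc c.Q1 (b0 + j * s) x.1 ω) k ω < K1 ∧
      c.Cg hm cc B b0 s w bit x.1 k (w k ω)) *
    c.miX hm (c.Q1.cond (w k) (w k ω)) μ o o' B d (c.rz hm cc b0 s w k (w k ω)) x (c.I.m * (b0 + k * s)) (bV k) with hM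
  have h1 : ∀ k < N, ∀ ω, 0 < c.Q1.w ω →
      c.v2At hm cc in0 hc b0 s B w bit o1 oK oG oN bV Vs Xs μ o o' d k (w k ω) ≤
        ∑ x ∈ labs c B, (M x k ω + Law.ind (fl x.1 k ω) * q) + (B + 1) * q := by
    intro k hk ω hω
    have hz := c.Q1.pr_pos (w k) hω
    unfold v2At
    split_ifs with hb
    · obtain ⟨Rm, Ac, rc, HH⟩ := H.hyp k (by omega) (w k ω) hb.1 hb.2
      have hy := Hy.yg k hk ω hω hb.2
      refine (C2.v2_place (c := c.mk2 hm cc in0 hc (b0 + k * s) (w k) (w k ω) hb.1 4 o1 oK oG oN) (hm := hm) HH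
        (fun v hv hv' => ?_)).trans ?_
      · obtain ⟨y1, y2, y3, _⟩ := hy v hv hv'
        have h3 := H.rz_lag (k := k) (a := v - 1) (by omega) hω y3
        rw [show v - 1 + 1 = v by omega] at h3
        exact ⟨y1, y3, h3⟩
      · refine add_le_add_left (Finset.sum_le_sum fun x _ => ?_) _
        refine add_le_add ?_ ?_
        · refine mul_le_mul_of_nonneg_right ?_ (C2.miX_nn c _ _ _ _)
          by_cases hp : x.1 ∈ Vs k (w k ω) ∧ x.1 ∉ Xs k (w k ω) ∧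
              (c.mk2 hm cc in0 hc (b0 + k * s) (w k) (w k ω) hb.1 4 o1 oK oG oN).rgP B x.1
          · rw [Law.ind_of hp]
            refine le_of_eq (Law.ind_of ?_).symm
            obtain ⟨y1, y2, y3, y4⟩ := hy x.1 hp.1 hp.2.1
            exact ⟨y4, hz, hb.2, hp.2.2.1, hp.2.2.2.1, hp.2.2.2.2.1, hp.2.2.2.2.2⟩
          · rw [Law.ind_not hp]
            exact ind0 _
        · exact le_rfl
    · refine add_nonneg (Finset.sum_nonneg fun x _ => add_nonneg (mul_nonneg (ind0 _) (C2.miX_nn c _ _ _ _))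
        (mul_nonneg (ind0 _) hq)) (by positivity)
  have h2 : ∑ k ∈ range N, c.Q1.ex (fun ω => c.v2At hm cc in0 hc b0 s B w bit o1 oK oG oN bV Vs Xs μ o o' d k (w k ω)) ≤
      ∑ x ∈ labs c B, ∑ k ∈ range N, (c.Q1.ex (M x k) + c.Q1.ex (fun ω => Law.ind (fl x.1 k ω)) * q) +
        N * ((B + 1) * q) := by
    have e1 : ∀ k ∈ range N, c.Q1.ex (fun ω => c.v2At hm cc in0 hc b0 s B w bit o1 oK oG oN bV Vs Xs μ o o' d k (w k ω)) ≤
        ∑ x ∈ labs c B, (c.Q1.ex (M x k) + c.Q1.ex (fun ω => Law.ind (fl x.1 k ω)) * q) + (B + 1) * q := by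
      intro k hk
      exact (c.Q1.ex_mono fun ω hω => h1 k (Finset.mem_range.1 hk) ω hω).trans (le_of_eq
        (ex_split c.Q1 (labs c B) (fun x => M x k) (fun x ω => Law.ind (fl x.1 k ω)) q ((B + 1) * q)))
    refine (Finset.sum_le_sum e1).trans (le_of_eq ?_)
    rw [Finset.sum_add_distrib, Finset.sum_comm, Finset.sum_const, Finset.card_range, nsmul_eq_mul]
  refine h2.trans ?_
  have h3 : ∀ x ∈ labs c B, ∑ k ∈ range N, (c.Q1.ex (M x k) + c.Q1.ex (fun ω => Law.ind (fl x.1 k ω)) * q) ≤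
      ((L * K3 + (L * K1 * (N + L * K3) : ℝ) / K3) + B) * q +
        (∑ k ∈ range N, cM (4 * K) * Real.sqrt (prE c.Q1 (c.bd hm cc B b0 s w bit μ o o' K x k (c.I.m * (b0 + k * s)))) +
          ∑ k ∈ range N, cM (4 * K) * Real.sqrt (prE c.Q1 (c.bd hm cc B b0 s w bit μ o o' K x k (bV k)))) := by
    intro x hx
    unfold labs at hx
    rw [Finset.mem_filter, Finset.mem_product, Finset.mem_range, Finset.mem_range] at hx
    obtain ⟨⟨x1, x2⟩, x3, x4⟩ := hx
    rw [Finset.sum_add_distrib, ← Finset.sum_mul]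
    have f := H.fa Hn o o' x3 (show x.1 ≤ c.I.ha by omega) (show x.2 ≤ B by omega) x4
    have g := V2_lab c.Q1 H.ne (κ := fun k ω => c.RT hm cc c.Q1 (b0 + k * s) x.1 ω)
      (fun k ω ω' p p' e => H.det k ω ω' p p' e x.1 (by omega))
      (fun ω k k' hk => C0.rt_mono c.cn (Nat.add_le_add_left (Nat.mul_le_mul_right s hk) b0) ω x.1)
      (K1 := K1) (K3 := K3) (q := d * c.I.m) (by have := Hn.K31; omega) f (by have := Hn.K6; linarith)
    have e1 : ∑ k ∈ range N, c.Q1.ex (M x k) ≤ (L * K3 + (L * K1 * (N + L * K3) : ℝ) / K3) * q +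
        ∑ k ∈ range N, cM (4 * K) * Real.sqrt (prE c.Q1 (c.bd hm cc B b0 s w bit μ o o' K x k (c.I.m * (b0 + k * s)))) +
          ∑ k ∈ range N, cM (4 * K) * Real.sqrt (prE c.Q1 (c.bd hm cc B b0 s w bit μ o o' K x k (bV k))) := by
      refine le_trans (le_of_eq ?_) (g.trans (le_of_eq ?_))
      · rfl
      · push_cast
        rfl
    have e2 : (∑ k ∈ range N, c.Q1.ex (fun ω => Law.ind (fl x.1 k ω))) ≤ B := by
      rw [← ex_sum0 c.Q1 (range N) fun k ω => Law.ind (fl x.1 k ω)]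
      rw [← c.Q1.ex_const (B : ℝ)]
      refine c.Q1.ex_mono fun ω hω => ?_
      have hg : StrictMono fun k => b0 + k * s + c.RT hm cc c.Q1 (b0 + k * s) x.1 ω := by
        refine strictMono_nat_of_lt_succ fun k => ?_
        have g1 : c.RT hm cc c.Q1 (b0 + k * s) x.1 ω ≤ c.RT hm cc c.Q1 (b0 + (k + 1) * s) x.1 ω :=
          C0.rt_mono (hm := hm) (cc := cc) c.cn
            (Nat.add_le_add_left (Nat.mul_le_mul_right s (Nat.le_succ k)) b0) ω x.1
        have g2 : k * s < (k + 1) * s := Nat.mul_lt_mul_of_pos_right (Nat.lt_succ_self k) Hn.s1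
        show b0 + k * s + _ < b0 + (k + 1) * s + _
        omega
      have g3 := flick_card _ hg (Rw c.I.pm.n c.E1 0 x.1 + 2) B N
      have g4 : ∑ k ∈ range N, Law.ind (fl x.1 k ω) =
          (((range N).filter fun k => Rw c.I.pm.n c.E1 0 x.1 + 2 <
            b0 + k * s + c.RT hm cc c.Q1 (b0 + k * s) x.1 ω + B ∧
            b0 + k * s + c.RT hm cc c.Q1 (b0 + k * s) x.1 ω ≤ Rw c.I.pm.n c.E1 0 x.1 + 2).card : ℝ) := by
        rw [Finset.card_filter]
        push_cast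
        refine Finset.sum_congr rfl fun k _ => ?_
        have hiff : fl x.1 k ω ↔ (Rw c.I.pm.n c.E1 0 x.1 + 2 <
            b0 + k * s + c.RT hm cc c.Q1 (b0 + k * s) x.1 ω + B ∧
            b0 + k * s + c.RT hm cc c.Q1 (b0 + k * s) x.1 ω ≤ Rw c.I.pm.n c.E1 0 x.1 + 2) := by
          rw [← H.rz_eq (k := k) (a := x.1) (by omega) hω]
        by_cases hP : fl x.1 k ω
        · rw [Law.ind_of hP, if_pos (hiff.1 hP)]
        · rw [Law.ind_not hP, if_neg fun h => hP (hiff.2 h)]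
      rw [g4]
      exact_mod_cast g3
    have e3 := mul_le_mul_of_nonneg_right e2 hq
    linarith
  have h4 := Finset.sum_le_sum h3
  rw [Finset.sum_add_distrib (s := labs c B), Finset.sum_const, nsmul_eq_mul] at h4
  linarith

end C1

end Vale.Agent.P106.U.H565
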