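import Vale.Agent.P106.U.H470.V2Bd
import Vale.Agent.P106.U.H122.V2Fin

/-!
# P106 / U / H470 / V2BdW : the exceptional events of the row [V2] over the windows of helper712 (helper470)

* `at_place` : one place: index of the label, its exceptional event.
* **`bd_place`** : `∑_labels P(bd x k b) ≤ E [1{good} ∑_(i ∈ IdK (all levels)) P(Bad of (mt ..).fz i i at (i, b))]`.
-/

set_option autoImplicit false

namespace Vale.Agent.P106.U.H470.V2BdW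

open Finset Vale.Agent.P127 Vale.Agent.P127.Stk Vale.Agent.P127.U Vale.Agent.P106.W
open Vale.Agent.P127.U.CellD (q2 q2_pos q2_le q2_add)
open Vale.Agent.P106.U Vale.Agent.P106.U.H449 Vale.Agent.P106.U.LinkR
open Vale.Agent.P106.U.H565 Vale.Agent.P106.U.H823.NumW Vale.Agent.P106.U.H823.PathNum
open Vale.Agent.P106.U.S3 (Run Pf)
open Vale.Agent.P106.U.H61.Ext2 Vale.Agent.P106.U.H61.PS
open Vale.Agent.P106.U.H712.Fam (Win Vl Pl pfC)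
open Vale.Agent.P106.U.H122.V2Fin (wc1 wn_of)
open Vale.Agent.P106.U.H61.Reg (beg)

variable {Ω : Type} [Fintype Ω]

/-- **one place** -/
theorem at_place {C : C2 Ω} {h3 : 3 ≤ C.I.m} {Rm : ℕ} {cc : ℝ} {Ac rc : ℕ} (H : C.Hyp Rm cc Ac rc) {B : ℕ} (hB : 1 ≤ B)
    (R0 : ℕ → ℕ) {a r : ℕ} (hx : (a, r) ∈ labs C.toC1 B) (hR : C.RC a = C.RC (a - 1) + 1) (h : C.rgP B a) (μ : ℕ)
    (o : Fin 7 → ℝ) (o' : ℕ → ℝ) (K : ℝ) (b : ℕ) :
    C.D.L.J a - r ∈ S3.IdK (C.erun h3) (H101.Off.allV (C.erun h3)) ∅ ∧ beg C.D.L a + r ≤ C.D.L.J a ∧ ∀ ω,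
      ((C.xd h3 μ o o' C.RC a (Rw C.I.pm.n C.E1 0 a + 2 - (r - 1)) (C.RC a - min r 1)).p1 0).Bad K 0 b ω →
      ((S3.mt (C.erun h3) (pfC C h3 R0 B) μ o o').fz (C.D.L.J a - r) (C.D.L.J a - r)).Bad K (C.D.L.J a - r) b ω := by
  classical
  obtain ⟨⟨e1, e2⟩, e3, e4⟩ := C2.lab_idx (hm := h3) H hB hx hR h
  have hb := C2.lab_beg hx hR
  refine ⟨?_, hb, fun ω hω => ?_⟩
  · unfold S3.IdK
    rw [Finset.mem_filter, Finset.mem_Icc]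
    exact ⟨⟨e1, e2⟩, H101.Off.lv_allV _ e2, Finset.notMem_empty _, e4⟩
  · have ha : 1 ≤ a := by
      unfold labs at hx
      exact (Finset.mem_filter.1 hx).2.1
    have hN : C.D.L.J a - r ≤ C.D.N := le_trans (show C.D.L.J a - r ≤ C.D.n from e2) (PN.n_le _)
    unfold pfC
    split_ifs with hk
    · exact (C2.bad_iff (hm := h3) (B := B) (k0 := H715.RegR.k0 C.D R0) (hk := hk.1) (hl := hk.2) ha hR hb hN K b ω).1 hω
    · exact (C2.bad_iff (hm := h3) (B := B) (k0 := fun _ => 0) (hk := fun _ _ _ => le_rfl) (hl := fun _ => Nat.zero_le _)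
        ha hR hb hN K b ω).1 hω

section win

variable (w : Win Ω)

/-- one place of the window -/
theorem at_win {Rm : ℕ} (h : w.Ho Rm) (p : H712.Fam.Par) (hB : 1 ≤ p.B) {k : ℕ} {ω : Ω} (hω : 0 < w.Q1.w ω) {x : ℕ × ℕ}
    (hx : x ∈ labs (wc1 w) p.B) (hC : (wc1 w).Cg w.hm w.cc p.B w.b0 w.s (fun k => w.Z k) Win.good x.1 k (w.Z k ω)) (μ : ℕ)
    (o : Fin 7 → ℝ) (o' : ℕ → ℝ) (K : ℝ) (b : ℕ) :
    (w.cv k (w.Z k ω)).D.L.J x.1 - x.2 ∈ S3.IdK (w.R k (w.Z k ω)) (H101.Off.allV (w.R k (w.Z k ω))) ∅ ∧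
      beg (w.cv k (w.Z k ω)).D.L x.1 + x.2 ≤ (w.cv k (w.Z k ω)).D.L.J x.1 ∧ ∀ ω',
      (((wc1 w).Xl w.hm w.cc μ o o' w.b0 w.s (fun k => w.Z k) x.1 x.2 k (w.Z k ω)).p1 0).Bad K 0 b ω' →
      ((S3.mt (w.R k (w.Z k ω)) (w.F p k (w.Z k ω)) μ o o').fz ((w.cv k (w.Z k ω)).D.L.J x.1 - x.2)
        ((w.cv k (w.Z k ω)).D.L.J x.1 - x.2)).Bad K ((w.cv k (w.Z k ω)).D.L.J x.1 - x.2) b ω' := by
  classical
  have hz := hC.1
  have hg : Win.good k (w.Z k ω) := hC.2.1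
  have hW := wn_of w h (k + 1)
  have ha : 1 ≤ x.1 ∧ x.1 ≤ w.c.I.ha := by
    unfold labs at hx
    rw [Finset.mem_filter, Finset.mem_product, Finset.mem_range, Finset.mem_range] at hx
    have h1 : x.1 < w.c.I.ha + 1 := hx.1.1
    exact ⟨hx.2.1, by omega⟩
  have hR := hW.rz_lag (k := k) (a := x.1 - 1) (show x.1 - 1 < w.c.I.ha by omega) hω hC.2.2.2.2.1
  rw [show x.1 - 1 + 1 = x.1 by omega] at hR
  obtain ⟨Ac, rc, H⟩ := h.hyp k (w.Z k ω) hz hg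
  rw [w.cv_eq hz] at H
  have e := w.cv_eq hz
  have h3 := w.cv_m k (w.Z k ω)
  show (w.cv k (w.Z k ω)).D.L.J x.1 - x.2 ∈ S3.IdK ((w.cv k (w.Z k ω)).erun h3)
      (H101.Off.allV ((w.cv k (w.Z k ω)).erun h3)) ∅ ∧
      beg (w.cv k (w.Z k ω)).D.L x.1 + x.2 ≤ (w.cv k (w.Z k ω)).D.L.J x.1 ∧ ∀ ω',
      (((wc1 w).Xl w.hm w.cc μ o o' w.b0 w.s (fun k => w.Z k) x.1 x.2 k (w.Z k ω)).p1 0).Bad K 0 b ω' →
      ((S3.mt ((w.cv k (w.Z k ω)).erun h3) (pfC (w.cv k (w.Z k ω)) h3 (w.rt (w.Z k ω) 0) p.B) μ o o').fz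
        ((w.cv k (w.Z k ω)).D.L.J x.1 - x.2) ((w.cv k (w.Z k ω)).D.L.J x.1 - x.2)).Bad K
        ((w.cv k (w.Z k ω)).D.L.J x.1 - x.2) b ω'
  revert h3
  rw [e]
  intro h3
  exact at_place (C := w.c.c2 w.hm w.cc w.gd w.cn w.in0 w.hc w.s w.bt w.b0 k (w.Z k ω) hz w.oO w.oK w.oG w.oN) (h3 := h3)
    H hB _ hx hR ⟨hC.2.2.1, hC.2.2.2.1, hC.2.2.2.2.1, hC.2.2.2.2.2⟩ μ o o' K b

/-- the law of a place -/
theorem R_Q {k : ℕ} {z : Vl} (hz : 0 < w.Q1.pr (w.Z k) z) : (w.R k z).Q = w.Q1.cond (w.Z k) z := by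
  have e := w.cv_eq hz
  show (w.cv k z).Q = _
  rw [e]
  rfl

open Classical in
/-- **the exceptional events of the labels are those of the places** -/
theorem bd_place {Rm : ℕ} (h : w.Ho Rm) (p : H712.Fam.Par) (hB : 1 ≤ p.B) (μ : ℕ) (o : Fin 7 → ℝ) (o' : ℕ → ℝ) (K : ℝ)
    (k b : ℕ) :
    ∑ x ∈ labs (wc1 w) p.B, prE w.Q1 ((wc1 w).bd w.hm w.cc p.B w.b0 w.s (fun k => w.Z k) Win.good μ o o' K x k b) ≤
      w.Q1.ex (fun ω => if Win.good k (w.Z k ω) then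
        ∑ i ∈ S3.IdK (w.R k (w.Z k ω)) (H101.Off.allV (w.R k (w.Z k ω))) ∅,
          prE (w.R k (w.Z k ω)).Q (((S3.mt (w.R k (w.Z k ω)) (w.F p k (w.Z k ω)) μ o o').fz i i).Bad
            (640 * (8 * (4 * K)) ^ 7) i b) else 0) := by
  have g := H122.RowN.sum_prE_le w.Q1 (w.Z k) (labs (wc1 w) p.B)
    (fun x e => (wc1 w).Cg w.hm w.cc p.B w.b0 w.s (fun k => w.Z k) Win.good x.1 k e)
    (fun x e ω => (((wc1 w).Xl w.hm w.cc μ o o' w.b0 w.s (fun k => w.Z k) x.1 x.2 k e).p1 0).Bad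
      (640 * (8 * (4 * K)) ^ 7) 0 b ω)
    (fun z => S3.IdK (w.R k z) (H101.Off.allV (w.R k z)) ∅) (fun x z => (w.cv k z).D.L.J x.1 - x.2)
    (fun z i => ((S3.mt (w.R k z) (w.F p k z) μ o o').fz i i).Bad (640 * (8 * (4 * K)) ^ 7) i b) (Win.good k)
    (fun x hx ω hω hC => ⟨hC.2.1, (at_win w h p hB hω hx hC μ o o' 1 b).1⟩)
    (fun ω hω x hx y hy hCx hCy e => C2.lab_inj (a := x.1) (r := x.2) (a' := y.1) (r' := y.2)
      (at_win w h p hB hω hx hCx μ o o' 1 b).2.1 (at_win w h p hB hω hy hCy μ o o' 1 b).2.1 e)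
    (fun x hx ω hω hC ω' _ hE => (at_win w h p hB hω hx hC μ o o' _ b).2.2 ω' hE)
  refine le_trans (le_of_eq rfl) (g.trans (le_of_eq ?_))
  refine w.Q1.ex_congr fun ω hω => ?_
  split_ifs with hg
  · rw [R_Q w (w.Q1.pr_pos (w.Z k) hω)]
  · rfl

end win

end Vale.Agent.P106.U.H470.V2BdW
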