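import Vale.Agent.P106.U.H470.AgeP

/-!
# P106 / U / H470 / Fib : the sums of the ladder in the form of laws conditioned on the word, helper470

One family of steps.  `w k` = joint word up to the cap `k` (exactly nested), `κ k` = index, a function of `w k`.
For a VALUE `e` of the word: cell `D k e`, letter `Θ k e`, finer letter `E k e` (fixed paths, one for every word).
`fib w X ω := X (w ω) ω`.

* `hc_fib`, `mi_fib` : entropies of the random families = means over the words.
* **`kap_fib`** : `∑_k E [1{K1 ≤ age} mi (P | w k) (Θ k) (E k) (D k)]` is bounded: field (S) of F2.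
* **`pos_fib`** : `∑_k E [1{age < K1} mi (P | w k) s (X k) (D k)]` is bounded: field (V) of F2.
All hypotheses are about the conditional laws `P | w (k + β)`.
-/

set_option autoImplicit false

namespace Vale.Agent.P106.U.H470.Fib

open Finset Vale.Agent.P127 Vale.Agent.P127.Stk Vale.Agent.P106.U.H661.Age
open Vale.Agent.P106.U.H470.AgeL Vale.Agent.P106.U.H470.AgeP

/-- age `≥ K1`, and the index advances within `β` caps: rare -/
theorem count_leave (k : ℕ → ℕ) (hk : Monotone k) {K1 β : ℕ} (hK : 0 < K1) (K : ℕ) :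
    K1 * ((range K).filter fun b => K1 ≤ age k b ∧ k (b + β) ≠ k b).card ≤ β * K := by
  classical
  -- first change
  have hex : ∀ b, k (b + β) ≠ k b → ∃ j, j < β ∧ k (b + j) = k b ∧ k (b + j + 1) ≠ k b := by
    intro b hb
    have : ∀ n, k (b + n) ≠ k b → ∃ j, j < n ∧ k (b + j) = k b ∧ k (b + j + 1) ≠ k b := by
      intro n
      induction n with
      | zero => intro h; exact absurd rfl h
      | succ n ih =>
        intro h
        by_cases h1 : k (b + n) = k b
        · exact ⟨n, by omega, h1, h⟩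
        · obtain ⟨j, hj, h2, h3⟩ := ih h1
          exact ⟨j, by omega, h2, h3⟩
    exact this β hb
  choose! f hf1 hf2 hf3 using hex
  have hle : ∀ n, age k n ≤ n := by
    intro n
    induction n with
    | zero => exact le_refl _
    | succ n ih =>
      have : age k (n + 1) = if k (n + 1) = k n then age k n + 1 else 0 := rfl
      rw [this]
      split_ifs <;> omega
  have hcard : ((range K).filter fun b => K1 ≤ age k b ∧ k (b + β) ≠ k b).card ≤
      (((range K).filter fun b => age k b = K1) ×ˢ range β).card := by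
    refine Finset.card_le_card_of_injOn (fun b => (b - (age k b - K1), f b)) ?_ ?_
    · intro b hb
      simp only [Finset.coe_filter, Set.mem_ofPred_eq, Finset.mem_range] at hb
      have h0 := hle b
      have h1 := age_back k (b - (age k b - K1)) (age k b - K1) (by
        have : b - (age k b - K1) + (age k b - K1) = b := by omega
        rw [this]; omega)
      have h2 : b - (age k b - K1) + (age k b - K1) = b := by omega
      rw [h2] at h1
      simp only [Finset.coe_product, Finset.coe_filter, Set.mem_prod, Set.mem_ofPred_eq,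
        Finset.mem_range, Finset.coe_range, Set.mem_Iio]
      exact ⟨⟨by omega, by omega⟩, hf1 b hb.2.2⟩
    · intro b hb b' hb' e
      simp only [Finset.coe_filter, Set.mem_ofPred_eq, Finset.mem_range] at hb hb'
      simp only [Prod.mk.injEq] at e
      have g1 := hle b
      have g1' := hle b'
      have h1 := age_back k (b - (age k b - K1)) (age k b - K1) (by
        have : b - (age k b - K1) + (age k b - K1) = b := by omega
        rw [this]; omega)
      have h2 : b - (age k b - K1) + (age k b - K1) = b := by omega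
      rw [h2] at h1
      have h1' := age_back k (b' - (age k b' - K1)) (age k b' - K1) (by
        have : b' - (age k b' - K1) + (age k b' - K1) = b' := by omega
        rw [this]; omega)
      have h2' : b' - (age k b' - K1) + (age k b' - K1) = b' := by omega
      rw [h2'] at h1'
      have hkb : k b = k b' := by rw [h1.2, h1'.2, e.1]
      have q2 := hf2 b hb.2.2
      have q3 := hf3 b hb.2.2
      have q2' := hf2 b' hb'.2.2
      have q3' := hf3 b' hb'.2.2
      rcases lt_trichotomy b b' with h | h | h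
      · exfalso
        refine q3 (le_antisymm ?_ (hk (by omega)))
        rw [hkb, ← q2', ← e.2]
        exact hk (by omega)
      · exact h
      · exfalso
        refine q3' (le_antisymm ?_ (hk (by omega)))
        rw [← hkb, ← q2, e.2]
        exact hk (by omega)
  rw [Finset.card_product, Finset.card_range] at hcard
  have h4 := count_age' k hK K
  calc K1 * _ ≤ K1 * (((range K).filter fun b => age k b = K1).card * β) :=
        Nat.mul_le_mul_left _ hcard
    _ = β * (K1 * ((range K).filter fun b => age k b = K1).card) := by ring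
    _ ≤ β * K := Nat.mul_le_mul_left _ h4

section law

variable {Ω : Type} [Fintype Ω] (P : Law Ω) {S S' T U V W : Type*}

/-- random family -/
def fib (w : Ω → W) (X : W → Ω → S) (ω : Ω) : S := X (w ω) ω

theorem cond_supp {w : Ω → W} {ω ω' : Ω} (hω : 0 < P.w ω) (h : 0 < (P.cond w (w ω)).w ω') :
    0 < P.w ω' ∧ w ω' = w ω := by
  rw [P.cond_w _ _ (P.pr_pos w hω)] at h
  split_ifs at h with h3
  · refine ⟨?_, h3⟩
    by_contra hc
    have : P.w ω' = 0 := le_antisymm (not_lt.1 hc) (P.nn ω')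
    rw [this, zero_div] at h
    exact lt_irrefl _ h
  · exact absurd h (lt_irrefl _)

theorem hc_fib (w : Ω → W) (X : W → Ω → S) (Y : W → Ω → T) :
    hc P (fib w X) (fun ω => (fib w Y ω, w ω)) =
      P.ex (fun ω => hc (P.cond w (w ω)) (X (w ω)) (Y (w ω))) := by
  rw [TV.hc_cond_ex]
  refine P.ex_congr fun ω hω => ?_
  refine hc_congr _ ?_ ?_ ?_ ?_
  · intro a b ha hb e
    have h1 := cond_supp P hω ha
    have h2 := cond_supp P hω hb
    simp only [Prod.mk.injEq, fib, h1.2, h2.2] at e ⊢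
    exact e.1
  · intro a b ha hb e
    have h1 := cond_supp P hω ha
    have h2 := cond_supp P hω hb
    simp only [Prod.mk.injEq, fib, h1.2, h2.2] at e ⊢
    exact e.1
  · intro a b ha hb e
    have h1 := cond_supp P hω ha
    have h2 := cond_supp P hω hb
    simp only [fib, h1.2, h2.2] at e ⊢
    exact e
  · intro a b ha hb e
    have h1 := cond_supp P hω ha
    have h2 := cond_supp P hω hb
    simp only [fib, h1.2, h2.2] at e ⊢
    exact e

theorem mi_fib (w : Ω → W) (X : W → Ω → S) (Y : W → Ω → T) (Z : W → Ω → U) :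
    mi P (fib w X) (fib w Y) (fun ω => (fib w Z ω, w ω)) =
      P.ex (fun ω => mi (P.cond w (w ω)) (X (w ω)) (Y (w ω)) (Z (w ω))) := by
  unfold mi
  rw [P.ex_sub, hc_fib P w X Z, ← hc_fib P w X (fun e ω => (Y e ω, Z e ω))]
  congr 1
  refine hc_congr P (fun _ _ _ _ e => congrArg Prod.fst e) (fun _ _ _ _ e => congrArg Prod.fst e) ?_ ?_
  · intro a b _ _ e
    simp only [Prod.mk.injEq, fib] at e ⊢
    exact ⟨e.1.1, e.1.2, e.2⟩
  · intro a b _ _ e
    simp only [Prod.mk.injEq, fib] at e ⊢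
    exact ⟨⟨e.1, e.2.1⟩, e.2.2⟩

/-- a bound for every word -/
theorem hc_fib_le (w : Ω → W) (X : Ω → S) (Y : W → Ω → T) (c : Ω → ℝ)
    (h : ∀ ω, 0 < P.w ω → hc (P.cond w (w ω)) X (Y (w ω)) ≤ c ω) :
    hc P X (fun ω => (fib w Y ω, w ω)) ≤ P.ex c := by
  have h1 := hc_fib P w (fun _ => X) Y
  have h2 : fib w (fun _ => X) = X := rfl
  rw [h2] at h1
  rw [h1]
  exact P.ex_mono h

variable {w : ℕ → Ω → W} (hW : ∀ b, Fn P (w b) (w (b + 1))) {κ : ℕ → Ω → ℕ}
  (hκ : ∀ b, Fn P (κ b) (w b)) (hmono : ∀ ω, Monotone fun b => κ b ω)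

/-- the cell with its word -/
def Mw (w : ℕ → Ω → W) (D : ℕ → W → Ω → S) (k : ℕ) (ω : Ω) : S × W := (fib (w k) (D k) ω, w k ω)

include hW hκ hmono in
/-- **field (S) of F2, one family** -/
theorem kap_fib (D : ℕ → W → Ω → S) (E : ℕ → W → Ω → S') (Θ : ℕ → W → Ω → V) (N : ℕ) (hN : 1 ≤ N)
    {K1 β K : ℕ} (h1 : 0 < K1) (hβ : β ≤ K1)
    (h2 : ∀ k < K + β, ∀ ω, 0 < P.w ω → K1 ≤ ag κ k ω → ∃ F : Finset V, F.card ≤ N ∧
      ∀ ω', 0 < P.w ω' → w k ω' = w k ω → D k (w k ω) ω' = D k (w k ω) ω → Θ k (w k ω) ω' ∈ F)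
    (ν₁ ν₂ ν₃ : ℕ → Ω → ℝ) (n₁ : ∀ k ω, 0 ≤ ν₁ k ω) (n₂ : ∀ k ω, 0 ≤ ν₂ k ω) (n₃ : ∀ k ω, 0 ≤ ν₃ k ω)
    (hν : ∀ k < K, ∀ ω, 0 < P.w ω → K1 ≤ ag κ k ω → κ (k + β) ω = κ k ω →
      hc (P.cond (w (k + β)) (w (k + β) ω)) (D k (w k ω)) (D (k + β) (w (k + β) ω)) ≤ ν₁ k ω)
    (hΘ : ∀ k < K, ∀ ω, 0 < P.w ω → K1 ≤ ag κ k ω → κ (k + β) ω = κ k ω →
      hc (P.cond (w (k + β)) (w (k + β) ω)) (Θ (k + β) (w (k + β) ω))
        (fun ω' => (Θ k (w k ω) ω', D (k + β) (w (k + β) ω) ω')) ≤ ν₂ k ω)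
    (hE : ∀ k < K, ∀ ω, 0 < P.w ω → K1 ≤ ag κ k ω → κ (k + β) ω = κ k ω →
      hc (P.cond (w (k + β)) (w (k + β) ω)) (E k (w k ω)) (D (k + β) (w (k + β) ω)) ≤ ν₃ k ω) :
    ∑ k ∈ range K, P.ex (fun ω => if K1 ≤ ag κ k ω then
      mi (P.cond (w k) (w k ω)) (Θ k (w k ω)) (E k (w k ω)) (D k (w k ω)) else 0) ≤
      (β + 2 * (β * (K + β) : ℝ) / K1) * Real.log N + ∑ k ∈ range K, P.ex (ν₁ k) +
        ∑ k ∈ range K, P.ex (ν₂ k) + ∑ k ∈ range K, P.ex (ν₃ k) := by
  classical
  have hlog : 0 ≤ Real.log N := Real.log_nonneg (by exact_mod_cast hN)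
  have hK1 : (0 : ℝ) < K1 := by exact_mod_cast h1
  set M : ℕ → Ω → S × W := Mw w D with hMdef
  have hWM : ∀ b, Fn P (w b) (M b) := fun b _ _ _ _ e => congrArg Prod.snd e
  set Θ' : ℕ → Ω → V := fun k => fib (w k) (Θ k) with hΘ'
  -- events are functions of the word
  have hag : ∀ b ω ω', 0 < P.w ω → 0 < P.w ω' → w b ω = w b ω' → ag κ b ω = ag κ b ω' :=
    fun b ω ω' p p' e => age_fn P hW hκ b ω ω' p p' e
  have hback : ∀ b ω ω', 0 < P.w ω → 0 < P.w ω' → w (b + β) ω = w (b + β) ω' → w b ω = w b ω' :=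
    fun b ω ω' p p' e => nest P hW b β ω ω' p p' e
  have hon : ∀ (b : ℕ) (X : Ω → V) (ω a : Ω), 0 < P.w ω →
      0 < (P.cond (w (b + β)) (w (b + β) ω)).w a → (K1 ≤ ag κ b a ∧ κ (b + β) a = κ b a ↔
        K1 ≤ ag κ b ω ∧ κ (b + β) ω = κ b ω) ∧ w b a = w b ω ∧ w (b + β) a = w (b + β) ω := by
    intro b X ω a hω ha
    have q1 := cond_supp P hω ha
    have q2 := hback b a ω q1.1 hω q1.2
    rw [hag b a ω q1.1 hω q2, hκ (b + β) a ω q1.1 hω q1.2, hκ b a ω q1.1 hω q2]
    exact ⟨Iff.rfl, q2, q1.2⟩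
  -- the three fibre bounds
  have c1 : ∀ b < K, hc P (onP K1 β κ b (M b)) (M (b + β)) ≤ P.ex (ν₁ b) := by
    intro b hb
    refine hc_fib_le P (w (b + β)) _ (D (b + β)) _ fun ω hω => ?_
    by_cases hp : K1 ≤ ag κ b ω ∧ κ (b + β) ω = κ b ω
    · refine le_trans (hc_mono_left _ (X' := D b (w b ω)) ?_) (hν b hb ω hω hp.1 hp.2)
      intro a a' ha ha' e
      obtain ⟨i1, i2, i3⟩ := hon b (fun _ => Θ' b ω) ω a hω ha
      obtain ⟨j1, j2, j3⟩ := hon b (fun _ => Θ' b ω) ω a' hω ha'
      simp only [Prod.mk.injEq] at e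
      unfold onP
      rw [if_pos (i1.2 hp), if_pos (j1.2 hp)]
      simp only [hMdef, Mw, fib, i2, j2, e.1]
    · refine le_trans (le_of_eq (hc_zero _ ?_)) (n₁ b ω)
      intro a a' ha ha' _
      obtain ⟨i1, i2, i3⟩ := hon b (fun _ => Θ' b ω) ω a hω ha
      obtain ⟨j1, j2, j3⟩ := hon b (fun _ => Θ' b ω) ω a' hω ha'
      unfold onP
      rw [if_neg (fun h => hp (i1.1 h)), if_neg (fun h => hp (j1.1 h))]
  have c2 : ∀ b < K, hc P (onP K1 β κ b (Θ' (b + β)))
      (fun ω => (onP K1 β κ b (Θ' b) ω, M (b + β) ω)) ≤ P.ex (ν₂ b) := by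
    intro b hb
    have hsw : hc P (onP K1 β κ b (Θ' (b + β))) (fun ω => (onP K1 β κ b (Θ' b) ω, M (b + β) ω)) ≤
        hc P (onP K1 β κ b (Θ' (b + β))) (fun ω =>
          (fib (w (b + β)) (fun e ω => (onP K1 β κ b (Θ' b) ω, D (b + β) e ω)) ω, w (b + β) ω)) := by
      refine hc_mono_right P _ ?_
      intro a a' _ _ e
      simp only [Prod.mk.injEq, fib, hMdef, Mw] at e ⊢
      exact ⟨⟨e.1, e.2.1⟩, e.2.2⟩
    refine hsw.trans ?_
    refine hc_fib_le P (w (b + β)) _ _ _ fun ω hω => ?_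
    by_cases hp : K1 ≤ ag κ b ω ∧ κ (b + β) ω = κ b ω
    · refine le_trans ?_ (hΘ b hb ω hω hp.1 hp.2)
      refine (hc_mono_left _ (X' := Θ (b + β) (w (b + β) ω)) ?_).trans (hc_mono_right _ _ ?_)
      · intro a a' ha ha' e
        obtain ⟨i1, i2, i3⟩ := hon b (fun _ => Θ' b ω) ω a hω ha
        obtain ⟨j1, j2, j3⟩ := hon b (fun _ => Θ' b ω) ω a' hω ha'
        simp only [Prod.mk.injEq] at e
        unfold onP
        rw [if_pos (i1.2 hp), if_pos (j1.2 hp)]
        simp only [hΘ', fib, i3, j3, e.1]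
      · intro a a' ha ha' e
        obtain ⟨i1, i2, i3⟩ := hon b (fun _ => Θ' b ω) ω a hω ha
        obtain ⟨j1, j2, j3⟩ := hon b (fun _ => Θ' b ω) ω a' hω ha'
        simp only [Prod.mk.injEq] at e ⊢
        refine ⟨?_, e.2⟩
        have e1 := e.1
        unfold onP at e1
        rw [if_pos (i1.2 hp), if_pos (j1.2 hp)] at e1
        have e2 := Option.some.inj e1
        simp only [hΘ', fib, i2, j2] at e2
        exact e2
    · refine le_trans (le_of_eq (hc_zero _ ?_)) (n₂ b ω)
      intro a a' ha ha' _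
      obtain ⟨i1, i2, i3⟩ := hon b (fun _ => Θ' b ω) ω a hω ha
      obtain ⟨j1, j2, j3⟩ := hon b (fun _ => Θ' b ω) ω a' hω ha'
      unfold onP
      rw [if_neg (fun h => hp (i1.1 h)), if_neg (fun h => hp (j1.1 h))]
  have c3 : ∀ b < K, hc P (onP K1 β κ b (fib (w b) (E b))) (M (b + β)) ≤ P.ex (ν₃ b) := by
    intro b hb
    refine hc_fib_le P (w (b + β)) _ (D (b + β)) _ fun ω hω => ?_
    by_cases hp : K1 ≤ ag κ b ω ∧ κ (b + β) ω = κ b ω
    · refine le_trans (hc_mono_left _ (X' := E b (w b ω)) ?_) (hE b hb ω hω hp.1 hp.2)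
      intro a a' ha ha' e
      obtain ⟨i1, i2, i3⟩ := hon b (fun _ => Θ' b ω) ω a hω ha
      obtain ⟨j1, j2, j3⟩ := hon b (fun _ => Θ' b ω) ω a' hω ha'
      simp only [Prod.mk.injEq] at e
      unfold onP
      rw [if_pos (i1.2 hp), if_pos (j1.2 hp)]
      simp only [fib, i2, j2, e.1]
    · refine le_trans (le_of_eq (hc_zero _ ?_)) (n₃ b ω)
      intro a a' ha ha' _
      obtain ⟨i1, i2, i3⟩ := hon b (fun _ => Θ' b ω) ω a hω ha
      obtain ⟨j1, j2, j3⟩ := hon b (fun _ => Θ' b ω) ω a' hω ha'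
      unfold onP
      rw [if_neg (fun h => hp (i1.1 h)), if_neg (fun h => hp (j1.1 h))]
  -- values
  have c4 : ∀ b < K + β, ∀ ω, 0 < P.w ω → K1 ≤ ag κ b ω → ∃ F : Finset V, F.card ≤ N ∧
      ∀ ω', 0 < P.w ω' → M b ω' = M b ω → Θ' b ω' ∈ F := by
    intro b hb ω hω hp
    obtain ⟨F, hF, hF2⟩ := h2 b hb ω hω hp
    refine ⟨F, hF, fun ω' h' e => ?_⟩
    simp only [hMdef, Mw, fib, Prod.mk.injEq] at e
    have := hF2 ω' h' e.2 (by rw [← e.1, e.2])
    simp only [hΘ', fib, e.2]
    exact this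
  have main := kap_sumP P hW hWM hκ Θ' N hN h1 hβ c4 (fun b => P.ex (ν₁ b)) (fun b => P.ex (ν₂ b)) c1 c2
  -- one cap
  have hstep : ∀ b ∈ range K, P.ex (fun ω => if K1 ≤ ag κ b ω then
      mi (P.cond (w b) (w b ω)) (Θ b (w b ω)) (E b (w b ω)) (D b (w b ω)) else 0) ≤
      mi P (kapC K1 κ Θ' b) (M (b + β)) (M b) + P.ex (ν₃ b) +
        prE P (fun ω => K1 ≤ ag κ b ω ∧ κ (b + β) ω ≠ κ b ω) * Real.log N := by
    intro b hb
    have hbK := Finset.mem_range.1 hb
    have e0 : P.ex (fun ω => if K1 ≤ ag κ b ω then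
        mi (P.cond (w b) (w b ω)) (Θ b (w b ω)) (E b (w b ω)) (D b (w b ω)) else 0) =
        mi P (kapC K1 κ Θ' b) (fib (w b) (E b)) (M b) := by
      have e1 := mi_fib P (w b) (fun _ => kapC K1 κ Θ' b) (E b) (D b)
      have e2 : fib (w b) (fun _ => kapC K1 κ Θ' b) = kapC K1 κ Θ' b := rfl
      rw [e2] at e1
      rw [hMdef]
      unfold Mw
      rw [e1]
      refine P.ex_congr fun ω hω => ?_
      by_cases hp : K1 ≤ ag κ b ω
      · rw [if_pos hp]
        unfold mi
        congr 1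
        · refine hc_congr _ ?_ ?_ (fun _ _ _ _ e => e) (fun _ _ _ _ e => e)
          · intro a a' ha ha' e
            have q := cond_supp P hω ha
            have q' := cond_supp P hω ha'
            have i1 := hag b a ω q.1 hω q.2
            have i2 := hag b a' ω q'.1 hω q'.2
            simp only [Prod.mk.injEq] at e
            have e3 := e.1
            unfold kapC at e3
            rw [i1, i2, if_pos hp, if_pos hp] at e3
            have e4 := Option.some.inj e3
            simp only [hΘ', fib, q.2, q'.2] at e4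
            exact e4
          · intro a a' ha ha' e
            have q := cond_supp P hω ha
            have q' := cond_supp P hω ha'
            have i1 := hag b a ω q.1 hω q.2
            have i2 := hag b a' ω q'.1 hω q'.2
            simp only [Prod.mk.injEq] at e
            unfold kapC
            rw [i1, i2, if_pos hp, if_pos hp]
            simp only [hΘ', fib, q.2, q'.2, e.1]
        · refine hc_congr _ ?_ ?_ (fun _ _ _ _ e => e) (fun _ _ _ _ e => e)
          · intro a a' ha ha' e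
            have q := cond_supp P hω ha
            have q' := cond_supp P hω ha'
            have i1 := hag b a ω q.1 hω q.2
            have i2 := hag b a' ω q'.1 hω q'.2
            simp only [Prod.mk.injEq] at e
            have e3 := e.1
            unfold kapC at e3
            rw [i1, i2, if_pos hp, if_pos hp] at e3
            have e4 := Option.some.inj e3
            simp only [hΘ', fib, q.2, q'.2] at e4
            exact e4
          · intro a a' ha ha' e
            have q := cond_supp P hω ha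
            have q' := cond_supp P hω ha'
            have i1 := hag b a ω q.1 hω q.2
            have i2 := hag b a' ω q'.1 hω q'.2
            simp only [Prod.mk.injEq] at e
            unfold kapC
            rw [i1, i2, if_pos hp, if_pos hp]
            simp only [hΘ', fib, q.2, q'.2, e.1]
      · rw [if_neg hp]
        symm
        have e5 : hc (P.cond (w b) (w b ω)) (kapC K1 κ Θ' b) (D b (w b ω)) = 0 := by
          refine hc_zero _ ?_
          intro a a' ha ha' _
          have q := cond_supp P hω ha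
          have q' := cond_supp P hω ha'
          unfold kapC
          rw [hag b a ω q.1 hω q.2, hag b a' ω q'.1 hω q'.2, if_neg hp, if_neg hp]
        have e6 := mi_nonneg (P.cond (w b) (w b ω)) (kapC K1 κ Θ' b) (E b (w b ω)) (D b (w b ω))
        have e7 := mi_le_hc (P.cond (w b) (w b ω)) (kapC K1 κ Θ' b) (E b (w b ω)) (D b (w b ω))
        linarith
    rw [e0]
    set Er : Ω → Option S' := onP K1 β κ b (fib (w b) (E b)) with hEr
    have a1 : mi P (kapC K1 κ Θ' b) (fib (w b) (E b)) (M b) ≤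
        mi P (kapC K1 κ Θ' b) (fun ω => ((M (b + β) ω, Er ω), fib (w b) (E b) ω)) (M b) :=
      mi_mono_right P _ fun ω ω' _ _ e => by
        simp only [Prod.mk.injEq] at e
        exact e.1.2
    have a2 := mi_pair P (kapC K1 κ Θ' b) (fun ω => (M (b + β) ω, Er ω)) (fib (w b) (E b)) (M b)
    have a3 := mi_pair P (kapC K1 κ Θ' b) (M (b + β)) Er (M b)
    have a4 : mi P (kapC K1 κ Θ' b) Er (fun ω => (M (b + β) ω, M b ω)) ≤ P.ex (ν₃ b) := by
      refine (mi_le_hc' P _ _ _).trans ((hc_mono_right P _ ?_).trans (c3 b hbK))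
      exact fun ω ω' _ _ e => congrArg Prod.fst e
    have a5 : mi P (kapC K1 κ Θ' b) (fib (w b) (E b)) (fun ω => ((M (b + β) ω, Er ω), M b ω)) ≤
        prE P (fun ω => K1 ≤ ag κ b ω ∧ κ (b + β) ω ≠ κ b ω) * Real.log N := by
      refine mi_local2 P _ _ _ _ N hN ?_ ?_
      · intro ω hω hbad
        by_cases hp : K1 ≤ ag κ b ω
        · left
          have hpc : κ (b + β) ω = κ b ω := by
            by_contra hne
            exact hbad ⟨hp, hne⟩
          intro ω' h' e
          simp only [Prod.mk.injEq] at e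
          have w1 : w (b + β) ω' = w (b + β) ω := hWM (b + β) ω' ω h' hω e.1.1
          have w0 := hback b ω' ω h' hω w1
          have e3 := e.1.2
          rw [hEr] at e3
          unfold onP at e3
          rw [hag b ω' ω h' hω w0, hκ (b + β) ω' ω h' hω w1, hκ b ω' ω h' hω w0, if_pos ⟨hp, hpc⟩,
            if_pos ⟨hp, hpc⟩] at e3
          exact Option.some.inj e3
        · right
          intro ω' h' e
          simp only [Prod.mk.injEq] at e
          have w0 : w b ω' = w b ω := hWM b ω' ω h' hω e.2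
          unfold kapC
          rw [hag b ω' ω h' hω w0, if_neg hp, if_neg hp]
      · intro ω hω hbad
        obtain ⟨F, hF, hF2⟩ := c4 b (by omega) ω hω hbad.1
        refine ⟨F.image some, Finset.card_image_le.trans hF, fun ω' h' e => ?_⟩
        simp only [Prod.mk.injEq] at e
        have w0 : w b ω' = w b ω := hWM b ω' ω h' hω e.2
        unfold kapC
        rw [hag b ω' ω h' hω w0, if_pos hbad.1]
        exact Finset.mem_image_of_mem _ (hF2 ω' h' e.2)
    linarith
  refine (Finset.sum_le_sum hstep).trans ?_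
  rw [Finset.sum_add_distrib, Finset.sum_add_distrib, ← Finset.sum_mul]
  have t2 : ∑ b ∈ range K, prE P (fun ω => K1 ≤ ag κ b ω ∧ κ (b + β) ω ≠ κ b ω) ≤
      (β * (K + β) : ℝ) / K1 := by
    refine sum_prE P _ K _ fun ω _ => ?_
    refine ⟨(range K).filter fun b => K1 ≤ age (fun a => κ a ω) b ∧ κ (b + β) ω ≠ κ b ω, ?_, ?_⟩
    · intro b hb h
      exact Finset.mem_filter.2 ⟨Finset.mem_range.2 hb, h⟩
    · have := count_leave (fun a => κ a ω) (hmono ω) (K1 := K1) (β := β) h1 K
      rw [le_div_iff₀ hK1]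
      have h3 : ((K1 * ((range K).filter fun b => K1 ≤ age (fun a => κ a ω) b ∧
        κ (b + β) ω ≠ κ b ω).card : ℕ) : ℝ) ≤ ((β * K : ℕ) : ℝ) := by exact_mod_cast this
      push_cast at h3
      have h4 : (0 : ℝ) ≤ β * β := by positivity
      nlinarith
  have t3 := mul_le_mul_of_nonneg_right t2 hlog
  have e9 : (β + 2 * (β * (K + β) : ℝ) / K1) * Real.log N =
      (β + (β * (K + β) : ℝ) / K1) * Real.log N + (β * (K + β) : ℝ) / K1 * Real.log N := by ring
  rw [e9]
  linarith

include hW hκ hmono in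
/-- **field (V) of F2, one family** : `s` = time letter (fixed variable), `X k e` = finer cell, hidden curvature
and line digits -/
theorem pos_fib (s : Ω → S') (D : ℕ → W → Ω → S) (X : ℕ → W → Ω → V) (N : ℕ) (hN : 1 ≤ N)
    {K1 K3 L K : ℕ} (h3 : 0 < K3)
    (h2 : ∀ k < K + L * K3, ∀ ω, 0 < P.w ω → ∃ F : Finset S', F.card ≤ N ∧
      ∀ ω', 0 < P.w ω' → w k ω' = w k ω → D k (w k ω) ω' = D k (w k ω) ω → s ω' ∈ F)
    (ν₁ ν₂ : ℕ → Ω → ℝ) (n₂ : ∀ k ω, 0 ≤ ν₂ k ω)
    (hν : ∀ k < K, ∀ ω, 0 < P.w ω →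
      hc (P.cond (w (k + L * K3)) (w (k + L * K3) ω)) (D k (w k ω))
        (D (k + L * K3) (w (k + L * K3) ω)) ≤ ν₁ k ω)
    (hX : ∀ k < K, ∀ ω, 0 < P.w ω → ag κ k ω < K1 → κ k ω + L ≤ κ (k + L * K3) ω →
      hc (P.cond (w (k + L * K3)) (w (k + L * K3) ω)) (X k (w k ω))
        (D (k + L * K3) (w (k + L * K3) ω)) ≤ ν₂ k ω) :
    ∑ k ∈ range K, P.ex (fun ω => if ag κ k ω < K1 then
      mi (P.cond (w k) (w k ω)) s (X k (w k ω)) (D k (w k ω)) else 0) ≤
      (L * K3 + (L * K1 * (K + L * K3) : ℝ) / K3) * Real.log N + ∑ k ∈ range K, P.ex (ν₁ k) +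
        ∑ k ∈ range K, P.ex (ν₂ k) := by
  classical
  set K2 := L * K3 with hK2
  set M : ℕ → Ω → S × W := Mw w D with hMdef
  have hWM : ∀ b, Fn P (w b) (M b) := fun b _ _ _ _ e => congrArg Prod.snd e
  set X' : ℕ → Ω → V := fun k => fib (w k) (X k) with hX'
  have hag : ∀ b ω ω', 0 < P.w ω → 0 < P.w ω' → w b ω = w b ω' → ag κ b ω = ag κ b ω' :=
    fun b ω ω' p p' e => age_fn P hW hκ b ω ω' p p' e
  have hback : ∀ b ω ω', 0 < P.w ω → 0 < P.w ω' → w (b + K2) ω = w (b + K2) ω' → w b ω = w b ω' :=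
    fun b ω ω' p p' e => nest P hW b K2 ω ω' p p' e
  have hon : ∀ (b : ℕ) (ω a : Ω), 0 < P.w ω →
      0 < (P.cond (w (b + K2)) (w (b + K2) ω)).w a → (ag κ b a < K1 ∧ κ b a + L ≤ κ (b + K2) a ↔
        ag κ b ω < K1 ∧ κ b ω + L ≤ κ (b + K2) ω) ∧ w b a = w b ω ∧ w (b + K2) a = w (b + K2) ω := by
    intro b ω a hω ha
    have q1 := cond_supp P hω ha
    have q2 := hback b a ω q1.1 hω q1.2
    rw [hag b a ω q1.1 hω q2, hκ (b + K2) a ω q1.1 hω q1.2, hκ b a ω q1.1 hω q2]
    exact ⟨Iff.rfl, q2, q1.2⟩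
  have c1 : ∀ b < K, hc P (M b) (M (b + K2)) ≤ P.ex (ν₁ b) := by
    intro b hb
    refine hc_fib_le P (w (b + K2)) _ (D (b + K2)) _ fun ω hω => ?_
    refine le_trans (hc_mono_left _ (X' := D b (w b ω)) ?_) (hν b hb ω hω)
    intro a a' ha ha' e
    obtain ⟨_, i2, i3⟩ := hon b ω a hω ha
    obtain ⟨_, j2, j3⟩ := hon b ω a' hω ha'
    simp only [Prod.mk.injEq] at e
    simp only [hMdef, Mw, fib, i2, j2, e.1]
  have c2 : ∀ b < K, hc P (adv K1 K2 L κ X' b) (M (b + K2)) ≤ P.ex (ν₂ b) := by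
    intro b hb
    refine hc_fib_le P (w (b + K2)) _ (D (b + K2)) _ fun ω hω => ?_
    by_cases hp : ag κ b ω < K1 ∧ κ b ω + L ≤ κ (b + K2) ω
    · refine le_trans (hc_mono_left _ (X' := X b (w b ω)) ?_) (hX b hb ω hω hp.1 hp.2)
      intro a a' ha ha' e
      obtain ⟨i1, i2, i3⟩ := hon b ω a hω ha
      obtain ⟨j1, j2, j3⟩ := hon b ω a' hω ha'
      simp only [Prod.mk.injEq] at e
      unfold adv
      rw [if_pos (i1.2 hp), if_pos (j1.2 hp)]
      simp only [hX', fib, i2, j2, e.1]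
    · refine le_trans (le_of_eq (hc_zero _ ?_)) (n₂ b ω)
      intro a a' ha ha' _
      obtain ⟨i1, i2, i3⟩ := hon b ω a hω ha
      obtain ⟨j1, j2, j3⟩ := hon b ω a' hω ha'
      unfold adv
      rw [if_neg (fun h => hp (i1.1 h)), if_neg (fun h => hp (j1.1 h))]
  have c4 : ∀ b < K + K2, ∀ ω, 0 < P.w ω → ∃ F : Finset S', F.card ≤ N ∧
      ∀ ω', 0 < P.w ω' → M b ω' = M b ω → s ω' ∈ F := by
    intro b hb ω hω
    obtain ⟨F, hF, hF2⟩ := h2 b hb ω hω
    refine ⟨F, hF, fun ω' h' e => ?_⟩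
    simp only [hMdef, Mw, fib, Prod.mk.injEq] at e
    exact hF2 ω' h' e.2 (by rw [← e.1, e.2])
  have main := pos_sumL P hW hWM hκ hmono s X' N hN (K1 := K1) (L := L) h3 c4 (fun b => P.ex (ν₁ b))
    (fun b => P.ex (ν₂ b)) c1 c2
  refine le_trans (Finset.sum_le_sum fun b _ => le_of_eq ?_) main
  have e1 := mi_fib P (w b) (fun _ => s) (fun _ => pos K1 κ X' b) (D b)
  have e2 : fib (w b) (fun _ => pos K1 κ X' b) = pos K1 κ X' b := rfl
  have e3 : fib (w b) (fun _ : W => s) = s := rfl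
  rw [e2, e3] at e1
  rw [hMdef]
  unfold Mw
  rw [e1]
  refine P.ex_congr fun ω hω => ?_
  by_cases hp : ag κ b ω < K1
  · rw [if_pos hp]
    unfold mi
    congr 1
    refine hc_congr _ (fun _ _ _ _ e => congrArg Prod.fst e) (fun _ _ _ _ e => congrArg Prod.fst e) ?_ ?_
    · intro a a' ha ha' e
      have q := cond_supp P hω ha
      have q' := cond_supp P hω ha'
      have i1 := hag b a ω q.1 hω q.2
      have i2 := hag b a' ω q'.1 hω q'.2
      simp only [Prod.mk.injEq] at e ⊢
      refine ⟨?_, e.2⟩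
      have e4 := e.1
      unfold pos at e4
      rw [i1, i2, if_pos hp, if_pos hp] at e4
      have e5 := Option.some.inj e4
      simp only [hX', fib, q.2, q'.2] at e5
      exact e5
    · intro a a' ha ha' e
      have q := cond_supp P hω ha
      have q' := cond_supp P hω ha'
      have i1 := hag b a ω q.1 hω q.2
      have i2 := hag b a' ω q'.1 hω q'.2
      simp only [Prod.mk.injEq] at e ⊢
      refine ⟨?_, e.2⟩
      unfold pos
      rw [i1, i2, if_pos hp, if_pos hp]
      simp only [hX', fib, q.2, q'.2, e.1]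
  · rw [if_neg hp]
    symm
    have e5 : mi (P.cond (w b) (w b ω)) s (pos K1 κ X' b) (D b (w b ω)) ≤
        hc (P.cond (w b) (w b ω)) (pos K1 κ X' b) (D b (w b ω)) := mi_le_hc' _ _ _ _
    have e6 : hc (P.cond (w b) (w b ω)) (pos K1 κ X' b) (D b (w b ω)) = 0 := by
      refine hc_zero _ ?_
      intro a a' ha ha' _
      have q := cond_supp P hω ha
      have q' := cond_supp P hω ha'
      unfold pos
      rw [hag b a ω q.1 hω q.2, hag b a' ω q'.1 hω q'.2, if_neg hp, if_neg hp]
    have e7 := mi_nonneg (P.cond (w b) (w b ω)) s (pos K1 κ X' b) (D b (w b ω))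
    linarith

end law

end Vale.Agent.P106.U.H470.Fib
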