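import Vale.Agent.P106.U.H470.At1
import Vale.Agent.P106.U.H470.Fib

/-!
# P106 / U / H470 / V2M : the young levels in the kappa regime, one label, over the data of helper785 (helper470)

`w k` = joint word up to the cap `k`, `κ k` = index of the level, `X k e` = the data of the step of the label at the cap `k` for
the value `e` of the word (`At1.at1`), `C k e` = the regime (deep lag and kappa regime, decreasing in the cap).

* `Fa` : the hypotheses.
* **`V2_lab`** : `∑_k E [1{age < K1, C} mi (P | w k) (time to a + q digits) (mtr bV, Ao, Ob) (mtr b)]` is bounded by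
  `(L K3 + L K1 (K + L K3) / K3) q log 2 + ∑_k c √P(C, Bad b) + ∑_k c √P(C, Bad bV)`.
-/

set_option autoImplicit false

namespace Vale.Agent.P106.U.H470

open Finset Vale.Agent.P127 Vale.Agent.P127.Stk
open Vale.Agent.P127.U.CellD (q2 rd fl1_fl1)
open Vale.Agent.P106.U.Cell Vale.Agent.P106.U.H785.Mtr
open Vale.Agent.P106.U.H661.Age
open Vale.Agent.P106.U.H470.AgeL Vale.Agent.P106.U.H470.AgeP Vale.Agent.P106.U.H470.Fib

/-- time to `q` more digits : `2 ^ q` values -/
lemma few_time (a q : ℕ) (z : ℤ) : ∃ F : Finset ℤ, F.card ≤ 2 ^ q ∧ ∀ x : ℝ, fl1 a x = z → fl1 (a + q) x ∈ F := by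
  refine ⟨Finset.Ico (2 ^ q * z) (2 ^ q * z + 2 ^ q), ?_, fun x hx => ?_⟩
  · rw [Int.card_Ico]
    simp
  · rw [Finset.mem_Ico]
    have e1 : fl1 a x = ⌊(2 : ℝ) ^ a * x⌋ := rfl
    have e2 : fl1 (a + q) x = ⌊(2 : ℝ) ^ q * ((2 : ℝ) ^ a * x)⌋ := by
      unfold fl1
      rw [pow_add]
      congr 1
      ring
    have a1 := Int.floor_le ((2 : ℝ) ^ a * x)
    have a2 := Int.lt_floor_add_one ((2 : ℝ) ^ a * x)
    rw [← e1, hx] at a1 a2
    have h2 : (0 : ℝ) < 2 ^ q := by positivity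
    rw [e2]
    constructor
    · rw [Int.le_floor]
      push_cast
      exact mul_le_mul_of_nonneg_left a1 h2.le
    · rw [Int.floor_lt]
      push_cast
      nlinarith

section fam

variable {Ω : Type} [Fintype Ω] (P : Law Ω) {π W A : Type} {w : ℕ → Ω → W}

lemma prE_le {E E' : Ω → Prop} (h : ∀ ω, 0 < P.w ω → E ω → E' ω) : prE P E ≤ prE P E' := by
  classical
  unfold prE
  rw [Finset.sum_filter, Finset.sum_filter]
  refine Finset.sum_le_sum fun ω _ => ?_
  rcases (P.nn ω).eq_or_lt with h0 | h0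
  · simp [← h0]
  · by_cases h1 : E ω
    · rw [if_pos h1, if_pos (h ω h0 h1)]
    · rw [if_neg h1]
      split_ifs
      · exact P.nn ω
      · exact le_rfl

/-- the constant of 420's `hc_mtr` -/
noncomputable def cM (K : ℝ) : ℝ := 6 + 10 * Real.log (2 * ⌈480 * (8 * K) ^ 7⌉₊ + 3)

lemma cM_nn (K : ℝ) : 0 ≤ cM K := by
  unfold cM
  have : (0 : ℝ) ≤ (⌈480 * (8 * K) ^ 7⌉₊ : ℝ) := Nat.cast_nonneg _
  have := Real.log_nonneg (x := 2 * (⌈480 * (8 * K) ^ 7⌉₊ : ℝ) + 3) (by linarith)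
  linarith

/-- the exceptional event of the cell of the label at the cap `k`, digits `b` of the cap -/
def Bd (C : ℕ → W → Prop) (X : ℕ → W → Mtd Ω π) (w : ℕ → Ω → W) (K : ℝ) (k b : ℕ) (ω : Ω) : Prop :=
  C k (w k ω) ∧ ((X k (w k ω)).p1 0).Bad (640 * (8 * K) ^ 7) 0 b ω

open Classical in
/-- the letter: the cell in the regime, everything outside -/
noncomputable def DC (C : ℕ → W → Prop) (Y : ℕ → W → Ω → A) (k : ℕ) (e : W) (ω : Ω) : Option A × Option Ω :=
  if C k e then (some (Y k e ω), none) else (none, some ω)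

omit [Fintype Ω] in
lemma DC_pos {C : ℕ → W → Prop} {Y : ℕ → W → Ω → A} {k : ℕ} {e : W} (h : C k e) (ω : Ω) :
    DC C Y k e ω = (some (Y k e ω), none) := if_pos h

omit [Fintype Ω] in
lemma DC_neg {C : ℕ → W → Prop} {Y : ℕ → W → Ω → A} {k : ℕ} {e : W} (h : ¬ C k e) (ω : Ω) :
    DC C Y k e ω = (none, some ω) := if_neg h

variable {T : Type}

/-- hypotheses on the family of one label -/
structure Fa (P : Law Ω) (w : ℕ → Ω → W) (κ : ℕ → Ω → ℕ) (C : ℕ → W → Prop) (X : ℕ → W → Mtd Ω π) (t : Ω → ℝ)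
    (b bV : ℕ → ℕ) (Ao : ℕ → W → Ω → T) (ob : ℕ → W → ℕ) (a μ : ℕ) (K : ℝ) (N L β : ℕ) : Prop where
  /-- the regime decreases in the cap -/
  dec : ∀ k < N, ∀ ω, 0 < P.w ω → C (k + β) (w (k + β) ω) → C k (w k ω)
  /-- numbers -/
  b8 : ∀ k < N + β, 8 * μ ≤ b k
  bb : ∀ k < N, b k + 2 * μ ≤ b (k + β)
  bv : ∀ k < N, b k ≤ bV k
  bv' : ∀ k < N, bV k + 2 * μ ≤ b (k + β)
  /-- the data -/
  t : ∀ k < N + β, ∀ ω, 0 < P.w ω → C k (w k ω) → (X k (w k ω)).t = t ∧ (X k (w k ω)).a 0 = a ∧ (X k (w k ω)).μ = μ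
  hy : ∀ k < N + β, ∀ ω, 0 < P.w ω → C k (w k ω) → (X k (w k ω)).Hy K Set.univ ω
  /-- kappa regime, room -/
  kap : ∀ k < N + β, ∀ ω, 0 < P.w ω → C k (w k ω) → (X k (w k ω)).rr 0 + b k ≤ (X k (w k ω)).rf 0
  R8 : ∀ k < N + β, ∀ ω, 0 < P.w ω → C k (w k ω) → 8 * μ ≤ (X k (w k ω)).R 0 (b k)
  /-- the same real numbers, the later cap is finer -/
  sm : ∀ k < N, ∀ ω, 0 < P.w ω → C (k + β) (w (k + β) ω) → H420.Sm (X k (w k ω)) (X (k + β) (w (k + β) ω)) 0
  pf : ∀ k < N, ∀ ω ω', 0 < P.w ω → 0 < P.w ω' → w (k + β) ω' = w (k + β) ω → C (k + β) (w (k + β) ω) →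
    (X (k + β) (w (k + β) ω)).pf 0 ω = (X (k + β) (w (k + β) ω)).pf 0 ω' →
      (X k (w k ω)).pf 0 ω = (X k (w k ω)).pf 0 ω'
  /-- the curvature and kappa of the line, `B` blocks below the index, after an advance of the index -/
  ao : ∀ k < N, ∀ ω ω', 0 < P.w ω → 0 < P.w ω' → w (k + β) ω' = w (k + β) ω → C (k + β) (w (k + β) ω) →
    κ k ω + L ≤ κ (k + β) ω → (X (k + β) (w (k + β) ω)).pf 0 ω = (X (k + β) (w (k + β) ω)).pf 0 ω' →
      Ao k (w k ω) ω = Ao k (w k ω) ω'
  ob : ∀ k < N, ∀ ω, 0 < P.w ω → C (k + β) (w (k + β) ω) → κ k ω + L ≤ κ (k + β) ω →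
    ob k (w k ω) ≤ (X (k + β) (w (k + β) ω)).rr 0

variable {κ : ℕ → Ω → ℕ} {C : ℕ → W → Prop} {X : ℕ → W → Mtd Ω π} {t : Ω → ℝ} {b bV : ℕ → ℕ}
  {Ao : ℕ → W → Ω → T} {ob : ℕ → W → ℕ} {a μ : ℕ} {K : ℝ} {N L β : ℕ}

/-- kappa of the line to `ob` digits -/
noncomputable def Obl (X : ℕ → W → Mtd Ω π) (ob : ℕ → W → ℕ) (k : ℕ) (e : W) (ω : Ω) : ℤ :=
  fl1 (ob k e) ((X k e).κ 0 ω + (X k e).oκ)

/-- the cell of the label -/
noncomputable def Ce (X : ℕ → W → Mtd Ω π) (b : ℕ → ℕ) (k : ℕ) (e : W) (ω : Ω) : Lt π × Pth.Dg := (X k e).mtr 0 (b k) ω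

/-- **two caps**: the cell at the digits `b₁ ≤ b (k + β) - 2 μ` is nearly a function of the cell of the later cap -/
lemma Fa.near (h : Fa P w κ C X t b bV Ao ob a μ K N L β) (h1 : 1 ≤ K)
    (hW : ∀ b, Fn P (w b) (w (b + 1))) {k : ℕ} (hk : k < N) {ω : Ω} (hω : 0 < P.w ω)
    (hC : C (k + β) (w (k + β) ω)) {b1 : ℕ} (hb : b k ≤ b1) (hb' : b1 + 2 * μ ≤ b (k + β)) :
    hc (P.cond (w (k + β)) (w (k + β) ω)) ((X k (w k ω)).mtr 0 b1) ((X (k + β) (w (k + β) ω)).mtr 0 (b (k + β))) ≤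
      cM K * Real.sqrt (prE (P.cond (w (k + β)) (w (k + β) ω)) (fun ω' => Bd C X w K k b1 ω')) := by
  have hCk := h.dec k hk ω hω hC
  have hback : ∀ ω', 0 < P.w ω' → w (k + β) ω' = w (k + β) ω → w k ω' = w k ω :=
    fun ω' p e => nest P hW k β ω' ω p hω e
  have hμ := (h.t k (by omega) ω hω hCk).2.2
  have e := H420.hc_mtr (P.cond (w (k + β)) (w (k + β) ω)) (X k (w k ω)) (X (k + β) (w (k + β) ω)) (i := 0)
    (b := b1) (b2 := b (k + β)) (I := Set.univ) (J := Set.univ) (h.sm k hk ω hω hC) h1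
    (fun ω' p => by
      have q := cond_supp P hω p
      have q2 := hback ω' q.1 q.2
      have := h.hy k (by omega) ω' q.1 (by rw [q2]; exact hCk)
      rwa [q2] at this)
    (fun ω' p => by
      have q := cond_supp P hω p
      have := h.hy (k + β) (by omega) ω' q.1 (by rw [q.2]; exact hC)
      rwa [q.2] at this) (Set.mem_univ _) (Set.mem_univ _)
    (by rw [hμ]; exact (h.b8 k (by omega)).trans hb)
    (by
      rw [hμ]
      refine (h.R8 k (by omega) ω hω hCk).trans ?_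
      unfold Mtd.R
      exact min_le_min_right _ (by omega))
    (by rw [hμ]; exact hb')
    (by
      rw [hμ]
      have q1 := (h.sm k hk ω hω hC).rr
      have q2 := h.kap (k + β) (by omega) ω hω hC
      unfold Mtd.R
      rw [min_eq_left q2]
      have := min_le_left ((X k (w k ω)).rr 0 + b1) ((X k (w k ω)).rf 0)
      omega)
    (by
      intro ω' ω'' p p' e
      have q := cond_supp P hω p
      have q' := cond_supp P hω p'
      have e2 : (X (k + β) (w (k + β) ω)).pf 0 ω' = (X (k + β) (w (k + β) ω)).pf 0 ω'' :=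
        congrArg (fun z : Lt π × Pth.Dg => z.1.2.1) e
      have := h.pf k hk ω' ω'' q.1 q'.1 (q'.2.trans q.2.symm) (by rw [q.2]; exact hC) (by rw [q.2]; exact e2)
      rwa [hback ω' q.1 q.2] at this)
  refine e.trans (mul_le_mul_of_nonneg_left (Real.sqrt_le_sqrt ?_) (cM_nn K))
  refine prE_le _ ?_
  intro ω' p hbad
  have q := cond_supp P hω p
  refine ⟨by rw [hback ω' q.1 q.2]; exact hCk, ?_⟩
  rw [hback ω' q.1 q.2]
  exact hbad

/-- Jensen -/
lemma ex_sqrt (f : Ω → ℝ) (hf : ∀ ω, 0 ≤ f ω) : P.ex (fun ω => Real.sqrt (f ω)) ≤ Real.sqrt (P.ex f) := by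
  unfold Law.ex
  have h := Real.sum_sqrt_mul_sqrt_le (s := Finset.univ) (f := fun ω => P.w ω) (g := fun ω => P.w ω * f ω)
    (fun ω => P.nn ω) (fun ω => mul_nonneg (P.nn ω) (hf ω))
  rw [P.sum_one, Real.sqrt_one, one_mul] at h
  refine le_trans (le_of_eq (Finset.sum_congr rfl fun ω _ => ?_)) h
  rw [Real.sqrt_mul (P.nn ω), ← mul_assoc, Real.mul_self_sqrt (P.nn ω)]

/-- the mean of the conditional exceptional probabilities -/
lemma ex_bad (v : Ω → A) (E : Ω → Prop) (G : Ω → Prop) [DecidablePred G] (c : ℝ) (hc : 0 ≤ c) :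
    P.ex (fun ω => if G ω then c * Real.sqrt (prE (P.cond v (v ω)) E) else 0) ≤ c * Real.sqrt (prE P E) := by
  have e1 : P.ex (fun ω => prE (P.cond v (v ω)) E) = prE P E := by
    have e2 : ∀ Q : Law Ω, prE Q E = Q.ex (fun ω => Law.ind (E ω)) := by
      classical
      intro Q
      unfold prE Law.ex Law.ind
      rw [Finset.sum_filter]
      refine Finset.sum_congr rfl fun ω _ => ?_
      by_cases h' : E ω <;> simp [h']
    rw [e2 P, ← U.Pin.ex_cond P v (fun ω => Law.ind (E ω))]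
    congr 1
    funext ω
    exact e2 _
  have hnn : ∀ Q : Law Ω, 0 ≤ prE Q E := by
    classical
    intro Q
    unfold prE
    exact Finset.sum_nonneg fun ω _ => Q.nn ω
  have e3 := ex_sqrt P (fun ω => prE (P.cond v (v ω)) E) (fun ω => hnn _)
  rw [e1] at e3
  refine le_trans ?_ (mul_le_mul_of_nonneg_left e3 hc)
  unfold Law.ex
  rw [Finset.mul_sum]
  refine Finset.sum_le_sum fun ω _ => ?_
  have h0 := Real.sqrt_nonneg (prE (P.cond v (v ω)) E)
  have h1 := P.nn ω
  dsimp only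
  split_ifs
  · exact le_of_eq (by ring)
  · rw [mul_zero]
    positivity

/-- **[V2], one label** -/
theorem V2_lab (hW : ∀ b, Fn P (w b) (w (b + 1))) (hκ : ∀ b, Fn P (κ b) (w b))
    (hmono : ∀ ω, Monotone fun b => κ b ω) {K1 K3 q : ℕ} (h3 : 0 < K3)
    (h : Fa P w κ C X t b bV Ao ob a μ K N L (L * K3)) (h1 : 1 ≤ K) :
    ∑ k ∈ range N, P.ex (fun ω => Law.ind (ag κ k ω < K1 ∧ C k (w k ω)) *
      mi (P.cond (w k) (w k ω)) (fun ω' => fl1 (a + q) (t ω'))
        (fun ω' => ((X k (w k ω)).mtr 0 (bV k) ω', Ao k (w k ω) ω', Obl X ob k (w k ω) ω'))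
        ((X k (w k ω)).mtr 0 (b k))) ≤
      (L * K3 + (L * K1 * (N + L * K3) : ℝ) / K3) * (q * Real.log 2) +
        ∑ k ∈ range N, cM K * Real.sqrt (prE P (Bd C X w K k (b k))) +
        ∑ k ∈ range N, cM K * Real.sqrt (prE P (Bd C X w K k (bV k))) := by
  classical
  set β := L * K3 with hβ
  set D : ℕ → W → Ω → Option (Lt π × Pth.Dg) × Option Ω := DC C (Ce X b) with hD
  set V : ℕ → W → Ω → (Lt π × Pth.Dg) × T × ℤ :=
    fun k e ω' => ((X k e).mtr 0 (bV k) ω', Ao k e ω', Obl X ob k e ω') with hV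
  have hback : ∀ k ω ω', 0 < P.w ω → 0 < P.w ω' → w (k + β) ω' = w (k + β) ω → w k ω' = w k ω :=
    fun k ω ω' p p' e => nest P hW k β ω' ω p' p e
  -- the errors
  set ν₁ : ℕ → Ω → ℝ := fun k ω => if C (k + β) (w (k + β) ω) then
    cM K * Real.sqrt (prE (P.cond (w (k + β)) (w (k + β) ω)) (Bd C X w K k (b k))) else 0 with hν₁
  set ν₂ : ℕ → Ω → ℝ := fun k ω => if C (k + β) (w (k + β) ω) then
    cM K * Real.sqrt (prE (P.cond (w (k + β)) (w (k + β) ω)) (Bd C X w K k (bV k))) else 0 with hν₂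
  have key := pos_fib P hW hκ hmono (fun ω => fl1 (a + q) (t ω)) D V (2 ^ q) Nat.one_le_two_pow
    (K1 := K1) (K3 := K3) (L := L) (K := N) h3 ?_ ν₁ ν₂ ?_ ?_ ?_
  · have e1 : Real.log ((2 ^ q : ℕ) : ℝ) = q * Real.log 2 := by
      push_cast
      rw [Real.log_pow]
    rw [e1] at key
    refine le_trans (Finset.sum_le_sum fun k hk => ?_) (key.trans ?_)
    · refine P.ex_mono fun ω hω => ?_
      by_cases hp : ag κ k ω < K1 ∧ C k (w k ω)
      · rw [Law.ind_of hp, one_mul, if_pos hp.1]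
        refine le_of_eq (mi_congr_cond _ _ _ ?_ ?_)
        · intro ω' ω'' _ _ e
          have e2 := congrArg Prod.fst e
          rw [hD, DC_pos hp.2, DC_pos hp.2] at e2
          exact Option.some.inj e2
        · intro ω' ω'' _ _ e
          rw [hD, DC_pos hp.2, DC_pos hp.2]
          show (some (Ce X b k (w k ω) ω'), none) = (some (Ce X b k (w k ω) ω''), none)
          unfold Ce
          rw [e]
      · rw [Law.ind_not hp, zero_mul]
        split_ifs
        · exact mi_nonneg _ _ _ _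
        · exact le_rfl
    · gcongr with k hk k hk
      · exact ex_bad P _ _ _ _ (cM_nn K)
      · exact ex_bad P _ _ _ _ (cM_nn K)
  · -- values
    intro k hk ω hω
    by_cases hC : C k (w k ω)
    · obtain ⟨F, hF, hF2⟩ := few_time a q (fl1 a (t ω))
      refine ⟨F, hF, fun ω' h' e1 e2 => hF2 _ ?_⟩
      have e3 := congrArg Prod.fst e2
      rw [hD, DC_pos hC, DC_pos hC] at e3
      simp only [Option.some.injEq] at e3
      have e4 : fl1 ((X k (w k ω)).a 0) ((X k (w k ω)).t ω') = fl1 ((X k (w k ω)).a 0) ((X k (w k ω)).t ω) :=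
        congrArg (fun z : Lt π × Pth.Dg => z.1.1) e3
      have e5 := h.t k hk ω hω hC
      rw [e5.1, e5.2.1] at e4
      exact e4
    · refine ⟨{fl1 (a + q) (t ω)}, by simp [Nat.one_le_two_pow], fun ω' h' e1 e2 => ?_⟩
      have e3 := congrArg Prod.snd e2
      rw [hD, DC_neg hC, DC_neg hC] at e3
      simp only [Option.some.injEq] at e3
      rw [e3]
      exact Finset.mem_singleton_self _
  · intro k ω
    rw [hν₂]
    dsimp only
    split_ifs
    · exact mul_nonneg (cM_nn K) (Real.sqrt_nonneg _)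
    · exact le_rfl
  · -- the cells
    intro k hk ω hω
    rw [hν₁]
    dsimp only
    split_ifs with hC
    · refine le_trans ?_ (Fa.near P h h1 hW hk hω hC (b1 := b k) le_rfl (h.bb k hk))
      have hCk := h.dec k hk ω hω hC
      refine (hc_mono_left _ (X' := (X k (w k ω)).mtr 0 (b k)) ?_).trans (hc_mono_right _ _ ?_)
      · intro ω' ω'' _ _ e
        simp only [Prod.mk.injEq] at e
        rw [hD, DC_pos hCk, DC_pos hCk]
        exact congrArg (fun z => (some z, none)) e.1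
      · intro ω' ω'' _ _ e
        have e3 := congrArg Prod.fst e
        rw [hD, DC_pos hC, DC_pos hC] at e3
        exact Option.some.inj e3
    · refine le_of_eq (hc_zero _ ?_)
      intro ω' ω'' _ _ e
      rw [hD, DC_neg hC, DC_neg hC] at e
      simp only [Prod.mk.injEq, Option.some.injEq, true_and] at e
      rw [e]
  · -- the finer letter
    intro k hk ω hω _ hadv
    rw [hν₂]
    dsimp only
    split_ifs with hC
    · have hCk := h.dec k hk ω hω hC
      refine le_trans ?_ (Fa.near P h h1 hW hk hω hC (b1 := bV k) (h.bv k hk) (h.bv' k hk))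
      have hsm := h.sm k hk ω hω hC
      refine (hc_mono_left _ (X' := (X k (w k ω)).mtr 0 (bV k)) ?_).trans (hc_mono_right _ _ ?_)
      · intro ω' ω'' p p' e
        have q := cond_supp P hω p
        have q' := cond_supp P hω p'
        simp only [Prod.mk.injEq] at e
        obtain ⟨e1, e2⟩ := e
        have e3 := congrArg Prod.fst e2
        rw [hD, DC_pos hC, DC_pos hC] at e3
        simp only [Option.some.injEq] at e3
        have e4 : (X (k + β) (w (k + β) ω)).lt 0 ω' = (X (k + β) (w (k + β) ω)).lt 0 ω'' := congrArg Prod.fst e3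
        have e5 : (X (k + β) (w (k + β) ω)).pf 0 ω' = (X (k + β) (w (k + β) ω)).pf 0 ω'' :=
          congrArg (fun z : Lt π => z.2.1) e4
        have e6 : (X (k + β) (w (k + β) ω)).kN 0 ω' = (X (k + β) (w (k + β) ω)).kN 0 ω'' :=
          congrArg (fun z : Lt π => z.2.2.1) e4
        have q2 : w (k + β) ω'' = w (k + β) ω' := q'.2.trans q.2.symm
        have e7 : Ao k (w k ω) ω' = Ao k (w k ω) ω'' := by
          have := h.ao k hk ω' ω'' q.1 q'.1 q2 (by rw [q.2]; exact hC) (by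
            rw [hκ k ω' ω q.1 hω (hback k ω ω' hω q.1 q.2), hκ (k + β) ω' ω q.1 hω q.2]
            exact hadv) (by rw [q.2]; exact e5)
          rwa [hback k ω ω' hω q.1 q.2] at this
        have e8 : Obl X ob k (w k ω) ω' = Obl X ob k (w k ω) ω'' := by
          unfold Obl
          rw [hsm.κ, hsm.oκ]
          exact fl1_fl1 (h.ob k hk ω hω hC hadv) e6
        rw [hV]
        simp only [Prod.mk.injEq]
        exact ⟨e1, e7, e8⟩
      · intro ω' ω'' _ _ e
        have e3 := congrArg Prod.fst e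
        rw [hD, DC_pos hC, DC_pos hC] at e3
        simp only [Option.some.injEq] at e3
        exact e3
    · refine le_of_eq (hc_zero _ ?_)
      intro ω' ω'' _ _ e
      rw [hD, DC_neg hC, DC_neg hC] at e
      simp only [Prod.mk.injEq, Option.some.injEq, true_and] at e
      rw [e]

end fam

end Vale.Agent.P106.U.H470
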