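import Vale.Agent.P106.U.H470.AgeL

/-!
# P106 / U / H470 / AgeP : `kap_sum` with plateaus, helper470

As `AgeL.kap_sumL`, but `Θ` is indexed by the cap and the cells `M b` need to be nearly nested only along a
plateau of the index:
* `FP b` : `K1 ≤ ag k b` and `k (b + β) = k b` (a function of the word `Wd (b + β)`);
* `hν` : on `FP b`, `M b` is nearly a function of `M (b + β)`;
* `hΘ` : on `FP b`, `Θ (b + β)` is nearly a function of `(Θ b, M (b + β))`.
-/

set_option autoImplicit false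

namespace Vale.Agent.P106.U.H470.AgeP

open Finset Vale.Agent.P127 Vale.Agent.P127.Stk Vale.Agent.P106.U.H661.Age

section law

variable {Ω : Type} [Fintype Ω] (P : Law Ω) {S S' T U V W : Type*}

/-- information, when outside a rare event the condition determines one of the two variables -/
theorem mi_local2 (X : Ω → S) (X' : Ω → T) (Y : Ω → U) (bad : Ω → Prop) (N : ℕ) (hN : 1 ≤ N)
    (h1 : ∀ ω, 0 < P.w ω → ¬ bad ω → (∀ ω', 0 < P.w ω' → Y ω' = Y ω → X' ω' = X' ω) ∨
      (∀ ω', 0 < P.w ω' → Y ω' = Y ω → X ω' = X ω))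
    (h2 : ∀ ω, 0 < P.w ω → bad ω → ∃ F : Finset S, F.card ≤ N ∧
      ∀ ω', 0 < P.w ω' → Y ω' = Y ω → X ω' ∈ F) :
    mi P X X' Y ≤ prE P bad * Real.log N := by
  classical
  have hlog : 0 ≤ Real.log N := Real.log_nonneg (by exact_mod_cast hN)
  have e1 : hc P X Y = P.ex (fun ω => hc (P.cond Y (Y ω)) X (fun _ => ())) := by
    rw [← TV.hc_cond_ex]
    exact hc_congr P (fun _ _ _ _ h => congrArg Prod.fst h) (fun _ _ _ _ h => congrArg Prod.fst h)
      (fun _ _ _ _ h => congrArg Prod.snd h)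
      (fun _ _ _ _ h => by simp only [Prod.mk.injEq]; exact ⟨trivial, h⟩)
  have e2 : hc P X (fun ω => (X' ω, Y ω)) = P.ex (fun ω => hc (P.cond Y (Y ω)) X X') :=
    TV.hc_cond_ex P X X' Y
  have e3 : P.ex (fun ω => hc (P.cond Y (Y ω)) X (fun _ => ())) ≤
      P.ex (fun ω => hc (P.cond Y (Y ω)) X X' + if bad ω then Real.log N else 0) := by
    refine P.ex_mono fun ω hω => ?_
    have hz := P.pr_pos Y hω
    have hs : ∀ ω', 0 < (P.cond Y (Y ω)).w ω' → 0 < P.w ω' ∧ Y ω' = Y ω := by
      intro ω' h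
      rw [P.cond_w _ _ hz] at h
      split_ifs at h with h3
      · refine ⟨?_, h3⟩
        by_contra hc
        have : P.w ω' = 0 := le_antisymm (not_lt.1 hc) (P.nn ω')
        rw [this, zero_div] at h
        exact lt_irrefl _ h
      · exact absurd h (lt_irrefl _)
    split_ifs with hbad
    · have h4 : hc (P.cond Y (Y ω)) X (fun _ => ()) ≤ Real.log N := by
        refine hc_le_log _ X _ N fun ω1 h3 => ?_
        obtain ⟨F, hF, hF2⟩ := h2 ω hω hbad
        exact ⟨F, hF, fun ω2 h4 _ => hF2 ω2 (hs ω2 h4).1 (hs ω2 h4).2⟩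
      have h5 := hc_nonneg (P.cond Y (Y ω)) X X'
      linarith
    · rcases h1 ω hω hbad with h6 | h6
      · have h4 : hc (P.cond Y (Y ω)) X (fun _ => ()) ≤ hc (P.cond Y (Y ω)) X X' := by
          refine hc_mono_right _ X fun ω1 ω2 h3 h4 _ => ?_
          have g1 := hs ω1 h3
          have g2 := hs ω2 h4
          exact (h6 ω1 g1.1 g1.2).trans (h6 ω2 g2.1 g2.2).symm
        linarith
      · have h4 : hc (P.cond Y (Y ω)) X (fun _ => ()) = 0 := by
          refine hc_zero _ fun ω1 ω2 h3 h4 _ => ?_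
          have g1 := hs ω1 h3
          have g2 := hs ω2 h4
          exact (h6 ω1 g1.1 g1.2).trans (h6 ω2 g2.1 g2.2).symm
        have h5 := hc_nonneg (P.cond Y (Y ω)) X X'
        linarith
  have e4 : P.ex (fun ω => hc (P.cond Y (Y ω)) X X' + if bad ω then Real.log N else 0) =
      P.ex (fun ω => hc (P.cond Y (Y ω)) X X') + prE P bad * Real.log N := by
    unfold Law.ex prE
    rw [Finset.sum_mul, Finset.sum_filter, ← Finset.sum_add_distrib]
    refine Finset.sum_congr rfl fun ω _ => ?_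
    by_cases hb : bad ω
    · simp [hb]; ring
    · simp [hb]
  unfold mi
  rw [e1, e2]
  linarith

variable {M : ℕ → Ω → S} {Wd : ℕ → Ω → W} (hW : ∀ b, Fn P (Wd b) (Wd (b + 1)))
  (hWM : ∀ b, Fn P (Wd b) (M b)) {k : ℕ → Ω → ℕ} (hk : ∀ b, Fn P (k b) (Wd b))

/-- the letter of the cap `b` while the age is `≥ K1` -/
def kapC (K1 : ℕ) (k : ℕ → Ω → ℕ) (Θ : ℕ → Ω → V) (b : ℕ) (ω : Ω) : Option V :=
  if K1 ≤ ag k b ω then some (Θ b ω) else none

/-- a variable on the plateau event of the cap `b` -/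
def onP (K1 β : ℕ) (k : ℕ → Ω → ℕ) (b : ℕ) (X : Ω → V) (ω : Ω) : Option V :=
  if K1 ≤ ag k b ω ∧ k (b + β) ω = k b ω then some (X ω) else none

include hW hWM hk in
/-- **kappa, plateaus** -/
theorem kap_sumP (Θ : ℕ → Ω → V) (N : ℕ) (hN : 1 ≤ N) {K1 β K : ℕ} (h1 : 0 < K1) (hβ : β ≤ K1)
    (h2 : ∀ b < K + β, ∀ ω, 0 < P.w ω → K1 ≤ ag k b ω → ∃ F : Finset V, F.card ≤ N ∧
      ∀ ω', 0 < P.w ω' → M b ω' = M b ω → Θ b ω' ∈ F)
    (ν ζ : ℕ → ℝ) (hν : ∀ b < K, hc P (onP K1 β k b (M b)) (M (b + β)) ≤ ν b)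
    (hΘ : ∀ b < K, hc P (onP K1 β k b (Θ (b + β)))
      (fun ω => (onP K1 β k b (Θ b) ω, M (b + β) ω)) ≤ ζ b) :
    ∑ b ∈ range K, mi P (kapC K1 k Θ b) (M (b + β)) (M b) ≤
      (β + (β * (K + β) : ℝ) / K1) * Real.log N + ∑ b ∈ range K, ν b + ∑ b ∈ range K, ζ b := by
  classical
  have hlog : 0 ≤ Real.log N := Real.log_nonneg (by exact_mod_cast hN)
  have hK1 : (0 : ℝ) < K1 := by exact_mod_cast h1
  have hcard : ∀ b < K + β, ∀ ω, 0 < P.w ω → ∃ F : Finset (Option V), F.card ≤ N ∧
      ∀ ω', 0 < P.w ω' → M b ω' = M b ω → kapC K1 k Θ b ω' ∈ F := by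
    intro b hb ω hω
    by_cases h : K1 ≤ ag k b ω
    · obtain ⟨F, hF, hF2⟩ := h2 b hb ω hω h
      refine ⟨F.image some, Finset.card_image_le.trans hF, fun ω' h' e => ?_⟩
      have w1 : Wd b ω' = Wd b ω := hWM b ω' ω h' hω e
      have q1 : ag k b ω' = ag k b ω := age_fn P hW hk b ω' ω h' hω w1
      unfold kapC
      rw [q1, if_pos h]
      exact Finset.mem_image_of_mem _ (hF2 ω' h' e)
    · refine ⟨{none}, by simpa using hN, fun ω' h' e => ?_⟩
      have w1 : Wd b ω' = Wd b ω := hWM b ω' ω h' hω e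
      have q1 : ag k b ω' = ag k b ω := age_fn P hW hk b ω' ω h' hω w1
      unfold kapC
      rw [q1, if_neg h]
      simp
  have hstep : ∀ b ∈ range K, mi P (kapC K1 k Θ b) (M (b + β)) (M b) ≤
      (hc P (kapC K1 k Θ b) (M b) - hc P (kapC K1 k Θ (b + β)) (M (b + β))) + ν b + ζ b +
      prE P (fun ω => ag k b ω < K1 ∧ K1 ≤ ag k (b + β) ω) * Real.log N := by
    intro b hb
    have hbK := Finset.mem_range.1 hb
    -- the word of the next cap knows the plateau event
    have hev : ∀ ω ω', 0 < P.w ω → 0 < P.w ω' → M (b + β) ω = M (b + β) ω' →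
        ag k b ω = ag k b ω' ∧ k b ω = k b ω' ∧ k (b + β) ω = k (b + β) ω' ∧
          ag k (b + β) ω = ag k (b + β) ω' := by
      intro ω ω' p p' e
      have w1 : Wd (b + β) ω = Wd (b + β) ω' := hWM _ ω ω' p p' e
      have w0 : Wd b ω = Wd b ω' := nest P hW b β ω ω' p p' w1
      exact ⟨age_fn P hW hk b ω ω' p p' w0, hk b ω ω' p p' w0, hk (b + β) ω ω' p p' w1,
        age_fn P hW hk (b + β) ω ω' p p' w1⟩
    -- (1) restricted cell
    have a1 := hc_le_add' P (kapC K1 k Θ (b + β)) (onP K1 β k b (M b)) (M (b + β))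
    -- (2) restricted letter
    have a2 := hc_le_add' P (kapC K1 k Θ (b + β)) (onP K1 β k b (Θ b))
      (fun ω => (onP K1 β k b (M b) ω, M (b + β) ω))
    -- (3) restricted later letter
    have a3 := hc_le_add' P (kapC K1 k Θ (b + β)) (onP K1 β k b (Θ (b + β)))
      (fun ω => (onP K1 β k b (Θ b) ω, (onP K1 β k b (M b) ω, M (b + β) ω)))
    have a4 : hc P (onP K1 β k b (Θ (b + β)))
        (fun ω => (onP K1 β k b (Θ b) ω, (onP K1 β k b (M b) ω, M (b + β) ω))) ≤ ζ b := by
      refine (hc_mono_right P _ ?_).trans (hΘ b hbK)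
      intro ω ω' _ _ e
      simp only [Prod.mk.injEq] at e ⊢
      exact ⟨e.1, e.2.2⟩
    have a5 : hc P (kapC K1 k Θ (b + β)) (fun ω => (onP K1 β k b (Θ (b + β)) ω,
        (onP K1 β k b (Θ b) ω, (onP K1 β k b (M b) ω, M (b + β) ω)))) ≤
        prE P (fun ω => ag k b ω < K1 ∧ K1 ≤ ag k (b + β) ω) * Real.log N := by
      refine hc_prE P _ _ _ N ?_ ?_
      · intro ω hω hbad ω' h' e
        simp only [Prod.mk.injEq] at e
        obtain ⟨q1, q2, q3, q4⟩ := hev ω' ω h' hω e.2.2.2
        by_cases h5 : K1 ≤ ag k (b + β) ω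
        · have h6 : K1 ≤ ag k b ω := by
            by_contra hlt
            exact hbad ⟨not_le.1 hlt, h5⟩
          have h7 : k (b + β) ω = k b ω := (age_back (fun a => k a ω) b β (hβ.trans h5)).2
          have h8 := e.1
          unfold onP at h8
          rw [q1, q2, q3, if_pos ⟨h6, h7⟩, if_pos ⟨h6, h7⟩] at h8
          have h9 := Option.some.inj h8
          unfold kapC
          rw [q4, if_pos h5, if_pos h5, h9]
        · unfold kapC
          rw [q4, if_neg h5, if_neg h5]
      · intro ω hω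
        obtain ⟨F, hF, hF2⟩ := hcard (b + β) (by omega) ω hω
        refine ⟨F, hF, fun ω' h' e => hF2 ω' h' ?_⟩
        simp only [Prod.mk.injEq] at e
        exact e.2.2.2
    -- (4) on the plateau the full cell says nothing more
    have a6 : hc P (onP K1 β k b (Θ b)) (fun ω => (onP K1 β k b (M b) ω, M (b + β) ω)) ≤
        hc P (kapC K1 k Θ b) (fun ω => (M (b + β) ω, M b ω)) := by
      have b1 : mi P (onP K1 β k b (Θ b)) (M b) (fun ω => (onP K1 β k b (M b) ω, M (b + β) ω)) ≤
          prE P (fun _ => False) * Real.log (1 : ℕ) := by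
        refine mi_local2 P _ _ _ (fun _ => False) 1 le_rfl ?_ (fun _ _ h => h.elim)
        intro ω hω _
        by_cases h : K1 ≤ ag k b ω ∧ k (b + β) ω = k b ω
        · left
          intro ω' h' e
          simp only [Prod.mk.injEq] at e
          have h8 := e.1
          obtain ⟨q1, q2, q3, _⟩ := hev ω' ω h' hω e.2
          unfold onP at h8
          rw [q1, q2, q3, if_pos h, if_pos h] at h8
          exact Option.some.inj h8
        · right
          intro ω' h' e
          simp only [Prod.mk.injEq] at e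
          obtain ⟨q1, q2, q3, _⟩ := hev ω' ω h' hω e.2
          unfold onP
          rw [q1, q2, q3, if_neg h, if_neg h]
      simp only [Nat.cast_one, Real.log_one, mul_zero] at b1
      have b2 : hc P (onP K1 β k b (Θ b))
          (fun ω => (M b ω, (onP K1 β k b (M b) ω, M (b + β) ω))) ≤
          hc P (kapC K1 k Θ b) (fun ω => (M (b + β) ω, M b ω)) := by
        refine (hc_mono_left P (X' := kapC K1 k Θ b) ?_).trans (hc_mono_right P _ ?_)
        · intro ω ω' p p' e
          simp only [Prod.mk.injEq] at e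
          obtain ⟨q1, q2, q3, _⟩ := hev ω ω' p p' e.2.2.2
          have h8 := e.1
          unfold kapC at h8
          unfold onP
          rw [q1, q2, q3]
          split_ifs with h9
          · rw [q1, if_pos h9.1, if_pos h9.1] at h8
            exact h8
          · rfl
        · intro ω ω' p p' e
          simp only [Prod.mk.injEq] at e ⊢
          exact ⟨e.2.2, e.1⟩
      unfold mi at b1
      linarith
    have a7 := hν b hbK
    unfold mi
    linarith
  refine (Finset.sum_le_sum hstep).trans ?_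
  rw [Finset.sum_add_distrib, Finset.sum_add_distrib, Finset.sum_add_distrib, ← Finset.sum_mul,
    U.Cell.sum_tele (fun b => hc P (kapC K1 k Θ b) (M b))]
  have t1 : ∑ j ∈ range β, (hc P (kapC K1 k Θ j) (M j) -
      hc P (kapC K1 k Θ (K + j)) (M (K + j))) ≤ β * Real.log N := by
    have h3 : ∀ j ∈ range β, hc P (kapC K1 k Θ j) (M j) -
        hc P (kapC K1 k Θ (K + j)) (M (K + j)) ≤ Real.log N := by
      intro j hj
      have h4 := hc_nonneg P (kapC K1 k Θ (K + j)) (M (K + j))
      have h5 := hc_le_log P (kapC K1 k Θ j) (M j) N (hcard j (by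
        have := Finset.mem_range.1 hj
        omega))
      linarith
    have h4 := Finset.sum_le_sum h3
    rwa [Finset.sum_const, card_range, nsmul_eq_mul] at h4
  have t2 : ∑ b ∈ range K, prE P (fun ω => ag k b ω < K1 ∧ K1 ≤ ag k (b + β) ω) ≤
      (β * (K + β) : ℝ) / K1 := by
    refine sum_prE P _ K _ fun ω _ => ?_
    refine ⟨(range K).filter fun b => age (fun a => k a ω) b < K1 ∧
      K1 ≤ age (fun a => k a ω) (b + β), ?_, ?_⟩
    · intro b hb h
      exact Finset.mem_filter.2 ⟨Finset.mem_range.2 hb, h⟩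
    · have := count_cross (fun a => k a ω) h1 hβ K
      rw [le_div_iff₀ hK1]
      have h3 : ((K1 * ((range K).filter fun b => age (fun a => k a ω) b < K1 ∧
        K1 ≤ age (fun a => k a ω) (b + β)).card : ℕ) : ℝ) ≤ ((β * (K + β) : ℕ) : ℝ) := by
        exact_mod_cast this
      push_cast at h3
      linarith
  have t3 := mul_le_mul_of_nonneg_right t2 hlog
  linarith

end law

end Vale.Agent.P106.U.H470.AgeP
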