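import Vale.Agent.P106.U.H377.LatS
import Vale.Agent.P127.TV.MStep

/-!
# P106 / U / H470 : averaging for the two-cap lemma (helper470)

`D` : base letter (base cell, own letter, isotropic cell), `W` : the block label `W'` (it determines `D` outside `Bad`),
`E g` : the event that the next block of the line of the ray has the value `g` (`g` a discrete value or a real number).

* `avg_atom` : if given `W` no value has probability `> 1 - c'` and given every `d ∈ 𝒢` some value has probability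
  `≥ 1 - c''`, then `(c' - c'') P(D ∈ 𝒢) ≤ 2 P(Bad)`.
* `avg_hc` : entropy bounds given the values of `D` outside an exceptional set ⇒ bound given `(D, Z)`, the error is the
  information of the long letter `Z` on the fine and coarse digits given `D`.
* `avg_sat` : the two together: dichotomy (pure shift, or known value) for the values of `D` ⇒ the block is saturated
  given `(Y, Z, D)`, hence given every function of it.
* `avg_shift` : the same with the pure shifts of `n` as hypothesis (377's `sat1`).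
-/

set_option autoImplicit false

namespace Vale.Agent.P106.U.H470

open Finset Vale.Agent.P127 Vale.Agent.P127.Stk Vale.Agent.P127.U.Pin Vale.Agent.P127.TV
open Vale.Agent.P127.Law (ind ind_of ind_not)

variable {Ω : Type} [Fintype Ω] {S T U V G : Type*}

lemma ind_nonneg (p : Prop) : 0 ≤ ind p := by
  by_cases h : p
  · rw [ind_of h]; exact zero_le_one
  · rw [ind_not h]

lemma ind_le_one (p : Prop) : ind p ≤ 1 := by
  by_cases h : p
  · rw [ind_of h]
  · rw [ind_not h]; exact zero_le_one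

/-- regrouping an expectation according to the value of `W` -/
lemma ex_fiber (P : Law Ω) (W : Ω → T) (f : Ω → ℝ) :
    P.ex f = ∑ w ∈ img W, P.ex (fun ω => ind (W ω = w) * f ω) := by
  classical
  unfold Law.ex
  rw [Finset.sum_comm]
  refine Finset.sum_congr rfl fun ω _ => ?_
  rw [Finset.sum_eq_single (W ω)]
  · dsimp only
    rw [ind_of (rfl : W ω = W ω), one_mul]
  · intro w _ hw
    dsimp only
    rw [ind_not (fun h : W ω = w => hw h.symm)]
    ring
  · intro h
    exact absurd (mem_img.2 ⟨ω, rfl⟩) h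

/-- averaging of a bound over the values of `W` -/
lemma ex_event_le (P : Law Ω) (W : Ω → T) (E : G → Ω → Prop) {q : ℝ}
    (h : ∀ ω, 0 < P.w ω → ∀ g, P.ex (fun ω' => ind (W ω' = W ω ∧ E g ω')) ≤ q * P.pr W (W ω))
    (A : T → Prop) (γ : T → G) :
    P.ex (fun ω => ind (A (W ω) ∧ E (γ (W ω)) ω)) ≤ q * P.ex (fun ω => ind (A (W ω))) := by
  classical
  rw [ex_fiber P W (fun ω => ind (A (W ω) ∧ E (γ (W ω)) ω)), ex_fiber P W (fun ω => ind (A (W ω))),
    Finset.mul_sum]
  refine Finset.sum_le_sum fun w _ => ?_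
  by_cases hA : A w
  · have e1 : P.ex (fun ω => ind (W ω = w) * ind (A (W ω) ∧ E (γ (W ω)) ω)) =
        P.ex (fun ω => ind (W ω = w ∧ E (γ w) ω)) := by
      refine P.ex_congr fun ω _ => ?_
      by_cases hw : W ω = w
      · rw [ind_of hw, one_mul, hw]
        by_cases hE : E (γ w) ω
        · rw [ind_of ⟨hA, hE⟩, ind_of ⟨rfl, hE⟩]
        · rw [ind_not (fun h => hE h.2), ind_not (fun h => hE h.2)]
      · rw [ind_not hw, zero_mul, ind_not (fun h => hw h.1)]
    have e2 : P.ex (fun ω => ind (W ω = w) * ind (A (W ω))) = P.pr W w := by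
      rw [P.pr_eq_ex]
      refine P.ex_congr fun ω _ => ?_
      by_cases hw : W ω = w
      · rw [ind_of hw, hw, ind_of hA, one_mul]
      · rw [ind_not hw, zero_mul]
    rw [e1, e2]
    rcases (P.pr_nonneg W w).eq_or_lt with h0 | h0
    · have : P.ex (fun ω => ind (W ω = w ∧ E (γ w) ω)) ≤ P.pr W w := by
        rw [P.pr_eq_ex]
        refine P.ex_mono fun ω _ => ?_
        by_cases hw : W ω = w
        · rw [ind_of hw]; exact ind_le_one _
        · rw [ind_not (fun h => hw h.1)]; exact ind_nonneg _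
      rw [← h0] at this ⊢
      linarith
    · have hex : ∃ ω, 0 < P.w ω ∧ W ω = w := by
        by_contra hcon
        push Not at hcon
        have : P.pr W w ≤ 0 := by
          unfold Law.pr
          refine Finset.sum_nonpos fun ω hω => ?_
          simp only [Finset.mem_filter, mem_univ, true_and] at hω
          by_contra hc
          exact hcon ω (not_le.1 hc) hω
        linarith
      obtain ⟨ω0, hω0, rfl⟩ := hex
      exact h ω0 hω0 _
  · have e1 : P.ex (fun ω => ind (W ω = w) * ind (A (W ω) ∧ E (γ (W ω)) ω)) = 0 := by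
      rw [← P.ex_const 0]
      refine P.ex_congr fun ω _ => ?_
      by_cases hw : W ω = w
      · rw [ind_of hw, one_mul, hw, ind_not (fun h => hA h.1)]
      · rw [ind_not hw, zero_mul]
    have e2 : P.ex (fun ω => ind (W ω = w) * ind (A (W ω))) = 0 := by
      rw [← P.ex_const 0]
      refine P.ex_congr fun ω _ => ?_
      by_cases hw : W ω = w
      · rw [ind_of hw, one_mul, hw, ind_not hA]
      · rw [ind_not hw, zero_mul]
    rw [e1, e2, mul_zero]

/-- the converse direction: a lower bound for the values of `D` in a set -/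
lemma ex_event_ge (P : Law Ω) (D : Ω → U) (E : G → Ω → Prop) {q : ℝ} (A : U → Prop) (γ : U → G)
    (h : ∀ ω, 0 < P.w ω → A (D ω) → q * P.pr D (D ω) ≤
      P.ex (fun ω' => ind (D ω' = D ω ∧ E (γ (D ω)) ω'))) :
    q * P.ex (fun ω => ind (A (D ω))) ≤ P.ex (fun ω => ind (A (D ω) ∧ E (γ (D ω)) ω)) := by
  classical
  rw [ex_fiber P D (fun ω => ind (A (D ω) ∧ E (γ (D ω)) ω)), ex_fiber P D (fun ω => ind (A (D ω))),
    Finset.mul_sum]
  refine Finset.sum_le_sum fun d _ => ?_
  by_cases hA : A d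
  · have e1 : P.ex (fun ω => ind (D ω = d) * ind (A (D ω) ∧ E (γ (D ω)) ω)) =
        P.ex (fun ω => ind (D ω = d ∧ E (γ d) ω)) := by
      refine P.ex_congr fun ω _ => ?_
      by_cases hw : D ω = d
      · rw [ind_of hw, one_mul, hw]
        by_cases hE : E (γ d) ω
        · rw [ind_of ⟨hA, hE⟩, ind_of ⟨rfl, hE⟩]
        · rw [ind_not (fun h => hE h.2), ind_not (fun h => hE h.2)]
      · rw [ind_not hw, zero_mul, ind_not (fun h => hw h.1)]
    have e2 : P.ex (fun ω => ind (D ω = d) * ind (A (D ω))) = P.pr D d := by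
      rw [P.pr_eq_ex]
      refine P.ex_congr fun ω _ => ?_
      by_cases hw : D ω = d
      · rw [ind_of hw, hw, ind_of hA, one_mul]
      · rw [ind_not hw, zero_mul]
    rw [e1, e2]
    by_cases hex : ∃ ω, 0 < P.w ω ∧ D ω = d
    · obtain ⟨ω0, hω0, rfl⟩ := hex
      exact h ω0 hω0 hA
    · have h0 : P.pr D d = 0 := by
        refine le_antisymm ?_ (P.pr_nonneg D d)
        unfold Law.pr
        refine Finset.sum_nonpos fun ω hω => ?_
        simp only [Finset.mem_filter, mem_univ, true_and] at hω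
        by_contra hc
        exact hex ⟨ω, not_le.1 hc, hω⟩
      rw [h0, mul_zero]
      exact P.ex_nonneg fun ω _ => ind_nonneg _
  · have e1 : P.ex (fun ω => ind (D ω = d) * ind (A (D ω))) = 0 := by
      rw [← P.ex_const 0]
      refine P.ex_congr fun ω _ => ?_
      by_cases hw : D ω = d
      · rw [ind_of hw, one_mul, hw, ind_not hA]
      · rw [ind_not hw, zero_mul]
    rw [e1, mul_zero]
    exact P.ex_nonneg fun ω _ => mul_nonneg (ind_nonneg _) (ind_nonneg _)

/-- **averaging from the base letter to the label** : the values of `D` given which some value of the line is (nearly)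
known are rare, if no value of the line is (nearly) known given `W` and `D` is a function of `W` outside `Bad` -/
theorem avg_atom (P : Law Ω) (W : Ω → T) (D : Ω → U) (Bad : Ω → Prop)
    (hf : ∀ ω ω', 0 < P.w ω → 0 < P.w ω' → ¬ Bad ω → ¬ Bad ω' → W ω = W ω' → D ω = D ω')
    (E : G → Ω → Prop) {c' c'' : ℝ} (hc0 : 0 ≤ c') (hc1 : c' ≤ 1)
    (hW : ∀ ω, 0 < P.w ω → ∀ g,
      P.ex (fun ω' => ind (W ω' = W ω ∧ E g ω')) ≤ (1 - c') * P.pr W (W ω))
    (A : U → Prop)
    (hD : ∀ ω, 0 < P.w ω → A (D ω) → ∃ g, (1 - c'') * P.pr D (D ω) ≤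
      P.ex (fun ω' => ind (D ω' = D ω ∧ E g ω'))) :
    (c' - c'') * P.ex (fun ω => ind (A (D ω))) ≤ 2 * P.ex (fun ω => ind (Bad ω)) := by
  classical
  by_cases hex : ∃ ω, 0 < P.w ω ∧ A (D ω)
  swap
  · have : P.ex (fun ω => ind (A (D ω))) = 0 := by
      rw [← P.ex_const 0]
      refine P.ex_congr fun ω hω => ?_
      rw [ind_not fun h => hex ⟨ω, hω, h⟩]
    rw [this, mul_zero]
    exact mul_nonneg (by norm_num) (P.ex_nonneg fun ω _ => ind_nonneg _)
  obtain ⟨ω1, hω1, hA1⟩ := hex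
  obtain ⟨g1, -⟩ := hD ω1 hω1 hA1
  -- the value of the line
  let γ : U → G := fun d => if h : ∃ g, (1 - c'') * P.pr D d ≤
      P.ex (fun ω' => ind (D ω' = d ∧ E g ω')) then h.choose else g1
  have hγ : ∀ ω, 0 < P.w ω → A (D ω) → (1 - c'') * P.pr D (D ω) ≤
      P.ex (fun ω' => ind (D ω' = D ω ∧ E (γ (D ω)) ω')) := by
    intro ω hω hA
    have h := hD ω hω hA
    simp only [γ, dif_pos h]
    exact h.choose_spec
  -- the function
  let f : T → U := fun w => if h : ∃ ω, 0 < P.w ω ∧ ¬ Bad ω ∧ W ω = w then D h.choose else D ω1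
  have hff : ∀ ω, 0 < P.w ω → ¬ Bad ω → D ω = f (W ω) := by
    intro ω hω hB
    have h : ∃ ω', 0 < P.w ω' ∧ ¬ Bad ω' ∧ W ω' = W ω := ⟨ω, hω, hB, rfl⟩
    simp only [f, dif_pos h]
    obtain ⟨h1, h2, h3⟩ := h.choose_spec
    exact hf ω _ hω h1 hB h2 h3.symm
  have a1 := ex_event_ge P D E A γ hγ
  have a2 := ex_event_le P W E hW (fun w => A (f w)) (fun w => γ (f w))
  have a3 : P.ex (fun ω => ind (A (D ω) ∧ E (γ (D ω)) ω)) ≤
      P.ex (fun ω => ind (A (f (W ω)) ∧ E (γ (f (W ω))) ω)) + P.ex (fun ω => ind (Bad ω)) := by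
    rw [← P.ex_add]
    refine P.ex_mono fun ω hω => ?_
    by_cases hB : Bad ω
    · rw [ind_of hB]
      have := ind_le_one (A (D ω) ∧ E (γ (D ω)) ω)
      have := ind_nonneg (A (f (W ω)) ∧ E (γ (f (W ω))) ω)
      linarith
    · rw [ind_not hB, hff ω hω hB, add_zero]
  have a4 : P.ex (fun ω => ind (A (f (W ω)))) ≤
      P.ex (fun ω => ind (A (D ω))) + P.ex (fun ω => ind (Bad ω)) := by
    rw [← P.ex_add]
    refine P.ex_mono fun ω hω => ?_
    by_cases hB : Bad ω
    · rw [ind_of hB]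
      have := ind_le_one (A (f (W ω)))
      have := ind_nonneg (A (D ω))
      linarith
    · rw [ind_not hB, hff ω hω hB, add_zero]
  have a5 : 0 ≤ P.ex (fun ω => ind (Bad ω)) := P.ex_nonneg fun ω _ => ind_nonneg _
  have a6 := mul_le_mul_of_nonneg_left a4 (by linarith : 0 ≤ 1 - c')
  nlinarith [mul_nonneg hc0 a5]

/-- entropy bounds given the values of `D` outside an exceptional set -/
theorem avg_hc (P : Law Ω) (D : Ω → U) (Z : Ω → V) (X : Ω → S) (Y : Ω → T) (A : U → Prop)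
    {K : ℝ} {er : U → ℝ} (her : ∀ ω, 0 < P.w ω → 0 ≤ er (D ω))
    (hK : ∀ ω, 0 < P.w ω → ¬ A (D ω) → K - er (D ω) ≤ hc (P.cond D (D ω)) X Y) :
    K * (1 - P.ex (fun ω => ind (A (D ω)))) - P.ex (fun ω => er (D ω)) -
      mi P Z (fun ω => (X ω, Y ω)) D ≤ hc P X (fun ω => (Y ω, Z ω, D ω)) := by
  have h1 : K * (1 - P.ex (fun ω => ind (A (D ω)))) - P.ex (fun ω => er (D ω)) ≤
      hc P X (fun ω => (Y ω, D ω)) := by
    rw [hc_cond_ex P X Y D]
    have e : K * (1 - P.ex (fun ω => ind (A (D ω)))) - P.ex (fun ω => er (D ω)) =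
        P.ex (fun ω => K * (1 - ind (A (D ω))) - er (D ω)) := by
      rw [P.ex_sub, P.ex_const_mul, P.ex_sub, P.ex_const]
    rw [e]
    refine P.ex_mono fun ω hω => ?_
    by_cases hA : A (D ω)
    · rw [ind_of hA]
      have := hc_nonneg (P.cond D (D ω)) X Y
      have := her ω hω
      linarith
    · rw [ind_not hA]
      have := hK ω hω hA
      linarith
  -- adding the letter `Z`
  have h2 : mi P Z X (fun ω => (Y ω, D ω)) ≤ mi P Z (fun ω => (X ω, Y ω)) D := by
    have e1 : mi P Z (fun ω => (Y ω, X ω)) D = mi P Z Y D + mi P Z X (fun ω => (Y ω, D ω)) :=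
      mi_pair P Z Y X D
    have e2 : mi P Z (fun ω => (Y ω, X ω)) D ≤ mi P Z (fun ω => (X ω, Y ω)) D := by
      refine mi_mono_right P Z ?_
      intro ω ω' _ _ e
      simp only [Prod.mk.injEq] at e ⊢
      exact ⟨e.1.2, e.1.1⟩
    have := mi_nonneg P Z Y D
    linarith
  have h3 : mi P X Z (fun ω => (Y ω, D ω)) =
      hc P X (fun ω => (Y ω, D ω)) - hc P X (fun ω => (Z ω, Y ω, D ω)) := rfl
  have h4 : hc P X (fun ω => (Z ω, Y ω, D ω)) = hc P X (fun ω => (Y ω, Z ω, D ω)) := by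
    refine hc_congr P (fun ω ω' _ _ e => congrArg Prod.fst e) (fun ω ω' _ _ e => congrArg Prod.fst e)
      ?_ ?_
    · intro ω ω' _ _ e
      simp only [Prod.mk.injEq] at e ⊢
      tauto
    · intro ω ω' _ _ e
      simp only [Prod.mk.injEq] at e ⊢
      tauto
  rw [mi_symm P Z X] at h2
  linarith

/-- **AVG** : `A` = values of the base letter with a (nearly) known line, `B` = other exceptional values; for all the other
values the block `X` is full given `Y`. Then it is full given `(Y, Z, D)` and given every function `C` of it. -/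
theorem avg_sat (P : Law Ω) (W : Ω → T) (D : Ω → U) (Bad : Ω → Prop)
    (hf : ∀ ω ω', 0 < P.w ω → 0 < P.w ω' → ¬ Bad ω → ¬ Bad ω' → W ω = W ω' → D ω = D ω')
    (E : G → Ω → Prop) {c' c'' : ℝ} (hc0 : 0 ≤ c'') (hcc : c'' < c') (hc1 : c' ≤ 1)
    (hW : ∀ ω, 0 < P.w ω → ∀ g,
      P.ex (fun ω' => ind (W ω' = W ω ∧ E g ω')) ≤ (1 - c') * P.pr W (W ω))
    (A B : U → Prop)
    (hD : ∀ ω, 0 < P.w ω → A (D ω) → ∃ g, (1 - c'') * P.pr D (D ω) ≤
      P.ex (fun ω' => ind (D ω' = D ω ∧ E g ω')))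
    {V' T' : Type*} (Z : Ω → V) (X : Ω → S) (Y : Ω → T') (C : Ω → V')
    {K : ℝ} (hK0 : 0 ≤ K) {er : U → ℝ} (her : ∀ ω, 0 < P.w ω → 0 ≤ er (D ω))
    (hK : ∀ ω, 0 < P.w ω → ¬ A (D ω) → ¬ B (D ω) → K - er (D ω) ≤ hc (P.cond D (D ω)) X Y)
    (hC : Fn P C (fun ω => (Y ω, Z ω, D ω))) :
    K * (1 - 2 * P.ex (fun ω => ind (Bad ω)) / (c' - c'') - P.ex (fun ω => ind (B (D ω)))) -
      P.ex (fun ω => er (D ω)) - mi P Z (fun ω => (X ω, Y ω)) D ≤ hc P X C := by
  have h1 := avg_atom P W D Bad hf E (hc0.trans hcc.le) hc1 hW A hD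
  have h2 := avg_hc P D Z X Y (fun d => A d ∨ B d) her
    (fun ω hω h => hK ω hω (fun h' => h (Or.inl h')) (fun h' => h (Or.inr h')))
  have h3 : P.ex (fun ω => ind (A (D ω) ∨ B (D ω))) ≤
      P.ex (fun ω => ind (A (D ω))) + P.ex (fun ω => ind (B (D ω))) := by
    rw [← P.ex_add]
    refine P.ex_mono fun ω _ => ?_
    by_cases hA : A (D ω)
    · rw [ind_of (Or.inl hA), ind_of hA]
      have := ind_nonneg (B (D ω))
      linarith
    · by_cases hB : B (D ω)
      · rw [ind_of (Or.inr hB), ind_of hB]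
        have := ind_nonneg (A (D ω))
        linarith
      · rw [ind_not (by tauto)]
        exact add_nonneg (ind_nonneg _) (ind_nonneg _)
  have h4 : P.ex (fun ω => ind (A (D ω))) ≤ 2 * P.ex (fun ω => ind (Bad ω)) / (c' - c'') := by
    rw [le_div_iff₀ (by linarith)]
    linarith
  have h5 : hc P X (fun ω => (Y ω, Z ω, D ω)) ≤ hc P X C := hc_mono_right P X hC
  have h6 : K * (1 - 2 * P.ex (fun ω => ind (Bad ω)) / (c' - c'') -
      P.ex (fun ω => ind (B (D ω)))) ≤ K * (1 - P.ex (fun ω => ind (A (D ω) ∨ B (D ω)))) :=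
    mul_le_mul_of_nonneg_left (by linarith) hK0
  linarith

/-- **AVG for shifts** : `A` = values of the base letter with a (nearly) known line, `B` = other exceptional values; for
the other values `δ` of `D` the law given `D = δ` is nearly invariant under a pure shift `τ δ` of the number `n` (in the
units of its fine cell), the side coordinates `w` fixed. Then the block `⌊n⌋` given `⌊n / L⌋` is full given the side
coordinates, the base letter and the long letter `Z`. -/
theorem avg_shift : ∃ c : ℝ, 0 ≤ c ∧ ∀ {Ω : Type} [Fintype Ω] {κ : Type} [Fintype κ] {T U V V' G : Type}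
    (P : Law Ω) (W : Ω → T) (D : Ω → U) (Bad : Ω → Prop),
    (∀ ω ω', 0 < P.w ω → 0 < P.w ω' → ¬ Bad ω → ¬ Bad ω' → W ω = W ω' → D ω = D ω') →
    ∀ (E : G → Ω → Prop) {c' c'' : ℝ}, 0 ≤ c'' → c'' < c' → c' ≤ 1 →
    (∀ ω, 0 < P.w ω → ∀ g,
      P.ex (fun ω' => ind (W ω' = W ω ∧ E g ω')) ≤ (1 - c') * P.pr W (W ω)) →
    ∀ (A B : U → Prop),
    (∀ ω, 0 < P.w ω → A (D ω) → ∃ g, (1 - c'') * P.pr D (D ω) ≤
      P.ex (fun ω' => ind (D ω' = D ω ∧ E g ω'))) →
    ∀ (Z : Ω → V) (n : Ω → ℝ) (w : Ω → κ → ℝ) (C : Ω → V') (τ e : U → ℝ) {δ ρ L : ℝ} {R : ℕ},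
    0 < δ → 1 ≤ L → c * L ≤ R * δ → 0 ≤ ρ → c * (R * ρ) ≤ 1 → 1 ≤ R →
    (∀ ω, 0 < P.w ω → 0 ≤ e (D ω)) →
    (∀ ω, 0 < P.w ω → ¬ A (D ω) → ¬ B (D ω) → δ ≤ |τ (D ω)| ∧ |τ (D ω)| ≤ 2 ∧
      SubC (P.cond D (D ω)) (P.cond D (D ω)) (fun a b => |n b - n a - τ (D ω)| ≤ ρ ∧
        ∀ i, |w b i - w a i| ≤ ρ) (e (D ω))) →
    Fn P C (fun ω => ((⌊n ω / L⌋, fun i => ⌊w ω i⌋), Z ω, D ω)) →
    Real.log L * (1 - 2 * P.ex (fun ω => ind (Bad ω)) / (c' - c'') - P.ex (fun ω => ind (B (D ω)))) -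
      (c + Fintype.card κ * Real.log 3 + c * (R * (1 + Real.log R)) * P.ex (fun ω => e (D ω))) -
      mi P Z (fun ω => (⌊n ω⌋, (⌊n ω / L⌋, fun i => ⌊w ω i⌋))) D ≤ hc P (fun ω => ⌊n ω⌋) C := by
  obtain ⟨c, hc0, hsat⟩ := Vale.Agent.P106.U.LatV.sat1
  refine ⟨c, hc0, ?_⟩
  intro Ω _ κ _ T U V V' G P W D Bad hf E c' c'' h0 hcc hc1 hW A B hD Z n w C τ e δ ρ L R hδ hL hLR hρ
    hRρ hR he hS hC
  have hR1 : (1 : ℝ) ≤ R := by exact_mod_cast hR
  have hlR : 0 ≤ Real.log R := Real.log_nonneg hR1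
  have hcR : 0 ≤ c * (R * (1 + Real.log R)) := by positivity
  have h := avg_sat P W D Bad hf E h0 hcc hc1 hW A B hD Z (fun ω => ⌊n ω⌋)
    (fun ω => (⌊n ω / L⌋, fun i => ⌊w ω i⌋)) C (K := Real.log L) (Real.log_nonneg hL)
    (er := fun d => c + Fintype.card κ * Real.log 3 + c * (R * (1 + Real.log R)) * e d)
    (fun ω hω => by
      have h1 := he ω hω
      have h2 : 0 ≤ Real.log 3 := Real.log_nonneg (by norm_num)
      positivity)
    (fun ω hω hA hB => by
      obtain ⟨h1, h2, h3⟩ := hS ω hω hA hB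
      have h4 := hsat (P.cond D (D ω)) n w (τ (D ω)) (e (D ω)) ρ L R (hδ.trans_le h1) h2 hL
        (hLR.trans (mul_le_mul_of_nonneg_left h1 (by linarith))) hρ hRρ hR h3
      linarith) hC
  have e1 : P.ex (fun ω => c + Fintype.card κ * Real.log 3 + c * (R * (1 + Real.log R)) * e (D ω)) =
      c + Fintype.card κ * Real.log 3 + c * (R * (1 + Real.log R)) * P.ex (fun ω => e (D ω)) := by
    rw [P.ex_add, P.ex_const, P.ex_const_mul]
  rw [e1] at h
  exact h

end Vale.Agent.P106.U.H470
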