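import Vale.Agent.P106.U.H420.MtrB
import Vale.Agent.P106.U.H785.MtrFz
import Vale.Agent.P106.U.S3.F2

/-!
# P106 / U / H470 / At1 : one step of the data of helper785, letters of the frozen path in the kappa regime (helper470)

* `at1 D i f` : the data `D` at the index `i` only (constant sequences), own slope to `f` digits, any `f ≥ rk i`.
  `at1_mtr` : same cell if `f = rf i`.  `at1_hy`, `at1_sm` : hypotheses, comparison of two data at DIFFERENT indices.
* `LDk_iff`, `LTh_eq` : the letters of `S3.F2` of the frozen path `fz k k` in the kappa regime.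
* `mi_V` : the information of `F2o.V1`, `F2o.V2` in terms of `mtr` and of the time.
-/

set_option autoImplicit false

namespace Vale.Agent.P106.U.H470

open Finset Vale.Agent.P127 Vale.Agent.P127.Stk
open Vale.Agent.P127.U.CellD (q2 rd fl1_fl1)
open Vale.Agent.P106.U.Cell Vale.Agent.P106.U.H785.Mtr

section at1

variable {Ω π π' : Type}

/-- **one step of the data**, own slope to `f` digits -/
noncomputable def at1 (D : Mtd Ω π) (i f : ℕ) (hf : D.rk i ≤ f) : Mtd Ω π where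
  a := fun _ => D.a i
  rf := fun _ => f
  rk := fun _ => D.rk i
  ha := monotone_const
  hf := monotone_const
  hk := monotone_const
  hkf := fun _ => hf
  μ := D.μ
  ν := D.ν
  o := D.o
  oκ := D.oκ
  oγ := D.oγ
  l := D.l
  t := D.t
  p := D.p
  un := D.un
  κ := fun _ => D.κ i
  al := fun _ => D.al i
  pf := fun _ => D.pf i
  gv := fun _ => D.gv i

variable {D : Mtd Ω π} {i f : ℕ} {hf : D.rk i ≤ f}

lemma at1_rr (n : ℕ) : (at1 D i f hf).rr n = D.rr i := rfl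

lemma at1_s (n : ℕ) : (at1 D i f hf).s n = D.s i := rfl

lemma at1_lt (n : ℕ) : (at1 D i f hf).lt n = D.lt i := rfl

lemma at1_R (n b : ℕ) : (at1 D i f hf).R n b = min (D.rr i + b) f := rfl

/-- the same cell -/
lemma at1_mtr (n b : ℕ) : (at1 D i (D.rf i) (D.hkf i)).mtr n b = D.mtr i b := rfl

/-- the same cell, the precision of the own slope is a free name -/
lemma at1_mtr' (h : D.rf i = f) (n b : ℕ) : (at1 D i f hf).mtr n b = D.mtr i b := by
  subst h; rfl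

lemma at1_p1 (h : D.rf i = f) (n : ℕ) : (at1 D i f hf).p1 n = D.p1 i := by
  subst h; rfl

/-- hypotheses -/
lemma at1_hy {K : ℝ} {I : Set ℕ} {ω : Ω} (h : D.Hy K I ω) (hi : i ∈ I) :
    (at1 D i f hf).Hy K Set.univ ω where
  v1 := h.v1
  w1 := h.w1
  p1 := h.p1
  n1 := h.n1
  n2 := h.n2
  k1 := fun _ _ => h.k1 i hi
  a1 := fun _ _ => h.a1 i hi
  ap := fun _ _ => h.ap i hi
  ka := fun _ _ _ _ _ => h.ka i hi i hi le_rfl
  aa := fun _ _ _ _ _ => h.aa i hi i hi le_rfl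
  r0 := fun _ _ => h.r0 i hi

/-- the real numbers of two data agree -/
structure Rs (D : Mtd Ω π) (D' : Mtd Ω π') (i i' : ℕ) : Prop where
  a : D.a i = D'.a i'
  rk : D.rk i ≤ D'.rk i'
  μ : D.μ = D'.μ
  ν : D.ν = D'.ν
  o : D.o = D'.o
  oκ : D.oκ = D'.oκ
  oγ : D.oγ = D'.oγ
  l : D.l = D'.l
  t : D.t = D'.t
  p : D.p = D'.p
  un : D.un = D'.un
  κ : D.κ i = D'.κ i'
  al : D.al i = D'.al i'

/-- comparison of two data at different indices -/
lemma at1_sm {D' : Mtd Ω π'} {i' : ℕ} {hf' : D'.rk i' ≤ f} (h : Rs D D' i i') (n : ℕ) :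
    H420.Sm (at1 D i f hf) (at1 D' i' f hf') n :=
  ⟨h.a, rfl, h.rk, h.μ, h.ν, h.o, h.oκ, h.oγ, h.l, h.t, h.p, h.un, h.κ, h.al⟩

end at1

section kap

variable {Ω π : Type} {D : Mtd Ω π} {k b : ℕ} {ω ω' : Ω}

/-- kappa regime: the digits of the slope are not in the letter of the cell .. -/
lemma LDk_eq (h : b + D.rr k < D.rf k) (ω : Ω) : S3.LDk (D.fz k k) b k ω = ((D.fz k k).cell k b ω, 0) := by
  unfold S3.LDk
  rw [if_neg]
  rw [Mtd.fz_rf D le_rfl, Mtd.fz_rk D le_rfl le_rfl]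
  omega

lemma LDk_iff (h : b + D.rr k < D.rf k) :
    S3.LDk (D.fz k k) b k ω = S3.LDk (D.fz k k) b k ω' ↔ D.mtr k b ω = D.mtr k b ω' := by
  rw [LDk_eq h, LDk_eq h, ← Mtd.fz_cell_iff D le_rfl b ω ω']
  constructor
  · exact fun e => congrArg Prod.fst e
  · exact fun e => Prod.ext e rfl

/-- .. and not in the letter of the later step -/
lemma LTh_eq {i : ℕ} (h : b + D.rr k < D.rf k) (hi : k ≤ i) (ω : Ω) :
    S3.LTh (D.fz k k) b i ω = ((D.lt k ω, fl1 (D.a i) (D.t ω)), 0) := by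
  unfold S3.LTh
  rw [if_neg]
  · show ((D.lt k ω, fl1 (D.a (max i k)) (D.t ω)), (0 : ℤ)) = _
    rw [max_eq_left hi]
  · rw [Mtd.fz_rf D hi, Mtd.fz_rk D hi hi]
    have := D.hf hi
    omega

variable [Fintype Ω] (Q : Law Ω)

/-- **the information in the kappa regime**: the time only -/
theorem mi_V {i : ℕ} (h : b + D.rr k < D.rf k) (hi : k ≤ i) {U U' : Type*} {X : Ω → U} {X' : Ω → U'}
    (hX : Fn Q X (fun ω => (X' ω, D.mtr k b ω))) :
    mi Q (S3.LTh (D.fz k k) b i) X (S3.LDk (D.fz k k) b k) ≤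
      mi Q (fun ω => fl1 (D.a i) (D.t ω)) X' (D.mtr k b) := by
  rw [mi_congr_cond Q (S3.LTh (D.fz k k) b i) X (Z' := D.mtr k b) (fun ω ω' _ _ e => (LDk_iff h).2 e)
    (fun ω ω' _ _ e => (LDk_iff h).1 e)]
  refine (mi_mono_left Q X (X' := fun ω => fl1 (D.a i) (D.t ω)) ?_).trans (mi_mono_right Q _ hX)
  intro ω ω' _ _ e
  rw [LTh_eq h hi, LTh_eq h hi]
  simp only [Prod.mk.injEq] at e
  rw [e.1, show D.lt k ω = D.lt k ω' from congrArg Prod.fst e.2]

/-- `F2o.V1` -/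
theorem mi_V1 {i bV : ℕ} (h : b + D.rr k < D.rf k) (hi : k ≤ i) :
    mi Q (S3.LTh (D.fz k k) b i) ((D.fz k k).cell k bV) (S3.LDk (D.fz k k) b k) ≤
      mi Q (fun ω => fl1 (D.a i) (D.t ω)) (D.mtr k bV) (D.mtr k b) :=
  mi_V Q h hi fun ω ω' _ _ e => (Mtd.fz_cell_iff D le_rfl bV ω ω').2 (congrArg Prod.fst e)

/-- `F2o.V2` -/
theorem mi_V2 {i bV : ℕ} (h : b + D.rr k < D.rf k) (hi : k ≤ i) {U U' : Type*} (A : Ω → U) (O : Ω → U') :
    mi Q (S3.LTh (D.fz k k) b i) (fun ω => ((D.fz k k).cell k bV ω, A ω, O ω)) (S3.LDk (D.fz k k) b k) ≤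
      mi Q (fun ω => fl1 (D.a i) (D.t ω)) (fun ω => (D.mtr k bV ω, A ω, O ω)) (D.mtr k b) := by
  refine mi_V Q h hi fun ω ω' _ _ e => ?_
  simp only [Prod.mk.injEq] at e
  obtain ⟨⟨e1, e2, e3⟩, _⟩ := e
  simp only [Prod.mk.injEq]
  exact ⟨(Mtd.fz_cell_iff D le_rfl bV ω ω').2 e1, e2, e3⟩

end kap

end Vale.Agent.P106.U.H470
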