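import Vale.Agent.P106.U.H428.ClsC

/-!
# P106 / U / H470 / Pfv : the exact prefix letter of the V windows (helper470, note 20403)

Over helper428's classes.  `ci a x` = integer of the class of the level `a` at the depth `x`;
`pfv a Y` = the integers at the finitely many depths `y ∈ Y`.  `Yk x dep k a` = the depths `x j a`, `x j a + dep`
of the caps `j ≤ k` of the window which are `≤ x k a`.

* `ci_fn`, `pfv_fn`, `yk_fn` : a function of `G`, when the depths are revealed.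
* `pfv_res`, `yk_mono` : nested in the cap, exactly.
* `pfv_succ`, **`cut_card`** : constant along the levels of `V` up to
  `2 (k+1) (2 number of ends + 8 #V B ^ (-κ))` levels (428's nested cuts).
* `ci_al` : `|al a B^x - (ci + 1/2)| ≤ 3/4`; `gT_ci` : helper428's value `gT` is the top entry.
-/

set_option autoImplicit false
set_option linter.unusedSectionVars false

namespace Vale.Agent.P106.U.H470.Pfv

open Finset Vale.Agent.P127 Vale.Agent.P127.Stk Vale.Agent.P106.U.H428.Cls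

variable {Ω : Type} (d : Dt Ω)

/-- integer of the class of the level `a` at the depth `x` -/
noncomputable def ci (a : ℕ) (x : ℤ) (ω : Ω) : ℤ := ⌊d.z (d.rep a x) x ω⌋

open Classical in
/-- the integers at the depths `y ∈ Y` -/
noncomputable def pfv (a : ℕ) (Y : Finset ℤ) (ω : Ω) : ℤ → Option ℤ :=
  fun y => if y ∈ Y then some (ci d a y ω) else none

/-- the depths of the window up to the cap `k` -/
def Yk (x : ℕ → ℕ → ℤ) (dep : ℤ) (k a : ℕ) : Finset ℤ :=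
  (((range (k + 1)).image fun j => x j a) ∪ ((range (k + 1)).image fun j => x j a + dep)).filter
    fun y => y ≤ x k a

lemma mem_Yk {x : ℕ → ℕ → ℤ} {dep : ℤ} {k a : ℕ} {y : ℤ} :
    y ∈ Yk x dep k a ↔ (∃ j ≤ k, y = x j a ∨ y = x j a + dep) ∧ y ≤ x k a := by
  unfold Yk
  simp only [Finset.mem_filter, Finset.mem_union, Finset.mem_image, Finset.mem_range]
  constructor
  · rintro ⟨⟨j, hj, rfl⟩ | ⟨j, hj, rfl⟩, h2⟩
    · exact ⟨⟨j, by omega, Or.inl rfl⟩, h2⟩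
    · exact ⟨⟨j, by omega, Or.inr rfl⟩, h2⟩
  · rintro ⟨⟨j, hj, h | h⟩, h2⟩
    · exact ⟨Or.inl ⟨j, by omega, h.symm⟩, h2⟩
    · exact ⟨Or.inr ⟨j, by omega, h.symm⟩, h2⟩

/-- nested in the cap -/
lemma yk_mono {x : ℕ → ℕ → ℤ} {dep : ℤ} {k k' a : ℕ} (h : k ≤ k') (hx : x k a ≤ x k' a) :
    Yk x dep k a ⊆ Yk x dep k' a := by
  intro y hy
  rw [mem_Yk] at hy ⊢
  obtain ⟨⟨j, hj, h1⟩, h2⟩ := hy
  exact ⟨⟨j, hj.trans h, h1⟩, h2.trans hx⟩

lemma top_mem (x : ℕ → ℕ → ℤ) (dep : ℤ) (k a : ℕ) : x k a ∈ Yk x dep k a :=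
  mem_Yk.2 ⟨⟨k, le_rfl, Or.inl rfl⟩, le_rfl⟩

/-- the deep class of the cap `j` is an entry of the later letter -/
lemma deep_mem {x : ℕ → ℕ → ℤ} {dep : ℤ} {j k a : ℕ} (h : j ≤ k) (hx : x j a + dep ≤ x k a) :
    x j a + dep ∈ Yk x dep k a :=
  mem_Yk.2 ⟨⟨j, h, Or.inr rfl⟩, hx⟩

/-- restriction -/
lemma pfv_res {a : ℕ} {Y Y' : Finset ℤ} (h : Y ⊆ Y') {ω ω' : Ω} (e : pfv d a Y' ω = pfv d a Y' ω') :
    pfv d a Y ω = pfv d a Y ω' := by
  classical
  funext y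
  unfold pfv
  by_cases hy : y ∈ Y
  · have := congrFun e y
    unfold pfv at this
    rw [if_pos (h hy), if_pos (h hy)] at this
    rw [if_pos hy, if_pos hy, this]
  · rw [if_neg hy, if_neg hy]

/-- one entry -/
lemma ci_of_pfv {a : ℕ} {Y : Finset ℤ} {y : ℤ} (hy : y ∈ Y) {ω ω' : Ω} (e : pfv d a Y ω = pfv d a Y ω') :
    ci d a y ω = ci d a y ω' := by
  classical
  have := congrFun e y
  unfold pfv at this
  rw [if_pos hy, if_pos hy] at this
  exact Option.some.inj this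

/-- no cut at the depths `y ∈ Y` between `a` and `a + 1` -/
lemma pfv_succ {a : ℕ} {Y : Finset ℤ} (h : ∀ y ∈ Y, d.rep (a + 1) y ≠ a + 1) (ω : Ω) :
    pfv d (a + 1) Y ω = pfv d a Y ω := by
  classical
  funext y
  unfold pfv
  by_cases hy : y ∈ Y
  · rw [if_pos hy, if_pos hy]
    rcases d.st_succ a y with ⟨_, h2, _⟩ | ⟨_, h2, _⟩
    · unfold ci
      rw [h2]
    · exact absurd h2 (h y hy)
  · rw [if_neg hy, if_neg hy]

lemma ci_succ {a : ℕ} {y : ℤ} (h : d.rep (a + 1) y ≠ a + 1) (ω : Ω) : ci d (a + 1) y ω = ci d a y ω := by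
  rcases d.st_succ a y with ⟨_, h2, _⟩ | ⟨_, h2, _⟩
  · unfold ci
    rw [h2]
  · exact absurd h2 h

open Classical in
/-- levels at which one of the depths of the window has a cut -/
noncomputable def cutL (x : ℕ → ℕ → ℤ) (dep : ℤ) (k : ℕ) (V : Finset ℕ) : Finset ℕ :=
  V.filter fun a => a + 1 ∈ V ∧ ∃ j ≤ k, d.rep (a + 1) (x j a) = a + 1 ∨ d.rep (a + 1) (x j a + dep) = a + 1

/-- off the cuts the letters of `a` and `a + 1` are the same variable -/
lemma yk_succ {x : ℕ → ℕ → ℤ} {dep : ℤ} {k a : ℕ} (h : ∀ j ≤ k, x j (a + 1) = x j a) :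
    Yk x dep k (a + 1) = Yk x dep k a := by
  ext y
  rw [mem_Yk, mem_Yk]
  constructor
  · rintro ⟨⟨j, hj, h1⟩, h2⟩
    rw [h j hj] at h1
    rw [h k le_rfl] at h2
    exact ⟨⟨j, hj, h1⟩, h2⟩
  · rintro ⟨⟨j, hj, h1⟩, h2⟩
    rw [← h j hj] at h1
    rw [← h k le_rfl] at h2
    exact ⟨⟨j, hj, h1⟩, h2⟩

theorem pfv_const {x : ℕ → ℕ → ℤ} {dep : ℤ} {k a : ℕ} {V : Finset ℕ} (ha : a ∈ V) (ha' : a + 1 ∈ V)
    (h : ∀ j ≤ k, x j (a + 1) = x j a) (hc : a ∉ cutL d x dep k V) (ω : Ω) :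
    pfv d (a + 1) (Yk x dep k (a + 1)) ω = pfv d a (Yk x dep k a) ω ∧
      ∀ j ≤ k, ci d (a + 1) (x j (a + 1) + dep) ω = ci d a (x j a + dep) ω := by
  classical
  have h0 : ∀ j ≤ k, d.rep (a + 1) (x j a) ≠ a + 1 ∧ d.rep (a + 1) (x j a + dep) ≠ a + 1 := by
    intro j hj
    constructor
    · intro h1
      exact hc (Finset.mem_filter.2 ⟨ha, ha', j, hj, Or.inl h1⟩)
    · intro h1
      exact hc (Finset.mem_filter.2 ⟨ha, ha', j, hj, Or.inr h1⟩)
  refine ⟨?_, fun j hj => ?_⟩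
  · rw [yk_succ h]
    refine pfv_succ d ?_ ω
    intro y hy
    obtain ⟨⟨j, hj, h1 | h1⟩, _⟩ := mem_Yk.1 hy
    · rw [h1]; exact (h0 j hj).1
    · rw [h1]; exact (h0 j hj).2
  · rw [h j hj]
    exact ci_succ d (h0 j hj).2 ω

/-- **number of cuts of the letter** -/
theorem cut_card (x : ℕ → ℕ → ℤ) {dep : ℤ} (h0 : 0 ≤ dep) (k : ℕ) (V : Finset ℕ) {κ : ℤ} (hκ : 1 ≤ κ)
    (hV : ∀ a ∈ V, ∀ j ≤ k, x j a + dep ≤ d.rho a - 1 - κ)
    (hx : ∀ a ∈ V, a + 1 ∈ V → ∀ j ≤ k, x j (a + 1) = x j a) :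
    ((cutL d x dep k V).card : ℝ) ≤
      2 * (k + 1) * (2 * ((V.filter fun a => a + 1 ∉ V).card : ℝ) + 8 * V.card * d.B ^ (-κ)) := by
  classical
  set E : ℝ := 2 * ((V.filter fun a => a + 1 ∉ V).card : ℝ) + 8 * V.card * d.B ^ (-κ) with hE
  -- one path of depths
  have one : ∀ y : ℕ → ℤ, (∀ a ∈ V, y a ≤ d.rho a - 1 - κ) → (∀ a ∈ V, a + 1 ∈ V → y (a + 1) = y a) →
      ((V.filter fun a => d.rep (a + 1) (y a) = a + 1).card : ℝ) ≤ E := by
    intro y hy hy'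
    refine (Dt.cuts_path (d := d) y V hκ hy).trans ?_
    rw [hE]
    have : (V.filter fun a => ¬ (a + 1 ∈ V ∧ y (a + 1) = y a)) ⊆ V.filter fun a => a + 1 ∉ V := by
      intro a ha
      rw [Finset.mem_filter] at ha ⊢
      refine ⟨ha.1, fun h => ha.2 ⟨h, hy' a ha.1 h⟩⟩
    have h2 : ((V.filter fun a => ¬ (a + 1 ∈ V ∧ y (a + 1) = y a)).card : ℝ) ≤
        ((V.filter fun a => a + 1 ∉ V).card : ℝ) := by exact_mod_cast Finset.card_le_card this
    linarith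
  have hsub : cutL d x dep k V ⊆ (range (k + 1)).biUnion fun j =>
      (V.filter fun a => d.rep (a + 1) (x j a) = a + 1) ∪
        (V.filter fun a => d.rep (a + 1) (x j a + dep) = a + 1) := by
    intro a ha
    unfold cutL at ha
    rw [Finset.mem_filter] at ha
    obtain ⟨h1, _, j, hj, h2⟩ := ha
    rw [Finset.mem_biUnion]
    refine ⟨j, Finset.mem_range.2 (by omega), ?_⟩
    rw [Finset.mem_union, Finset.mem_filter, Finset.mem_filter]
    rcases h2 with h2 | h2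
    · exact Or.inl ⟨h1, h2⟩
    · exact Or.inr ⟨h1, h2⟩
  have h1 : ((cutL d x dep k V).card : ℝ) ≤ ∑ j ∈ range (k + 1),
      (((V.filter fun a => d.rep (a + 1) (x j a) = a + 1).card : ℝ) +
        ((V.filter fun a => d.rep (a + 1) (x j a + dep) = a + 1).card : ℝ)) := by
    have h2 := (Finset.card_le_card hsub).trans Finset.card_biUnion_le
    have h3 : ((cutL d x dep k V).card : ℝ) ≤ ((∑ j ∈ range (k + 1),
        ((V.filter fun a => d.rep (a + 1) (x j a) = a + 1) ∪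
        (V.filter fun a => d.rep (a + 1) (x j a + dep) = a + 1)).card : ℕ) : ℝ) := by exact_mod_cast h2
    refine h3.trans ?_
    push_cast
    refine Finset.sum_le_sum fun j _ => ?_
    exact_mod_cast Finset.card_union_le _ _
  refine h1.trans ?_
  have h4 : ∀ j ∈ range (k + 1), (((V.filter fun a => d.rep (a + 1) (x j a) = a + 1).card : ℝ) +
        ((V.filter fun a => d.rep (a + 1) (x j a + dep) = a + 1).card : ℝ)) ≤ 2 * E := by
    intro j hj
    have hjk : j ≤ k := by have := Finset.mem_range.1 hj; omega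
    have a1 := one (fun a => x j a) (fun a ha => by have := hV a ha j hjk; omega)
      (fun a ha ha' => hx a ha ha' j hjk)
    have a2 := one (fun a => x j a + dep) (fun a ha => hV a ha j hjk)
      (fun a ha ha' => by rw [hx a ha ha' j hjk])
    linarith
  refine (Finset.sum_le_sum h4).trans (le_of_eq ?_)
  rw [Finset.sum_const, Finset.card_range, nsmul_eq_mul]
  push_cast
  ring

/-! ### values -/

variable {d}
variable [Fintype Ω] {P : Law Ω} {γ : Type*} {c : ℝ} {G : Ω → γ} {Kn : Ω → d.Ix → Prop}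

/-- the value of the curvature -/
theorem ci_al (hs : d.Su P) (a : ℕ) (x : ℤ) {ω : Ω} (hω : 0 < P.w ω) :
    |d.al a ω * d.B ^ x - ((ci d a x ω : ℝ) + 1 / 2)| ≤ 3 / 4 := by
  have h1 := abs_le.1 (hs.z_rep (a := a) (x := x) hω)
  have h2 := Int.floor_le (d.z (d.rep a x) x ω)
  have h3 := Int.lt_floor_add_one (d.z (d.rep a x) x ω)
  have h4 : d.z a x ω = d.al a ω * d.B ^ x := rfl
  unfold ci
  rw [abs_le, ← h4]
  constructor <;> linarith [h1.1, h1.2]

/-- a revealed class is a function of `G` -/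
theorem ci_fn (h : d.Kw P c G Kn) {ω ω' : Ω} {a : ℕ} {x : ℤ} (hr : d.rv (Kn ω) a x) (hG : G ω' = G ω) :
    ci d a x ω' = ci d a x ω := by
  obtain ⟨_, _, h3, h4⟩ := hr
  exact h.val ω ω' hG ⟨_, h3⟩ h4

/-- the depths below the second path are revealed -/
theorem rv_below (h : d.Kw P c G Kn) {ω : Ω} {a : ℕ} (ha : a ≤ d.N) (hs : d.s ≤ d.RI a) {y : ℤ}
    (h1 : -(d.N : ℤ) ≤ y) (h2 : y ≤ (d.RT (Kn ω) a : ℤ) - a) : d.rv (Kn ω) a y :=
  h.rv_down (h.rv_RT ha hs) h1 h2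

theorem pfv_fn (h : d.Kw P c G Kn) {ω ω' : Ω} {a : ℕ} {Y : Finset ℤ} (hr : ∀ y ∈ Y, d.rv (Kn ω) a y)
    (hG : G ω' = G ω) : pfv d a Y ω' = pfv d a Y ω := by
  classical
  funext y
  unfold pfv
  by_cases hy : y ∈ Y
  · rw [if_pos hy, if_pos hy, ci_fn h (hr y hy) hG]
  · rw [if_neg hy, if_neg hy]

/-- **the letter of the window is a function of `G`** : `x k a` = revealed depth at the cap `k` -/
theorem yk_fn (h : d.Kw P c G Kn) {ω ω' : Ω} {x : ℕ → ℕ → ℤ} {dep : ℤ} (h0 : 0 ≤ dep) {k a : ℕ}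
    (ha : a ≤ d.N) (hs : d.s ≤ d.RI a) (hx : x k a = (d.RT (Kn ω) a : ℤ) - a)
    (hlo : ∀ j ≤ k, -(d.N : ℤ) ≤ x j a) (hG : G ω' = G ω) :
    pfv d a (Yk x dep k a) ω' = pfv d a (Yk x dep k a) ω := by
  refine pfv_fn h (fun y hy => ?_) hG
  obtain ⟨⟨j, hj, h1⟩, h2⟩ := mem_Yk.1 hy
  have h3 := hlo j hj
  refine rv_below h ha hs ?_ (by rw [← hx]; exact h2)
  rcases h1 with h1 | h1 <;> omega

/-- helper428's value is the top entry -/
theorem gT_ci {ω : Ω} {K : d.Ix → Prop} {a : ℕ} (hR : 0 < d.RT K a) :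
    d.gT K a ω = ((ci d a ((d.RT K a : ℤ) - a) ω : ℝ) + 1 / 2) * d.B ^ ((a : ℤ) - d.RT K a) := by
  classical
  obtain ⟨_, _, h3, _⟩ := Dt.rv_RT_pos hR
  unfold Dt.gT
  rw [dif_pos ⟨hR, h3⟩]
  rfl

/-- the value as a function of the letter -/
noncomputable def gvv (d : Dt Ω) (R a : ℕ) (θ : ℤ → Option ℤ) : ℝ :=
  if 0 < R then
    match θ ((R : ℤ) - a) with
    | some v => ((v : ℝ) + 1 / 2) * d.B ^ ((a : ℤ) - R)
    | none => 0
  else 0

theorem gvv_pfv {ω : Ω} {K : d.Ix → Prop} {a : ℕ} {Y : Finset ℤ} (hY : (d.RT K a : ℤ) - a ∈ Y) :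
    gvv d (d.RT K a) a (pfv d a Y ω) = d.gT K a ω := by
  classical
  unfold gvv
  by_cases hR : 0 < d.RT K a
  · rw [if_pos hR, gT_ci hR]
    have : pfv d a Y ω ((d.RT K a : ℤ) - a) = some (ci d a ((d.RT K a : ℤ) - a) ω) := by
      unfold pfv
      rw [if_pos hY]
    rw [this]
  · rw [if_neg hR]
    unfold Dt.gT
    rw [dif_neg (fun h => hR h.1)]

end Vale.Agent.P106.U.H470.Pfv
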