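import Vale.Agent.P106.U.H470.Avg
import Vale.Agent.P106.U.H117.BetaHc
import Vale.Agent.P106.U.H416.Pfx
import Vale.Agent.P106.U.H122.Two

/-!
# P106 / U / H470 : the two-cap lemma, abstract composition (helper470)

Law `P`, base letter `Δ` (base cell, own letter, isotropic cell), long direction letter `ζ`, fine letter `E` which
determines the state `σ` up to `ρ'` over a base cell, block label `W` (it determines `Δ` outside `Bad`), `α` the curvature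
of the line of the ray.

* `nsw_hc` : shifts of `n` inside the cells of a letter, general side coordinates `w`.
* `nic_base` : 416's change of law for the shifts inside the strip cells.
* `Hyp` : the hypotheses; `KN d z` : the line is known over the base cell `d` and the direction `z`.
* `satII` : the block of `n` is full given the side coordinates, the base letter, the direction, and every function of
  them. Three cases for every value `d` : many directions without known line (strip shifts), two directions with different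
  known lines (commutator), one line for nearly all rays over `d` (excluded by type (ii), `avg_atom`).
-/

set_option autoImplicit false

namespace Vale.Agent.P106.U.H470

open Finset Vale.Agent.P127 Vale.Agent.P127.Stk Vale.Agent.P127.U.Pin Vale.Agent.P127.TV
open Vale.Agent.P127.Law (ind ind_of ind_not)
open Vale.Agent.P106.U.Quad Vale.Agent.P106.U.H117 Vale.Agent.P106.U.H416.Pfx

/-! ### shifts inside the cells, general side coordinates -/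

theorem nsw_hc : ∃ C : ℝ, 0 < C ∧ ∀ {Ω : Type} [Fintype Ω] {κ ι : Type} [Fintype ι] (Q : Law Ω) (n : Ω → ℝ)
    (w : Ω → ι → ℝ) (cel : Ω → κ) (τ : κ → ℝ) (δ ε ρ L : ℝ) (R : ℕ),
    0 < δ → (∀ ω, 0 < Q.w ω → |τ (cel ω)| ≤ 2) → 1 ≤ L → C * L ≤ R * δ → 0 ≤ ρ → C * (R * ρ) ≤ 1 → 1 ≤ R →
    SubC Q Q (fun a b => cel a = cel b ∧ |n b - n a - τ (cel a)| ≤ ρ ∧ ∀ i, |w b i - w a i| ≤ ρ) ε →
    Q.ex (fun ω => ind (δ ≤ |τ (cel ω)|)) * Real.log L - (C + Fintype.card ι * Real.log 3) -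
        C * (R * (1 + Real.log R)) * ε ≤
      hc Q (fun ω => ⌊n ω⌋) (fun ω => (⌊n ω / L⌋, fun i => ⌊w ω i⌋)) := by
  obtain ⟨c, hc0, hsat⟩ := Vale.Agent.P106.U.LatV.sat1
  refine ⟨c + 1, by linarith, ?_⟩
  intro Ω _ κ ι _ Q n w cel τ δ ε ρ L R hδ hτ2 hL hLR hρ hcR hR h
  have hl3 : 0 ≤ Real.log 3 := Real.log_nonneg (by norm_num)
  have hRr : (1 : ℝ) ≤ R := by exact_mod_cast hR
  have hR0 : (0 : ℝ) < R := by linarith
  have hlR : 0 ≤ Real.log R := Real.log_nonneg hRr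
  have hRl : 0 ≤ (R : ℝ) * (1 + Real.log R) := by positivity
  have hlL : 0 ≤ Real.log L := Real.log_nonneg hL
  obtain ⟨er, he0, heE, hcell⟩ := Vale.Agent.P106.U.H122.split_letter Q cel
    (fun a b => |n b - n a - τ (cel a)| ≤ ρ ∧ ∀ i, |w b i - w a i| ≤ ρ) h
  have h1 : Q.ex (fun ω => ind (δ ≤ |τ (cel ω)|) * Real.log L - (c + Fintype.card ι * Real.log 3) -
      c * (R * (1 + Real.log R)) * er (cel ω)) ≤
      hc Q (fun ω => ⌊n ω⌋) (fun ω => ((⌊n ω / L⌋, fun i => ⌊w ω i⌋), cel ω)) := by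
    rw [hc_cond_ex Q (fun ω => ⌊n ω⌋) (fun ω => (⌊n ω / L⌋, fun i => ⌊w ω i⌋)) cel]
    refine Q.ex_mono fun ω hω => ?_
    have hnn := hc_nonneg (Q.cond cel (cel ω)) (fun ω => ⌊n ω⌋) (fun ω => (⌊n ω / L⌋, fun i => ⌊w ω i⌋))
    have h7 : 0 ≤ c * (R * (1 + Real.log R)) * er (cel ω) := mul_nonneg (mul_nonneg hc0 hRl) (he0 _)
    have h8 : 0 ≤ (Fintype.card ι : ℝ) * Real.log 3 := by positivity
    by_cases hb : δ ≤ |τ (cel ω)|
    · rw [ind_of hb, one_mul]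
      have h2 : SubC (Q.cond cel (cel ω)) (Q.cond cel (cel ω))
          (fun a b => |n b - n a - τ (cel ω)| ≤ ρ ∧ ∀ i, |w b i - w a i| ≤ ρ) (er (cel ω)) := by
        refine (SubC.pos (hcell ω hω)).mono ?_ le_rfl
        rintro a b ⟨ha, _, h3, h4⟩
        have h5 := (Vale.Agent.P127.U.Pin.cond_supp Q cel (Q.pr_pos cel hω) ha).1
        rw [← h5]
        exact ⟨h3, h4⟩
      have h6 := hsat (Q.cond cel (cel ω)) n w (τ (cel ω)) (er (cel ω)) ρ L R (hδ.trans_le hb) (hτ2 ω hω) hL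
        (by
          have : c * L ≤ (c + 1) * L := mul_le_mul_of_nonneg_right (by linarith) (by linarith)
          exact this.trans (hLR.trans (mul_le_mul_of_nonneg_left hb hR0.le))) hρ
        (by
          have : c * (R * ρ) ≤ (c + 1) * (R * ρ) := mul_le_mul_of_nonneg_right (by linarith) (by positivity)
          exact this.trans hcR) hR h2
      linarith
    · rw [ind_not hb, zero_mul]
      linarith
  have h2 : hc Q (fun ω => ⌊n ω⌋) (fun ω => ((⌊n ω / L⌋, fun i => ⌊w ω i⌋), cel ω)) ≤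
      hc Q (fun ω => ⌊n ω⌋) (fun ω => (⌊n ω / L⌋, fun i => ⌊w ω i⌋)) :=
    hc_mono_right Q (fun ω => ⌊n ω⌋) (fun ω ω' _ _ e => (Prod.mk.inj e).1)
  have h3 : Q.ex (fun ω => ind (δ ≤ |τ (cel ω)|) * Real.log L - (c + Fintype.card ι * Real.log 3) -
      c * (R * (1 + Real.log R)) * er (cel ω)) = Q.ex (fun ω => ind (δ ≤ |τ (cel ω)|)) * Real.log L -
        (c + Fintype.card ι * Real.log 3) - c * (R * (1 + Real.log R)) * Q.ex (fun ω => er (cel ω)) := by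
    rw [Q.ex_sub, Q.ex_sub, Q.ex_const, Q.ex_const_mul]
    have : Q.ex (fun ω => ind (δ ≤ |τ (cel ω)|) * Real.log L) =
        Q.ex (fun ω => ind (δ ≤ |τ (cel ω)|)) * Real.log L := by
      rw [mul_comm, ← Q.ex_const_mul]
      exact Q.ex_congr fun ω _ => mul_comm _ _
    rw [this]
  have hε : 0 ≤ Q.ex (fun ω => er (cel ω)) := Q.ex_nonneg fun ω _ => he0 _
  have h4 : c * (R * (1 + Real.log R)) * Q.ex (fun ω => er (cel ω)) ≤
      (c + 1) * (R * (1 + Real.log R)) * ε := by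
    have a1 : c * (R * (1 + Real.log R)) * Q.ex (fun ω => er (cel ω)) ≤
        (c + 1) * (R * (1 + Real.log R)) * Q.ex (fun ω => er (cel ω)) :=
      mul_le_mul_of_nonneg_right (mul_le_mul_of_nonneg_right (by linarith) hRl) hε
    exact a1.trans (mul_le_mul_of_nonneg_left heE (mul_nonneg (by linarith) hRl))
  linarith

variable {Ω : Type} [Fintype Ω]

/-! ### choice of a direction -/

/-- an element of an event of mass at least `κ` with a small value of `F` -/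
theorem pick (Q : Law Ω) (A : Ω → Prop) (F : Ω → ℝ) {κ : ℝ} (hκ : 0 < κ) (hA : κ ≤ Q.ex (fun ω => ind (A ω)))
    (hF : ∀ ω, 0 < Q.w ω → 0 ≤ F ω) : ∃ ω, 0 < Q.w ω ∧ A ω ∧ κ * F ω ≤ Q.ex F := by
  classical
  by_contra hcon
  push Not at hcon
  have hm : 0 ≤ Q.ex F := Q.ex_nonneg hF
  have h1 : Q.ex (fun ω => ind (A ω) * (κ * F ω - Q.ex F)) ≤ κ * Q.ex F - κ * Q.ex F := by
    have e : Q.ex (fun ω => ind (A ω) * (κ * F ω - Q.ex F)) =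
        κ * Q.ex (fun ω => ind (A ω) * F ω) - Q.ex F * Q.ex (fun ω => ind (A ω)) := by
      rw [← Q.ex_const_mul, ← Q.ex_const_mul, ← Q.ex_sub]
      exact Q.ex_congr fun ω _ => by ring
    rw [e]
    have a1 : Q.ex (fun ω => ind (A ω) * F ω) ≤ Q.ex F := by
      refine Q.ex_mono fun ω hω => ?_
      have := hF ω hω
      have := ind_le_one (A ω)
      nlinarith
    have a2 : Q.ex F * κ ≤ Q.ex F * Q.ex (fun ω => ind (A ω)) := mul_le_mul_of_nonneg_left hA hm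
    have a3 := mul_le_mul_of_nonneg_left a1 hκ.le
    linarith
  rw [sub_self] at h1
  have h2 : ∀ ω, 0 < Q.w ω → 0 ≤ ind (A ω) * (κ * F ω - Q.ex F) := by
    intro ω hω
    by_cases hA' : A ω
    · rw [ind_of hA', one_mul]
      linarith [hcon ω hω hA']
    · rw [ind_not hA', zero_mul]
  -- all terms vanish
  have h3 : ∀ ω, Q.w ω * (ind (A ω) * (κ * F ω - Q.ex F)) = 0 := by
    have h4 : ∑ ω, Q.w ω * (ind (A ω) * (κ * F ω - Q.ex F)) = 0 := by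
      refine le_antisymm h1 ?_
      exact Q.ex_nonneg h2
    have h5 := (Finset.sum_eq_zero_iff_of_nonneg (fun ω _ => by
      rcases (Q.nn ω).eq_or_lt with h0 | h0
      · rw [← h0, zero_mul]
      · exact mul_nonneg h0.le (h2 ω h0))).1 h4
    exact fun ω => h5 ω (Finset.mem_univ ω)
  have h4 : Q.ex (fun ω => ind (A ω)) = 0 := by
    rw [← Q.ex_const 0]
    refine Q.ex_congr fun ω hω => ?_
    by_cases hA' : A ω
    · have h5 := h3 ω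
      rw [ind_of hA', one_mul] at h5
      have h6 := hcon ω hω hA'
      have h7 : 0 < κ * F ω - Q.ex F := by linarith
      exact absurd h5 (mul_pos hω h7).ne'
    · exact ind_not hA'
  linarith

/-- Markov -/
theorem markov (Q : Law Ω) (F : Ω → ℝ) {κ : ℝ} (hκ : 0 < κ) (hF : ∀ ω, 0 < Q.w ω → 0 ≤ F ω) :
    Q.ex (fun ω => ind (¬ κ * F ω ≤ Q.ex F)) ≤ κ := by
  by_contra hcon
  rw [not_le] at hcon
  obtain ⟨ω, h1, h2, h3⟩ := pick Q (fun ω => ¬ κ * F ω ≤ Q.ex F) F hκ hcon.le hF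
  exact h2 h3

/-! ### from the direction to the base cell, for strip shifts -/

section base

variable {S T U K : Type} {P : Law Ω} {Δ : Ω → U} {ζ : Ω → T} {E : Ω → S} {σ : Ω → Fin 6 → ℝ}

/-- shifts of `n` inside the strip cells of one direction are near-invariances of the base law -/
theorem nic_base {ρ' : ℝ} (hD : Det P Δ E σ ρ') {d : U} {z : T} (hp : 0 < P.pr (fun ω => (Δ ω, ζ ω)) (d, z))
    (ν : S → K) (τ : K → ℝ) {ρ ε : ℝ}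
    (h : NIc (P.cond (fun ω => (Δ ω, ζ ω)) (d, z)) σ (fun ω => ν (E ω)) (fun k => ns (τ k)) ρ ε) :
    NIc (P.cond Δ d) σ (fun ω => ν (E ω)) (fun k => ns (τ k)) (ρ + 2 * ρ') (ε + tau P Δ ζ E d z) := by
  have hp' : 0 < P.pr Δ d := by
    obtain ⟨ω, h1, h2⟩ := exists_of_pr_pos P (fun ω => (Δ ω, ζ ω)) hp
    rw [← (Prod.mk.inj h2).1]
    exact P.pr_pos Δ h1
  set Q := P.cond (fun ω => (Δ ω, ζ ω)) (d, z) with hQ
  set P' := P.cond Δ d with hP'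
  have hE : ∀ a b, 0 < P'.w a → 0 < Q.w b → E a = E b → ∀ i, |σ a i - σ b i| ≤ ρ' := by
    intro a b ha hb he
    have h1 := Vale.Agent.P127.U.Pin.cond_supp P Δ hp' ha
    have h2 := Vale.Agent.P127.U.Pin.cond_supp P (fun ω => (Δ ω, ζ ω)) hp hb
    exact hD a b h1.2 h2.2 (h1.1.trans (Prod.mk.inj h2.1).1.symm) he
  have h1 := (SubC.of_dl P' E Q E).pos
  have h2 := (SubC.of_dl Q E P' E).pos
  refine ((h1.comp h).comp h2).mono ?_ ?_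
  · rintro a b ⟨b', ⟨a', ⟨p1, p2, p3⟩, k1, k2⟩, ⟨q1, q2, q3⟩⟩
    refine ⟨?_, fun i => ?_⟩
    · show ν (E a) = ν (E b)
      rw [p3, ← q3]
      exact k1
    · have e1 := hE a a' p1 p2 p3 i
      have e2 := hE b b' q2 q1 q3.symm i
      have e3 := k2 i
      have e4 : ν (E a) = ν (E a') := by rw [p3]
      show |σ b i - ns (τ (ν (E a))) (σ a) i| ≤ ρ + 2 * ρ'
      have e5 : σ b i - ns (τ (ν (E a))) (σ a) i = (σ b i - σ b' i) +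
          (σ b' i - ns (τ (ν (E a'))) (σ a') i) - (σ a i - σ a' i) := by
        rw [e4]
        unfold ns
        ring
      rw [e5]
      have e6 := abs_sub ((σ b i - σ b' i) + (σ b' i - ns (τ (ν (E a'))) (σ a') i)) (σ a i - σ a' i)
      have e7 := abs_add_le (σ b i - σ b' i) (σ b' i - ns (τ (ν (E a'))) (σ a') i)
      linarith
  · rw [dl_symm P' E Q E]
    unfold tau
    linarith

/-- expectation given a value, as a sum over the fibre -/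
theorem pr_mul_cond_ex (P : Law Ω) (Z : Ω → U) {z : U} (hz : 0 < P.pr Z z) (f : Ω → ℝ) :
    P.pr Z z * (P.cond Z z).ex f = P.ex (fun ω => ind (Z ω = z) * f ω) := by
  classical
  unfold Law.ex
  rw [Finset.mul_sum]
  refine Finset.sum_congr rfl fun ω _ => ?_
  rw [P.cond_w Z z hz]
  by_cases h : Z ω = z
  · rw [if_pos h]
    show P.pr Z z * (P.w ω / P.pr Z z * f ω) = P.w ω * (ind (Z ω = z) * f ω)
    rw [ind_of h]
    field_simp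
  · rw [if_neg h]
    show P.pr Z z * (0 * f ω) = P.w ω * (ind (Z ω = z) * f ω)
    rw [ind_not h]
    ring

end base

/-! ### the composition -/

section main

variable {S T U V K : Type}

/-- the hypotheses of the two-cap lemma, abstract form -/
structure Hyp (P : Law Ω) (Δ : Ω → U) (ζ : Ω → T) (E : Ω → S) (σ : Ω → Fin 6 → ℝ) (W : Ω → V) (Bad : Ω → Prop)
    (α : Ω → ℝ) (KN : U → T → Prop) (X Z G : U → T → ℝ) (ν : U → T → S → K) (τ : U → T → K → ℝ) (e mb : U → T → ℝ)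
    (ρ ρ' r s x0 δ c c' : ℝ) : Prop where
  /-- the fine letter determines the state -/
  det : Det P Δ E σ ρ'
  /-- the base letter is a function of the label outside `Bad` -/
  bad : ∀ ω ω', 0 < P.w ω → 0 < P.w ω' → ¬ Bad ω → ¬ Bad ω' → W ω = W ω' → Δ ω = Δ ω'
  e0 : ∀ ω, 0 < P.w ω → 0 ≤ e (Δ ω) (ζ ω)
  mb0 : ∀ ω, 0 < P.w ω → 0 ≤ mb (Δ ω) (ζ ω)
  /-- known line : sizes of the motion -/
  kns : ∀ ω, 0 < P.w ω → KN (Δ ω) (ζ ω) →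
    |X (Δ ω) (ζ ω)| ≤ 1 ∧ x0 ≤ |X (Δ ω) (ζ ω)| ∧ |Z (Δ ω) (ζ ω)| ≤ 1
  /-- known line : the motion -/
  kn : ∀ ω, 0 < P.w ω → KN (Δ ω) (ζ ω) →
    NI (P.cond (fun ω => (Δ ω, ζ ω)) (Δ ω, ζ ω)) σ (qm (X (Δ ω) (ζ ω)) (Z (Δ ω) (ζ ω)) (G (Δ ω) (ζ ω))) ρ
      (e (Δ ω) (ζ ω))
  /-- two known lines over the same base cell are not too far -/
  kn2 : ∀ ω ω', 0 < P.w ω → 0 < P.w ω' → Δ ω = Δ ω' → KN (Δ ω) (ζ ω) → KN (Δ ω') (ζ ω') →
    |(G (Δ ω') (ζ ω') - G (Δ ω) (ζ ω)) * X (Δ ω) (ζ ω) * X (Δ ω') (ζ ω')| ≤ 2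
  /-- known line : nearly all rays have it -/
  knm : ∀ ω, 0 < P.w ω → KN (Δ ω) (ζ ω) → (1 - c) * P.pr (fun ω => (Δ ω, ζ ω)) (Δ ω, ζ ω) ≤
    P.ex (fun ω' => ind ((Δ ω', ζ ω') = (Δ ω, ζ ω) ∧ |α ω' - G (Δ ω) (ζ ω)| ≤ r))
  /-- no known line : shifts in the strip cells -/
  wk : ∀ ω, 0 < P.w ω → ¬ KN (Δ ω) (ζ ω) →
    NIc (P.cond (fun ω => (Δ ω, ζ ω)) (Δ ω, ζ ω)) σ (fun ω' => ν (Δ ω) (ζ ω) (E ω'))
      (fun k => ns (τ (Δ ω) (ζ ω) k)) ρ (e (Δ ω) (ζ ω))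
  wk2 : ∀ ω, 0 < P.w ω → ¬ KN (Δ ω) (ζ ω) → ∀ k, |τ (Δ ω) (ζ ω) k| ≤ 2
  /-- most of them are not small -/
  wkm : ∀ ω, 0 < P.w ω → ¬ KN (Δ ω) (ζ ω) →
    (P.cond (fun ω => (Δ ω, ζ ω)) (Δ ω, ζ ω)).ex (fun ω' =>
      ind (¬ δ ≤ |τ (Δ ω) (ζ ω) (ν (Δ ω) (ζ ω) (E ω'))|)) ≤ mb (Δ ω) (ζ ω)
  /-- type (ii) : the line is not known given the label -/
  ty : ∀ ω, 0 < P.w ω → ∀ g : ℝ,
    P.ex (fun ω' => ind (W ω' = W ω ∧ |α ω' - g| ≤ r + s)) ≤ (1 - c') * P.pr W (W ω)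

/-- the total error over a base cell and a direction -/
noncomputable def Fz (P : Law Ω) (Δ : Ω → U) (ζ : Ω → T) (E : Ω → S) (e mb : U → T → ℝ) (C₁ L : ℝ) (R : ℕ)
    (d : U) (z : T) : ℝ :=
  Real.log L * (mb d z + tau P Δ ζ E d z) + C₁ * (R * (1 + Real.log R)) * (e d z + tau P Δ ζ E d z)

/-- `nsw_hc` with the constant `C` -/
def NSW (C : ℝ) : Prop := ∀ {Ω : Type} [Fintype Ω] {κ ι : Type} [Fintype ι] (Q : Law Ω) (n : Ω → ℝ)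
    (w : Ω → ι → ℝ) (cel : Ω → κ) (τ : κ → ℝ) (δ ε ρ L : ℝ) (R : ℕ),
    0 < δ → (∀ ω, 0 < Q.w ω → |τ (cel ω)| ≤ 2) → 1 ≤ L → C * L ≤ R * δ → 0 ≤ ρ → C * (R * ρ) ≤ 1 → 1 ≤ R →
    SubC Q Q (fun a b => cel a = cel b ∧ |n b - n a - τ (cel a)| ≤ ρ ∧ ∀ i, |w b i - w a i| ≤ ρ) ε →
    Q.ex (fun ω => ind (δ ≤ |τ (cel ω)|)) * Real.log L - (C + Fintype.card ι * Real.log 3) -
        C * (R * (1 + Real.log R)) * ε ≤
      hc Q (fun ω => ⌊n ω⌋) (fun ω => (⌊n ω / L⌋, fun i => ⌊w ω i⌋))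

variable {ι : Type} [Fintype ι]

/-- case 1 : a direction without known line -/
theorem case1 {C₁ : ℝ} (hns : NSW C₁) {P : Law Ω} {Δ : Ω → U} {ζ : Ω → T} {E : Ω → S} {σ : Ω → Fin 6 → ℝ} {W : Ω → V}
    {Bad : Ω → Prop} {α : Ω → ℝ} {KN : U → T → Prop} {X Z G : U → T → ℝ} {ν : U → T → S → K} {τ : U → T → K → ℝ}
    {e mb : U → T → ℝ} {ρ ρ' ρ₂ r s x0 δ c c' : ℝ} (H : Hyp P Δ ζ E σ W Bad α KN X Z G ν τ e mb ρ ρ' r s x0 δ c c')
    (hδ : 0 < δ) (hρ : 0 ≤ ρ) (hρ' : 0 ≤ ρ') {w : Ω → ι → ℝ} {L : ℝ} {R : ℕ} (hL : 1 ≤ L) (hR : 1 ≤ R)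
    (hLR : C₁ * L ≤ R * δ) (h48 : 48 * (ρ + 4 * ρ') ≤ ρ₂) (hρ₂R : C₁ * (R * ρ₂) ≤ 1)
    (hw : ∀ a b, 0 < P.w a → 0 < P.w b → Δ a = Δ b → (∀ i, i ≠ 2 → |σ b i - σ a i| ≤ 48 * (ρ + 4 * ρ')) →
      ∀ j, |w b j - w a j| ≤ ρ₂)
    {a₀ : Ω} (g2 : 0 < P.w a₀) (h2 : ¬ KN (Δ a₀) (ζ a₀)) :
    Real.log L - (C₁ + Fintype.card ι * Real.log 3) - Fz P Δ ζ E e mb C₁ L R (Δ a₀) (ζ a₀) ≤
      hc (P.cond Δ (Δ a₀)) (fun ω => ⌊σ ω 2⌋) (fun ω => (⌊σ ω 2 / L⌋, fun i => ⌊w ω i⌋)) := by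
  set d := Δ a₀ with hd
  set z := ζ a₀ with hz
  have hpd : 0 < P.pr Δ d := P.pr_pos Δ g2
  have hpz : 0 < P.pr (fun ω => (Δ ω, ζ ω)) (d, z) := P.pr_pos (fun ω => (Δ ω, ζ ω)) g2
  set Q := P.cond Δ d with hQ
  set Q' := P.cond (fun ω => (Δ ω, ζ ω)) (d, z) with hQ'
  have hQs : ∀ a, 0 < Q.w a → Δ a = d ∧ 0 < P.w a := fun a ha =>
    Vale.Agent.P127.U.Pin.cond_supp P Δ hpd ha
  have hlL : 0 ≤ Real.log L := Real.log_nonneg hL
  have k1 := H.wk a₀ g2 h2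
  have k2 := H.wk2 a₀ g2 h2
  have k3 := H.wkm a₀ g2 h2
  have k4 := nic_base H.det hpz (ν d z) (τ d z) k1
  have k5 : SubC Q Q (fun a b => (fun ω => ν d z (E ω)) a = (fun ω => ν d z (E ω)) b ∧
      |σ b 2 - σ a 2 - τ d z ((fun ω => ν d z (E ω)) a)| ≤ ρ₂ ∧ ∀ i, |w b i - w a i| ≤ ρ₂)
      (e d z + tau P Δ ζ E d z) := by
    refine (SubC.pos k4).mono ?_ le_rfl
    rintro a b ⟨ha, hb, m1, m2⟩
    obtain ⟨u1, u2⟩ := hQs a ha
    obtain ⟨v1, v2⟩ := hQs b hb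
    refine ⟨m1, ?_, ?_⟩
    · have m3 := m2 2
      have m4 : σ b 2 - σ a 2 - τ d z (ν d z (E a)) = σ b 2 - ns (τ d z (ν d z (E a))) (σ a) 2 := by
        simp only [ns, if_true]
        ring
      show |σ b 2 - σ a 2 - τ d z (ν d z (E a))| ≤ ρ₂
      rw [m4]
      refine m3.trans ?_
      linarith
    · intro j
      refine hw a b u2 v2 (u1.trans v1.symm) (fun i hi => ?_) j
      have m3 := m2 i
      have m4 : σ b i - σ a i = σ b i - ns (τ d z (ν d z (E a))) (σ a) i := by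
        simp only [ns, if_neg hi]
        ring
      rw [m4]
      exact m3.trans (by linarith)
  have k6 := hns Q (fun ω => σ ω 2) w (fun ω => ν d z (E ω)) (τ d z) δ (e d z + tau P Δ ζ E d z) ρ₂ L R hδ
    (fun ω _ => k2 _) hL hLR (by linarith) hρ₂R hR k5
  -- the mass
  have k7 : Q'.ex (fun ω' => ind (δ ≤ |τ d z (ν d z (E ω'))|)) ≤
      Q.ex (fun ω' => ind (δ ≤ |τ d z (ν d z (E ω'))|)) + 1 * dl Q E Q' E :=
    ex_le_dl Q' Q E (fun x => ind (δ ≤ |τ d z (ν d z x)|)) 1 (fun x => by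
      rw [abs_of_nonneg (ind_nonneg _)]
      exact ind_le_one _)
  have k8 : dl Q E Q' E = tau P Δ ζ E d z := by
    rw [dl_symm]
    rfl
  have k9 : 1 - mb d z ≤ Q'.ex (fun ω' => ind (δ ≤ |τ d z (ν d z (E ω'))|)) := by
    have q0 : Q'.ex (fun ω' => ind (δ ≤ |τ d z (ν d z (E ω'))|)) +
        Q'.ex (fun ω' => ind (¬ δ ≤ |τ d z (ν d z (E ω'))|)) = 1 := by
      rw [← Law.ex_add, ← Law.ex_const Q' 1]
      refine Law.ex_congr _ fun ω' _ => ?_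
      by_cases hh : δ ≤ |τ d z (ν d z (E ω'))|
      · rw [ind_of hh, ind_not (not_not.2 hh), add_zero]
      · rw [ind_not hh, ind_of hh, zero_add]
    have k3' : Q'.ex (fun ω' => ind (¬ δ ≤ |τ d z (ν d z (E ω'))|)) ≤ mb d z := k3
    linarith
  rw [k8, one_mul] at k7
  have k10 : 1 - (mb d z + tau P Δ ζ E d z) ≤ Q.ex (fun ω' => ind (δ ≤ |τ d z (ν d z (E ω'))|)) := by
    linarith
  have k11 := mul_le_mul_of_nonneg_right k10 hlL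
  unfold Fz
  linarith

/-- case 2 : two directions with different known lines -/
theorem case2 {C₁ : ℝ} (hC₁ : 0 < C₁) (hns : NSW C₁) {P : Law Ω} {Δ : Ω → U} {ζ : Ω → T} {E : Ω → S}
    {σ : Ω → Fin 6 → ℝ} {W : Ω → V}
    {Bad : Ω → Prop} {α : Ω → ℝ} {KN : U → T → Prop} {X Z G : U → T → ℝ} {ν : U → T → S → K} {τ : U → T → K → ℝ}
    {e mb : U → T → ℝ} {ρ ρ' ρ₂ r s x0 δ c c' : ℝ} (H : Hyp P Δ ζ E σ W Bad α KN X Z G ν τ e mb ρ ρ' r s x0 δ c c')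
    (hδ : 0 < δ) (hx0 : 0 ≤ x0) (hδs : δ ≤ s * x0 ^ 2) (hρ : 0 ≤ ρ) (hρ' : 0 ≤ ρ')
    {w : Ω → ι → ℝ} {L : ℝ} {R : ℕ} (hL : 1 ≤ L) (hR : 1 ≤ R)
    (hLR : C₁ * L ≤ R * δ) (h48 : 48 * (ρ + 4 * ρ') ≤ ρ₂) (hρ₂R : C₁ * (R * ρ₂) ≤ 1)
    (hw : ∀ a b, 0 < P.w a → 0 < P.w b → Δ a = Δ b → (∀ i, i ≠ 2 → |σ b i - σ a i| ≤ 48 * (ρ + 4 * ρ')) →
      ∀ j, |w b j - w a j| ≤ ρ₂)
    {a b : Ω} (u2 : 0 < P.w a) (v2 : 0 < P.w b) (hΔ : Δ b = Δ a) (sa : KN (Δ a) (ζ a)) (sb : KN (Δ b) (ζ b))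
    (hab : s ≤ |G (Δ a) (ζ b) - G (Δ a) (ζ a)|) :
    Real.log L - (C₁ + Fintype.card ι * Real.log 3) -
        2 * (Fz P Δ ζ E e mb C₁ L R (Δ a) (ζ a) + Fz P Δ ζ E e mb C₁ L R (Δ a) (ζ b)) ≤
      hc (P.cond Δ (Δ a)) (fun ω => ⌊σ ω 2⌋) (fun ω => (⌊σ ω 2 / L⌋, fun i => ⌊w ω i⌋)) := by
  set d := Δ a with hd
  have hpd : 0 < P.pr Δ d := P.pr_pos Δ u2
  set Q := P.cond Δ d with hQ
  have hQs : ∀ a, 0 < Q.w a → Δ a = d ∧ 0 < P.w a := fun a ha =>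
    Vale.Agent.P127.U.Pin.cond_supp P Δ hpd ha
  have hlL : 0 ≤ Real.log L := Real.log_nonneg hL
  have hpa : 0 < P.pr (fun ω => (Δ ω, ζ ω)) (d, ζ a) := P.pr_pos (fun ω => (Δ ω, ζ ω)) u2
  have hpb : 0 < P.pr (fun ω => (Δ ω, ζ ω)) (d, ζ b) := by
    have := P.pr_pos (fun ω => (Δ ω, ζ ω)) v2
    rwa [hΔ] at this
  have na := H.kn a u2 sa
  have nb := H.kn b v2 sb
  obtain ⟨xa1, xa2, xa3⟩ := H.kns a u2 sa
  obtain ⟨xb1, xb2, xb3⟩ := H.kns b v2 sb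
  have n2 := H.kn2 a b u2 v2 hΔ.symm sa sb
  have ma := H.mb0 a u2
  have mb' := H.mb0 b v2
  rw [hΔ] at nb xb1 xb2 xb3 n2 mb'
  have nn := shift_base H.det hpa hpb xa1 xa3 xb1 xb3 na nb
  set τ₀ : ℝ := (G d (ζ b) - G d (ζ a)) * X d (ζ a) * X d (ζ b) with hτ₀
  have hτ1 : δ ≤ |τ₀| := by
    rw [hτ₀, abs_mul, abs_mul]
    calc δ ≤ s * x0 ^ 2 := hδs
      _ = s * x0 * x0 := by ring
      _ ≤ |G d (ζ b) - G d (ζ a)| * |X d (ζ a)| * |X d (ζ b)| :=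
        mul_le_mul (mul_le_mul hab xa2 hx0 (abs_nonneg _)) xb2 hx0 (by positivity)
  have k5 : SubC Q Q (fun a b => (fun _ : Ω => ()) a = (fun _ : Ω => ()) b ∧
      |σ b 2 - σ a 2 - (fun _ : Unit => τ₀) ((fun _ : Ω => ()) a)| ≤ ρ₂ ∧ ∀ i, |w b i - w a i| ≤ ρ₂)
      (2 * ((e d (ζ a) + tau P Δ ζ E d (ζ a)) + (e d (ζ b) + tau P Δ ζ E d (ζ b)))) := by
    refine (SubC.pos nn).mono ?_ le_rfl
    rintro a' b' ⟨ha', hb', m2⟩
    obtain ⟨u1', u2'⟩ := hQs a' ha'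
    obtain ⟨v1', v2'⟩ := hQs b' hb'
    refine ⟨rfl, ?_, ?_⟩
    · have m3 := m2 2
      have m4 : σ b' 2 - σ a' 2 - τ₀ = σ b' 2 - ns τ₀ (σ a') 2 := by
        simp only [ns, if_true]
        ring
      show |σ b' 2 - σ a' 2 - τ₀| ≤ ρ₂
      rw [m4]
      exact m3.trans h48
    · intro j
      refine hw a' b' u2' v2' (u1'.trans v1'.symm) (fun i hi => ?_) j
      have m3 := m2 i
      have m4 : σ b' i - σ a' i = σ b' i - ns τ₀ (σ a') i := by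
        simp only [ns, if_neg hi]
        ring
      rw [m4]
      exact m3
  have k6 := hns Q (fun ω => σ ω 2) w (fun _ => ()) (fun _ => τ₀) δ
    (2 * ((e d (ζ a) + tau P Δ ζ E d (ζ a)) + (e d (ζ b) + tau P Δ ζ E d (ζ b)))) ρ₂ L R hδ
    (fun ω _ => n2) hL hLR (by linarith) hρ₂R hR k5
  have k7 : Q.ex (fun _ => ind (δ ≤ |τ₀|)) = 1 := by
    rw [ind_of hτ1, Law.ex_const]
  rw [k7, one_mul] at k6
  have qa : 0 ≤ Real.log L * (mb d (ζ a) + tau P Δ ζ E d (ζ a)) :=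
    mul_nonneg hlL (add_nonneg ma (tau_nonneg P Δ ζ E d (ζ a)))
  have qb : 0 ≤ Real.log L * (mb d (ζ b) + tau P Δ ζ E d (ζ b)) :=
    mul_nonneg hlL (add_nonneg mb' (tau_nonneg P Δ ζ E d (ζ b)))
  have k16 : C₁ * (R * (1 + Real.log R)) *
      (2 * ((e d (ζ a) + tau P Δ ζ E d (ζ a)) + (e d (ζ b) + tau P Δ ζ E d (ζ b)))) =
      2 * (C₁ * (R * (1 + Real.log R)) * (e d (ζ a) + tau P Δ ζ E d (ζ a))) +
      2 * (C₁ * (R * (1 + Real.log R)) * (e d (ζ b) + tau P Δ ζ E d (ζ b))) := by ring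
  rw [k16] at k6
  unfold Fz
  linarith

/-- case 3 : one line for nearly all rays -/
theorem case3 {P : Law Ω} {Δ : Ω → U} {ζ : Ω → T} {E : Ω → S} {σ : Ω → Fin 6 → ℝ} {W : Ω → V}
    {Bad : Ω → Prop} {α : Ω → ℝ} {KN : U → T → Prop} {X Z G : U → T → ℝ} {ν : U → T → S → K} {τ : U → T → K → ℝ}
    {e mb : U → T → ℝ} {ρ ρ' r s x0 δ c c' : ℝ} (H : Hyp P Δ ζ E σ W Bad α KN X Z G ν τ e mb ρ ρ' r s x0 δ c c')
    {κ₀ M : ℝ} (hκ : 0 < κ₀) (hκ1 : κ₀ ≤ 1 / 8) (hc0 : 0 ≤ c) (hc1 : c ≤ 1) (F : U → T → ℝ)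
    {d : U} (hpd : 0 < P.pr Δ d)
    (hmass : 1 - 2 * κ₀ ≤ (P.cond Δ d).ex (fun a => ind (KN (Δ a) (ζ a) ∧ κ₀ * F (Δ a) (ζ a) ≤ M)))
    (hp : ∀ a b, 0 < P.w a → 0 < P.w b → Δ a = d → Δ b = d →
      (KN (Δ a) (ζ a) ∧ κ₀ * F (Δ a) (ζ a) ≤ M) → (KN (Δ b) (ζ b) ∧ κ₀ * F (Δ b) (ζ b) ≤ M) →
      |G d (ζ b) - G d (ζ a)| < s) :
    ∃ g : ℝ, (1 - (c + 2 * κ₀)) * P.pr Δ d ≤ P.ex (fun ω' => ind (Δ ω' = d ∧ |α ω' - g| ≤ r + s)) := by
  classical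
  set Q := P.cond Δ d with hQ
  have hQs : ∀ a, 0 < Q.w a → Δ a = d ∧ 0 < P.w a := fun a ha =>
    Vale.Agent.P127.U.Pin.cond_supp P Δ hpd ha
  set S' : Ω → Prop := fun a => KN (Δ a) (ζ a) ∧ κ₀ * F (Δ a) (ζ a) ≤ M with hS'
  have hSex : ∃ a, 0 < Q.w a ∧ S' a := by
    by_contra hcon
    push Not at hcon
    have q1 : Q.ex (fun a => ind (S' a)) = 0 := by
      rw [← Law.ex_const Q 0]
      exact Law.ex_congr _ fun a ha => ind_not (hcon a ha)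
    have q2 : 1 - 2 * κ₀ ≤ Q.ex (fun a => ind (S' a)) := hmass
    rw [q1] at q2
    linarith
  obtain ⟨a₀, ha₀, hSa₀⟩ := hSex
  obtain ⟨g1, g2⟩ := hQs a₀ ha₀
  refine ⟨G d (ζ a₀), ?_⟩
  set D2 : Ω → U × T := fun ω => (Δ ω, ζ ω) with hD2
  set A' : U × T → Prop := fun x => x.1 = d ∧ KN x.1 x.2 ∧ κ₀ * F x.1 x.2 ≤ M with hA'
  have q1 := ex_event_ge P D2 (fun (g : ℝ) ω => |α ω - g| ≤ r) (q := 1 - c) A' (fun x => G x.1 x.2)
    (fun ω' hω' hA'' => H.knm ω' hω' hA''.2.1)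
  have q2 : P.ex (fun ω => ind (A' (D2 ω) ∧ |α ω - G (D2 ω).1 (D2 ω).2| ≤ r)) ≤
      P.ex (fun ω' => ind (Δ ω' = d ∧ |α ω' - G d (ζ a₀)| ≤ r + s)) := by
    refine P.ex_mono fun ω' hω' => ?_
    by_cases hh : A' (D2 ω') ∧ |α ω' - G (D2 ω').1 (D2 ω').2| ≤ r
    · obtain ⟨⟨w1, w2, w3⟩, w4⟩ := hh
      have w1' : Δ ω' = d := w1
      have w6 := hp a₀ ω' g2 hω' g1 w1' hSa₀ ⟨w2, w3⟩
      have w7 : |α ω' - G d (ζ ω')| ≤ r := by
        have : |α ω' - G (Δ ω') (ζ ω')| ≤ r := w4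
        rwa [w1'] at this
      have w8 : |α ω' - G d (ζ a₀)| ≤ r + s := by
        have : α ω' - G d (ζ a₀) = (α ω' - G d (ζ ω')) + (G d (ζ ω') - G d (ζ a₀)) := by ring
        rw [this]
        exact (abs_add_le _ _).trans (by linarith)
      rw [ind_of ⟨⟨w1, w2, w3⟩, w4⟩, ind_of ⟨w1', w8⟩]
    · rw [ind_not hh]
      exact ind_nonneg _
  have q3 : P.pr Δ d * Q.ex (fun a => ind (S' a)) = P.ex (fun ω => ind (A' (D2 ω))) := by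
    rw [hQ, pr_mul_cond_ex P Δ hpd]
    refine P.ex_congr fun ω' _ => ?_
    by_cases w1 : Δ ω' = d
    · rw [ind_of w1, one_mul]
      by_cases w2 : S' ω'
      · rw [ind_of w2, ind_of (show A' (D2 ω') from ⟨w1, w2.1, w2.2⟩)]
      · rw [ind_not w2, ind_not (fun h : A' (D2 ω') => w2 ⟨h.2.1, h.2.2⟩)]
    · rw [ind_not w1, zero_mul, ind_not (fun h : A' (D2 ω') => w1 h.1)]
  have q4 : (1 - 2 * κ₀) * P.pr Δ d ≤ P.ex (fun ω => ind (A' (D2 ω))) := by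
    rw [← q3, mul_comm]
    exact mul_le_mul_of_nonneg_left hmass hpd.le
  have q5 : (1 - c) * ((1 - 2 * κ₀) * P.pr Δ d) ≤ (1 - c) * P.ex (fun ω => ind (A' (D2 ω))) :=
    mul_le_mul_of_nonneg_left q4 (by linarith)
  have q6 : 0 ≤ c * κ₀ * P.pr Δ d := by positivity
  have q7 : (1 - (c + 2 * κ₀)) * P.pr Δ d ≤ (1 - c) * ((1 - 2 * κ₀) * P.pr Δ d) := by
    nlinarith
  exact q7.trans (q5.trans (q1.trans q2))

/-- the three cases together -/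
theorem cases3 {C₁ : ℝ} (hC₁ : 0 < C₁) (hns : NSW C₁) {P : Law Ω} {Δ : Ω → U} {ζ : Ω → T} {E : Ω → S}
    {σ : Ω → Fin 6 → ℝ} {W : Ω → V}
    {Bad : Ω → Prop} {α : Ω → ℝ} {KN : U → T → Prop} {X Z G : U → T → ℝ} {ν : U → T → S → K} {τ : U → T → K → ℝ}
    {e mb : U → T → ℝ} {ρ ρ' ρ₂ r s x0 δ c c' : ℝ} (H : Hyp P Δ ζ E σ W Bad α KN X Z G ν τ e mb ρ ρ' r s x0 δ c c')
    (hδ : 0 < δ) (hx0 : 0 ≤ x0) (hδs : δ ≤ s * x0 ^ 2) (hρ : 0 ≤ ρ) (hρ' : 0 ≤ ρ')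
    {w : Ω → ι → ℝ} {L : ℝ} {R : ℕ} (hL : 1 ≤ L) (hR : 1 ≤ R)
    (hLR : C₁ * L ≤ R * δ) (h48 : 48 * (ρ + 4 * ρ') ≤ ρ₂) (hρ₂R : C₁ * (R * ρ₂) ≤ 1)
    (hw : ∀ a b, 0 < P.w a → 0 < P.w b → Δ a = Δ b → (∀ i, i ≠ 2 → |σ b i - σ a i| ≤ 48 * (ρ + 4 * ρ')) →
      ∀ j, |w b j - w a j| ≤ ρ₂)
    {κ₀ : ℝ} (hκ : 0 < κ₀) (hκ1 : κ₀ ≤ 1 / 8) (hc0 : 0 ≤ c) (hc1 : c ≤ 1) {ω : Ω} (hω : 0 < P.w ω)
    (hnA : ¬ ∃ g : ℝ, (1 - (c + 2 * κ₀)) * P.pr Δ (Δ ω) ≤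
      P.ex (fun ω' => ind (Δ ω' = Δ ω ∧ |α ω' - g| ≤ r + s))) :
    Real.log L - ((C₁ + Fintype.card ι * Real.log 3) +
        4 / κ₀ * (P.cond Δ (Δ ω)).ex (fun ω' => Fz P Δ ζ E e mb C₁ L R (Δ ω') (ζ ω'))) ≤
      hc (P.cond Δ (Δ ω)) (fun ω => ⌊σ ω 2⌋) (fun ω => (⌊σ ω 2 / L⌋, fun i => ⌊w ω i⌋)) := by
  classical
  set d := Δ ω with hd
  have hpd : 0 < P.pr Δ d := P.pr_pos Δ hω
  have hlL : 0 ≤ Real.log L := Real.log_nonneg hL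
  have hRr : (1 : ℝ) ≤ R := by exact_mod_cast hR
  have hlR : 0 ≤ Real.log R := Real.log_nonneg hRr
  set Q := P.cond Δ d with hQ
  have hQs : ∀ a, 0 < Q.w a → Δ a = d ∧ 0 < P.w a := fun a ha =>
    Vale.Agent.P127.U.Pin.cond_supp P Δ hpd ha
  set F : U → T → ℝ := Fz P Δ ζ E e mb C₁ L R with hF
  have hF0 : ∀ a, 0 < Q.w a → 0 ≤ F (Δ a) (ζ a) := by
    intro a ha
    have h1 := H.e0 a (hQs a ha).2
    have h2 := H.mb0 a (hQs a ha).2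
    have h3 := tau_nonneg P Δ ζ E (Δ a) (ζ a)
    rw [hF]
    unfold Fz
    positivity
  set M : ℝ := Q.ex (fun ω' => F (Δ ω') (ζ ω')) with hM
  have hM0 : 0 ≤ M := Q.ex_nonneg hF0
  have h4 : 4 / κ₀ * M = 4 * (M / κ₀) := by ring
  have hMκ : 0 ≤ M / κ₀ := div_nonneg hM0 hκ.le
  rw [h4]
  by_cases hcase : κ₀ ≤ Q.ex (fun a => ind (¬ KN (Δ a) (ζ a)))
  · obtain ⟨a₀, h1, h2, h3⟩ := pick Q (fun a => ¬ KN (Δ a) (ζ a)) (fun a => F (Δ a) (ζ a)) hκ hcase hF0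
    obtain ⟨g1, g2⟩ := hQs a₀ h1
    have k := case1 hns H hδ hρ hρ' hL hR hLR h48 hρ₂R hw g2 h2
    rw [g1] at k
    rw [g1] at h3
    have k12 : F d (ζ a₀) ≤ M / κ₀ := by
      rw [le_div_iff₀ hκ]
      linarith
    have k13 : Fz P Δ ζ E e mb C₁ L R d (ζ a₀) = F d (ζ a₀) := rfl
    rw [k13] at k
    linarith
  · rw [not_le] at hcase
    have hmark : Q.ex (fun a => ind (¬ κ₀ * F (Δ a) (ζ a) ≤ M)) ≤ κ₀ :=
      markov Q (fun a => F (Δ a) (ζ a)) hκ hF0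
    have hmass : 1 - 2 * κ₀ ≤ Q.ex (fun a => ind (KN (Δ a) (ζ a) ∧ κ₀ * F (Δ a) (ζ a) ≤ M)) := by
      have q1 : Q.ex (fun _ => (1 : ℝ)) ≤ Q.ex (fun a => ind (KN (Δ a) (ζ a) ∧ κ₀ * F (Δ a) (ζ a) ≤ M) +
          ind (¬ KN (Δ a) (ζ a)) + ind (¬ κ₀ * F (Δ a) (ζ a) ≤ M)) := by
        refine Q.ex_mono fun a _ => ?_
        by_cases u1 : KN (Δ a) (ζ a)
        · by_cases u2 : κ₀ * F (Δ a) (ζ a) ≤ M
          · rw [ind_of (show KN (Δ a) (ζ a) ∧ κ₀ * F (Δ a) (ζ a) ≤ M from ⟨u1, u2⟩)]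
            have := ind_nonneg (¬ KN (Δ a) (ζ a))
            have := ind_nonneg (¬ κ₀ * F (Δ a) (ζ a) ≤ M)
            linarith
          · rw [ind_of u2]
            have := ind_nonneg (¬ KN (Δ a) (ζ a))
            have := ind_nonneg (KN (Δ a) (ζ a) ∧ κ₀ * F (Δ a) (ζ a) ≤ M)
            linarith
        · rw [ind_of u1]
          have := ind_nonneg (¬ κ₀ * F (Δ a) (ζ a) ≤ M)
          have := ind_nonneg (KN (Δ a) (ζ a) ∧ κ₀ * F (Δ a) (ζ a) ≤ M)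
          linarith
      rw [Law.ex_const, Law.ex_add, Law.ex_add] at q1
      linarith
    by_cases hp : ∃ a b, 0 < P.w a ∧ 0 < P.w b ∧ Δ a = d ∧ Δ b = d ∧
        (KN (Δ a) (ζ a) ∧ κ₀ * F (Δ a) (ζ a) ≤ M) ∧ (KN (Δ b) (ζ b) ∧ κ₀ * F (Δ b) (ζ b) ≤ M) ∧
        s ≤ |G d (ζ b) - G d (ζ a)|
    · obtain ⟨a, b, ha, hb, u1, v1, ⟨sa1, sa2⟩, ⟨sb1, sb2⟩, hab⟩ := hp
      have k := case2 hC₁ hns H hδ hx0 hδs hρ hρ' hL hR hLR h48 hρ₂R hw ha hb (v1.trans u1.symm) sa1 sb1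
        (by rwa [u1])
      rw [u1] at k sa2
      rw [v1] at sb2
      have ka : F d (ζ a) ≤ M / κ₀ := by
        rw [le_div_iff₀ hκ]
        linarith
      have kb : F d (ζ b) ≤ M / κ₀ := by
        rw [le_div_iff₀ hκ]
        linarith
      have k13 : ∀ z, Fz P Δ ζ E e mb C₁ L R d z = F d z := fun _ => rfl
      rw [k13, k13] at k
      linarith
    · exfalso
      push Not at hp
      exact hnA (case3 H hκ hκ1 hc0 hc1 F hpd hmass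
        (fun a b ha hb e1 e2 h1 h2 => hp a b ha hb e1 e2 h1 h2))

/-- **THE TWO-CAP LEMMA, abstract composition** -/
theorem satII : ∃ C : ℝ, 0 < C ∧ ∀ {Ω : Type} [Fintype Ω] {S T U V K V' ι : Type} [Fintype ι]
    (P : Law Ω) (Δ : Ω → U) (ζ : Ω → T) (E : Ω → S) (σ : Ω → Fin 6 → ℝ) (W : Ω → V) (Bad : Ω → Prop)
    (α : Ω → ℝ) (KN : U → T → Prop) (X Z G : U → T → ℝ) (ν : U → T → S → K) (τ : U → T → K → ℝ) (e mb : U → T → ℝ)
    (ρ ρ' ρw r s x0 δ c c' : ℝ), Hyp P Δ ζ E σ W Bad α KN X Z G ν τ e mb ρ ρ' r s x0 δ c c' →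
    0 < δ → 0 ≤ x0 → δ ≤ s * x0 ^ 2 → 0 ≤ c → c ≤ c' / 4 → 0 < c' → c' ≤ 1 → 0 ≤ ρ → 0 ≤ ρ' → 0 ≤ ρw →
    ∀ (w : Ω → ι → ℝ) (C' : Ω → V') (L : ℝ) (R : ℕ), 1 ≤ L → 1 ≤ R → C * L ≤ R * δ → C * (R * (ρ + ρ' + ρw)) ≤ 1 →
    (∀ a b, 0 < P.w a → 0 < P.w b → Δ a = Δ b → (∀ i, i ≠ 2 → |σ b i - σ a i| ≤ 48 * (ρ + 4 * ρ')) →
      ∀ j, |w b j - w a j| ≤ ρw) →
    Fn P C' (fun ω => ((⌊σ ω 2 / L⌋, fun i => ⌊w ω i⌋), ζ ω, Δ ω)) →
    Real.log L * (1 - 4 * P.ex (fun ω => ind (Bad ω)) / c') - (C + Fintype.card ι * Real.log 3) -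
      C / c' * (Real.log L * (P.ex (fun ω => mb (Δ ω) (ζ ω)) + Real.sqrt (mi P ζ E Δ)) +
        R * (1 + Real.log R) * (P.ex (fun ω => e (Δ ω) (ζ ω)) + Real.sqrt (mi P ζ E Δ))) -
      mi P ζ (fun ω => (⌊σ ω 2⌋, (⌊σ ω 2 / L⌋, fun i => ⌊w ω i⌋))) Δ ≤ hc P (fun ω => ⌊σ ω 2⌋) C' := by
  obtain ⟨C₁, hC₁, hns'⟩ := nsw_hc
  have hns : NSW C₁ := hns'
  refine ⟨200 * C₁ + 200, by positivity, ?_⟩
  intro Ω _ S T U V K V' ι _ P Δ ζ E σ W Bad α KN X Z G ν τ e mb ρ ρ' ρw r s x0 δ c c' H hδ hx0 hδs hc0 hcc hc'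
    hc1 hρ hρ' hρw w C' L R hL hR hLR hRρ hw hC'
  have hκ : 0 < c' / 8 := by positivity
  have hRr : (1 : ℝ) ≤ R := by exact_mod_cast hR
  have hR0 : (0 : ℝ) < R := by linarith
  have hlR : 0 ≤ Real.log R := Real.log_nonneg hRr
  have hRl : 0 ≤ (R : ℝ) * (1 + Real.log R) := by positivity
  have hlL : 0 ≤ Real.log L := Real.log_nonneg hL
  have hl3 : 0 ≤ Real.log 3 := Real.log_nonneg (by norm_num)
  have hρ₂R : C₁ * (R * (48 * (ρ + 4 * ρ') + ρw)) ≤ 1 := by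
    refine le_trans ?_ hRρ
    have h1 : 48 * (ρ + 4 * ρ') + ρw ≤ 192 * (ρ + ρ' + ρw) := by linarith
    have h2 : (R : ℝ) * (48 * (ρ + 4 * ρ') + ρw) ≤ R * (192 * (ρ + ρ' + ρw)) :=
      mul_le_mul_of_nonneg_left h1 hR0.le
    have h3 : 0 ≤ (R : ℝ) * (ρ + ρ' + ρw) := by positivity
    calc C₁ * (R * (48 * (ρ + 4 * ρ') + ρw)) ≤ C₁ * (R * (192 * (ρ + ρ' + ρw))) :=
          mul_le_mul_of_nonneg_left h2 hC₁.le
      _ ≤ (200 * C₁ + 200) * (R * (ρ + ρ' + ρw)) := by nlinarith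
  have hLR₁ : C₁ * L ≤ R * δ := by
    refine le_trans (mul_le_mul_of_nonneg_right ?_ (by linarith)) hLR
    linarith
  have hQF0 : ∀ ω, 0 < P.w ω →
      0 ≤ (P.cond Δ (Δ ω)).ex (fun ω' => Fz P Δ ζ E e mb C₁ L R (Δ ω') (ζ ω')) := by
    intro ω hω
    refine Law.ex_nonneg _ fun a ha => ?_
    have ha' := (Vale.Agent.P127.U.Pin.cond_supp P Δ (P.pr_pos Δ hω) ha).2
    have h1 := H.e0 a ha'
    have h2 := H.mb0 a ha'
    have h3 := tau_nonneg P Δ ζ E (Δ a) (ζ a)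
    unfold Fz
    positivity
  have hfin := avg_sat P W Δ Bad H.bad (fun (g : ℝ) ω => |α ω - g| ≤ r + s) (c' := c') (c'' := c + 2 * (c' / 8))
    (by positivity) (by linarith) hc1 H.ty
    (fun d => ∃ g : ℝ, (1 - (c + 2 * (c' / 8))) * P.pr Δ d ≤
      P.ex (fun ω' => ind (Δ ω' = d ∧ |α ω' - g| ≤ r + s))) (fun _ => False) (fun ω _ h => h) ζ
    (fun ω => ⌊σ ω 2⌋) (fun ω => (⌊σ ω 2 / L⌋, fun i => ⌊w ω i⌋)) C' hlL
    (er := fun d => (C₁ + Fintype.card ι * Real.log 3) +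
      4 / (c' / 8) * (P.cond Δ d).ex (fun ω' => Fz P Δ ζ E e mb C₁ L R (Δ ω') (ζ ω')))
    (fun ω hω => by
      have := hQF0 ω hω
      positivity)
    (fun ω hω hnA _ => cases3 hC₁ hns H hδ hx0 hδs hρ hρ' hL hR hLR₁ (by linarith) hρ₂R
      (fun a b ha hb hab h j => (hw a b ha hb hab h j).trans (by linarith)) hκ (by linarith) hc0 (by linarith) hω hnA)
    hC'
  have e1 : P.ex (fun _ => ind False) = 0 := by
    rw [ind_not (fun h => h), Law.ex_const]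
  rw [e1, sub_zero] at hfin
  have e2 : P.ex (fun ω => (C₁ + Fintype.card ι * Real.log 3) +
      4 / (c' / 8) * (P.cond Δ (Δ ω)).ex (fun ω' => Fz P Δ ζ E e mb C₁ L R (Δ ω') (ζ ω'))) =
      (C₁ + Fintype.card ι * Real.log 3) +
      4 / (c' / 8) * P.ex (fun ω => Fz P Δ ζ E e mb C₁ L R (Δ ω) (ζ ω)) := by
    rw [P.ex_add, P.ex_const, P.ex_const_mul, Vale.Agent.P127.S.Glue14.ex_cond P Δ
      (fun ω' => Fz P Δ ζ E e mb C₁ L R (Δ ω') (ζ ω'))]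
  have e3 : P.ex (fun ω => Fz P Δ ζ E e mb C₁ L R (Δ ω) (ζ ω)) ≤
      Real.log L * (P.ex (fun ω => mb (Δ ω) (ζ ω)) + 4 * Real.sqrt (mi P ζ E Δ)) +
      C₁ * (R * (1 + Real.log R)) * (P.ex (fun ω => e (Δ ω) (ζ ω)) + 4 * Real.sqrt (mi P ζ E Δ)) := by
    have h1 := tau_ex P Δ ζ E
    unfold Fz
    rw [P.ex_add, P.ex_const_mul, P.ex_const_mul, P.ex_add, P.ex_add]
    have h2 : 0 ≤ C₁ * (R * (1 + Real.log R)) := by positivity
    have h3 := mul_le_mul_of_nonneg_left h1 hlL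
    have h4 := mul_le_mul_of_nonneg_left h1 h2
    linarith
  have hB0 : 0 ≤ P.ex (fun ω => ind (Bad ω)) := P.ex_nonneg fun ω _ => ind_nonneg _
  have e4 : Real.log L * (1 - 4 * P.ex (fun ω => ind (Bad ω)) / c') ≤
      Real.log L * (1 - 2 * P.ex (fun ω => ind (Bad ω)) / (c' - (c + 2 * (c' / 8)))) := by
    refine mul_le_mul_of_nonneg_left ?_ hlL
    have h1 : c' / 2 ≤ c' - (c + 2 * (c' / 8)) := by linarith
    have h2 : 2 * P.ex (fun ω => ind (Bad ω)) / (c' - (c + 2 * (c' / 8))) ≤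
        2 * P.ex (fun ω => ind (Bad ω)) / (c' / 2) :=
      div_le_div_of_nonneg_left (by positivity) (by positivity) h1
    have h3 : 2 * P.ex (fun ω => ind (Bad ω)) / (c' / 2) = 4 * P.ex (fun ω => ind (Bad ω)) / c' := by
      field_simp
      ring
    linarith
  have hsq : 0 ≤ Real.sqrt (mi P ζ E Δ) := Real.sqrt_nonneg _
  have hmbE : 0 ≤ P.ex (fun ω => mb (Δ ω) (ζ ω)) := P.ex_nonneg H.mb0
  have heE : 0 ≤ P.ex (fun ω => e (Δ ω) (ζ ω)) := P.ex_nonneg H.e0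
  have e5 : 4 / (c' / 8) * P.ex (fun ω => Fz P Δ ζ E e mb C₁ L R (Δ ω) (ζ ω)) ≤
      (200 * C₁ + 200) / c' * (Real.log L * (P.ex (fun ω => mb (Δ ω) (ζ ω)) + Real.sqrt (mi P ζ E Δ)) +
        R * (1 + Real.log R) * (P.ex (fun ω => e (Δ ω) (ζ ω)) + Real.sqrt (mi P ζ E Δ))) := by
    have h1 : 4 / (c' / 8) = 32 / c' := by
      field_simp
      norm_num
    rw [h1, div_mul_eq_mul_div, div_mul_eq_mul_div]
    refine div_le_div_of_nonneg_right ?_ hc'.le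
    have hab := mul_nonneg hlL hmbE
    have haq := mul_nonneg hlL hsq
    have htu := mul_nonneg hRl heE
    have htq := mul_nonneg hRl hsq
    have g1 := mul_le_mul_of_nonneg_left e3 (by norm_num : (0 : ℝ) ≤ 32)
    have g2 := mul_nonneg hC₁.le hab
    have g3 := mul_nonneg hC₁.le haq
    have g4 := mul_nonneg hC₁.le htu
    have g5 := mul_nonneg hC₁.le htq
    nlinarith
  have hcard : 0 ≤ (Fintype.card ι : ℝ) * Real.log 3 := by positivity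
  rw [e2] at hfin
  linarith

end main

end Vale.Agent.P106.U.H470
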