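import Vale.Agent.P106.U.H470.V2Win
import Vale.Agent.P106.U.H122.RowN

/-!
# P106 / U / H470 / V2Bd : the labels of the row [V2] and the indices of the place (helper470)

* `C2.lab_idx` : in the regime the label `(a, r)` is the index `J a - r` of the record, in the kappa regime.
* `C2.lab_inj` : the index is injective in the label.
* **`C2.bad_iff`** : the exceptional event of the data of the label is the one of the frozen path at its index.
-/

set_option autoImplicit false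

namespace Vale.Agent.P106.U.H565

open Finset Vale.Agent.P127 Vale.Agent.P127.Stk Vale.Agent.P127.U Vale.Agent.P106.W
open Vale.Agent.P106.K (Ry RyOk bl Bin)
open Vale.Agent.P127.U.CellD (q2 rd q2_pos q2_le q2_mul_pow fl1_fl1)
open Vale.Agent.P106.U Vale.Agent.P106.U.H449 Vale.Agent.P106.U.StripL Vale.Agent.P106.U.StripE
open Vale.Agent.P106.U.LinkR Vale.Agent.P106.U.InsL Vale.Agent.P106.U.InpC Vale.Agent.P106.U.LSide
open Vale.Agent.P106.U.LinkW2
open Vale.Agent.P106.U.H823.NumG Vale.Agent.P106.U.H823.PathNum Vale.Agent.P106.U.H823.PathP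
open Vale.Agent.P106.U.H428.Cls (Dt)
open Vale.Agent.P106.U.H785.Mtr Vale.Agent.P106.U.H470
open Vale.Agent.P106.U.H661.Age
open Vale.Agent.P106.U.H61.Reg (beg beg_le_J beg_succ lev_sub)

variable {Ω : Type} [Fintype Ω]

namespace C2

variable {c : C2 Ω} {hm : 3 ≤ c.I.m} {Rm : ℕ} {cc : ℝ} {Ac rc : ℕ} {B μ : ℕ} {o : Fin 7 → ℝ} {o' : ℕ → ℝ} {k0 : ℕ → ℕ}
  {hk : Monotone k0} {hl : ∀ i, k0 i ≤ c.D.L.k (c.D.ix i)} {a r : ℕ}

/-- the label is present -/
theorem lab_beg (hx : (a, r) ∈ labs c.toC1 B) (hR : c.RC a = c.RC (a - 1) + 1) : beg c.D.L a + r ≤ c.D.L.J a := by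
  unfold labs at hx
  rw [Finset.mem_filter] at hx
  exact beg_r hx.2.1 hR hx.2.2

/-- **the index of a label in the regime** -/
theorem lab_idx (H : c.Hyp Rm cc Ac rc) (hB : 1 ≤ B) (hx : (a, r) ∈ labs c.toC1 B) (hR : c.RC a = c.RC (a - 1) + 1)
    (h : c.rgP B a) : (1 ≤ c.D.L.J a - r ∧ c.D.L.J a - r ≤ (c.erun hm).n) ∧ S3.lv (c.erun hm) (c.D.L.J a - r) = a ∧
      (c.erun hm).m * (c.erun hm).b1 + (c.erun hm).C.rk (c.D.L.J a - r) < (c.erun hm).C.rf (c.D.L.J a - r) := by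
  have hb := lab_beg hx hR
  unfold labs at hx
  rw [Finset.mem_filter, Finset.mem_product, Finset.mem_range, Finset.mem_range] at hx
  obtain ⟨⟨x1, x2⟩, x3, x4⟩ := hx
  dsimp only at x1 x2 x3 x4
  obtain ⟨g1, g2, g3, g4⟩ := h
  have hn := J_lt_n g1 g2
  have hn' : c.D.L.J a - r ≤ c.D.n := (Nat.sub_le _ _).trans hn.le
  have hN : c.D.L.J a - r ≤ c.D.N := hn'.trans (PN.n_le _)
  have e0 : 1 ≤ beg c.D.L a := by
    obtain ⟨b, rfl⟩ : ∃ b, a = b + 1 := ⟨a - 1, by omega⟩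
    rw [beg_succ]
    omega
  refine ⟨⟨by omega, hn'⟩, ?_, ?_⟩
  · rw [H61.Reg.lv_eq (has_e (hm := hm) H) hN]
    exact lev_sub c.D.L hb
  · obtain ⟨_, h2, h3⟩ := lab_num x3 hR hb hN
    show c.I.m * c.b1 + c.D.lk (c.D.L.J a - r) < c.D.lf (c.D.L.J a - r)
    rw [h2, h3]
    have hm1 : 0 < c.I.m := by omega
    have e1 : c.I.m * (c.b1 + (c.RC a - min r 1)) < c.I.m * (Rw c.I.pm.n c.E1 0 a + 2 - (r - 1)) :=
      Nat.mul_lt_mul_of_pos_left (by omega) hm1
    rw [Nat.mul_add] at e1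
    omega

/-- the index is injective in the label -/
theorem lab_inj {a' r' : ℕ} (h : beg c.D.L a + r ≤ c.D.L.J a) (h' : beg c.D.L a' + r' ≤ c.D.L.J a')
    (e : c.D.L.J a - r = c.D.L.J a' - r') : (a, r) = (a', r') := by
  have h1 := lev_sub c.D.L h
  have h2 := lev_sub c.D.L h'
  rw [e, h2] at h1
  subst h1
  have : r = r' := by omega
  rw [this]

/-- **the exceptional event of the data of a label** -/
theorem bad_iff (ha : 1 ≤ a) (hR : c.RC a = c.RC (a - 1) + 1) (hr : beg c.D.L a + r ≤ c.D.L.J a)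
    (hN : c.D.L.J a - r ≤ c.D.N) (K : ℝ) (b : ℕ) (ω : Ω) :
    ((c.xd hm μ o o' c.RC a (Rw c.I.pm.n c.E1 0 a + 2 - (r - 1)) (c.RC a - min r 1)).p1 0).Bad K 0 b ω ↔
      ((S3.mt (c.erun hm) (c.pfd hm k0 hk hl B) μ o o').fz (c.D.L.J a - r) (c.D.L.J a - r)).Bad K
        (c.D.L.J a - r) b ω := by
  rw [← H122.RowN.p1_Bad, ← xd_eq (hm := hm) (k0 := k0) (hk := hk) (hl := hl) (Bb := B) (μ := μ) (o := o) (o' := o') ha hR
    hr hN]
  exact Iff.rfl

end C2

end Vale.Agent.P106.U.H565
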