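import Vale.Agent.P106.U.H470.XD

/-!
# P106 / U / H470 / V2Row : the row [V2] of helper565's `PF2` (helper470)

`c : C1`, window of caps `b0 + k s`, words `w k` (nested, determine the second path), `bit k e` = all bits true.

* `rz` : second path at the value of the word; `Cg` : the regime of the level `a`, decreasing in the cap; `Xl` : data of the label.
* `Wn` : hypotheses of the window.  `fa` : `V2M.Fa` for one label.
-/

set_option autoImplicit false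

namespace Vale.Agent.P106.U.H565

open Finset Vale.Agent.P127 Vale.Agent.P127.Stk Vale.Agent.P127.U Vale.Agent.P106.W
open Vale.Agent.P106.K (Ry RyOk bl Bin)
open Vale.Agent.P127.U.CellD (q2 rd q2_pos q2_le q2_mul_pow fl1_fl1)
open Vale.Agent.P106.U Vale.Agent.P106.U.H449 Vale.Agent.P106.U.StripL Vale.Agent.P106.U.StripE
open Vale.Agent.P106.U.LinkR Vale.Agent.P106.U.InsL Vale.Agent.P106.U.InpC Vale.Agent.P106.U.LSide
open Vale.Agent.P106.U.LinkW2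
open Vale.Agent.P106.U.H823.NumG Vale.Agent.P106.U.H823.PathNum Vale.Agent.P106.U.H823.PathP
open Vale.Agent.P106.U.H428.Cls (Dt)
open Vale.Agent.P106.U.H785.Mtr Vale.Agent.P106.U.H470
open Vale.Agent.P106.U.H661.Age
open Vale.Agent.P106.U.H61.Reg (beg beg_le_J J_sub_beg lev_sub)

variable {Ω : Type} [Fintype Ω]

namespace C1

section defs

variable (c : C1 Ω) (hm : 3 ≤ c.I.m) (cc : ℝ) {V : Type}

/-- the second path at the value of the word -/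
noncomputable def rz (b0 s : ℕ) (w : ℕ → Ω → V) (k : ℕ) (e : V) : ℕ → ℕ := c.rcx hm cc (b0 + k * s) (w k) e

/-- own slope of the label -/
noncomputable def fx (a r : ℕ) : ℕ := Rw c.I.pm.n c.E1 0 a + 2 - (r - 1)

/-- the regime of the level `a` -/
def Cg (B b0 s : ℕ) (w : ℕ → Ω → V) (bit : ℕ → V → Prop) (a k : ℕ) (e : V) : Prop :=
  0 < c.Q1.pr (w k) e ∧ bit k e ∧ c.I.m * a < c.I.num.A ∧ c.I.rs + c.I.m * c.rz hm cc b0 s w k e a < c.I.num.QK ∧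
    c.rz hm cc b0 s w k e (a - 1) + 2 ≤ Rw c.I.pm.n c.E1 1 (a - 1) ∧
    b0 + k * s + c.rz hm cc b0 s w k e a + B ≤ Rw c.I.pm.n c.E1 0 a + 2

/-- the data of the label `(a, r)` at the cap `k`, value `e` -/
noncomputable def Xl (μ : ℕ) (o : Fin 7 → ℝ) (o' : ℕ → ℝ) (b0 s : ℕ) (w : ℕ → Ω → V) (a r k : ℕ) (e : V) :
    Mtd Ω (ℕ → ℤ → Option ℤ) :=
  c.xd hm μ o o' (c.rz hm cc b0 s w k e) a (c.fx a r) (c.rz hm cc b0 s w k e a - min r 1)

/-- **hypotheses of the window** -/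
structure Wn (in0 : ∀ ω, c.d0.In (c.tW ω) (c.κ ω)) (hc : 0 ≤ cc) (b0 s T : ℕ) (w : ℕ → Ω → V) (bit : ℕ → V → Prop)
    (o1 : Fin 7 → ℝ) (oK oG oN : ℝ) : Prop where
  ne : ∀ k, Fn c.Q1 (w k) (w (k + 1))
  det : ∀ k ω ω', 0 < c.Q1.w ω → 0 < c.Q1.w ω' → w k ω = w k ω' → ∀ a ≤ c.I.ha,
    c.RT hm cc c.Q1 (b0 + k * s) a ω = c.RT hm cc c.Q1 (b0 + k * s) a ω'
  bdec : ∀ k ω, 0 < c.Q1.w ω → bit (k + 1) (w (k + 1) ω) → bit k (w k ω)
  hyp : ∀ k < T, ∀ (e : V) (hz : 0 < c.Q1.pr (w k) e), bit k e →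
    ∃ Rm Ac rc, (c.mk2 hm cc in0 hc (b0 + k * s) (w k) e hz 4 o1 oK oG oN).Hyp Rm cc Ac rc

end defs

variable {c : C1 Ω} {hm : 3 ≤ c.I.m} {cc : ℝ} {V : Type} {in0 : ∀ ω, c.d0.In (c.tW ω) (c.κ ω)} {hc : 0 ≤ cc}
  {b0 s T : ℕ} {w : ℕ → Ω → V} {bit : ℕ → V → Prop} {o1 : Fin 7 → ℝ} {oK oG oN : ℝ}

section basic

variable (H : c.Wn hm cc in0 hc b0 s T w bit o1 oK oG oN)
include H

theorem Wn.rz_eq {k a : ℕ} (ha : a ≤ c.I.ha) {ω : Ω} (hω : 0 < c.Q1.w ω) :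
    c.rz hm cc b0 s w k (w k ω) a = c.RT hm cc c.Q1 (b0 + k * s) a ω :=
  (rcx_eq (H.det k) (c.Q1.pr_pos (w k) hω) ha hω rfl).symm

theorem Wn.rz_mono {k k' a : ℕ} (hk : k ≤ k') (ha : a ≤ c.I.ha) {ω : Ω} (hω : 0 < c.Q1.w ω) :
    c.rz hm cc b0 s w k (w k ω) a ≤ c.rz hm cc b0 s w k' (w k' ω) a := by
  rw [H.rz_eq ha hω, H.rz_eq ha hω]
  exact C0.rt_mono c.cn (Nat.add_le_add_left (Nat.mul_le_mul_right s hk) b0) ω a

theorem Wn.rz_lag {k a : ℕ} (ha : a < c.I.ha) {ω : Ω} (hω : 0 < c.Q1.w ω)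
    (h : c.rz hm cc b0 s w k (w k ω) a + 2 ≤ Rw c.I.pm.n c.E1 1 a) :
    c.rz hm cc b0 s w k (w k ω) (a + 1) = c.rz hm cc b0 s w k (w k ω) a + 1 := by
  rw [H.rz_eq ha.le hω] at h ⊢
  rw [H.rz_eq ha hω]
  exact C0.rt_eq c.cn in0 hc _ ω ha h

theorem Wn.bit_le {k k' : ℕ} (hk : k ≤ k') {ω : Ω} (hω : 0 < c.Q1.w ω) (h : bit k' (w k' ω)) : bit k (w k ω) := by
  induction k', hk using Nat.le_induction with
  | base => exact h
  | succ j _ ih => exact ih (H.bdec j ω hω h)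

/-- the regime decreases -/
theorem Wn.cg_dec {B a k k' : ℕ} (hk : k ≤ k') (ha : a ≤ c.I.ha) {ω : Ω} (hω : 0 < c.Q1.w ω)
    (h : c.Cg hm cc B b0 s w bit a k' (w k' ω)) : c.Cg hm cc B b0 s w bit a k (w k ω) := by
  obtain ⟨_, h2, h3, h4, h5, h6⟩ := h
  have e1 := H.rz_mono hk ha hω
  have e2 := H.rz_mono hk (a := a - 1) (by omega) hω
  have e3 : b0 + k * s ≤ b0 + k' * s := Nat.add_le_add_left (Nat.mul_le_mul_right s hk) b0
  refine ⟨c.Q1.pr_pos (w k) hω, H.bit_le hk hω h2, h3, ?_, by omega, by omega⟩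
  have e4 := Nat.mul_le_mul_left c.I.m e1
  omega

end basic

end C1

namespace C2

variable {c : C2 Ω}

/-- the level is before the stop -/
theorem J_lt_n {a : ℕ} (h1 : c.I.m * a < c.I.num.A) (h2 : c.I.rs + c.I.m * c.RC a < c.I.num.QK) : c.D.L.J a < c.D.n := by
  by_contra h
  push Not at h
  have h3 : c.D.L.lev c.D.n ≤ a := by
    have := c.D.L.lev_mono h
    rwa [Lv.lev_J] at this
  have h4 : c.D.L.k c.D.n ≤ c.RC a := (c.D.L.k_le _).trans (c.D.nm.Rm h3)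
  rcases c.D.n_spec with h5 | h5
  · have h6 : c.I.num.A ≤ c.I.m * c.D.L.lev c.D.n := h5
    have h7 := Nat.mul_le_mul_left c.I.m h3
    omega
  · have h6 : c.I.num.QK ≤ c.I.rs + c.I.m * c.D.L.k c.D.n := h5
    have h7 := Nat.mul_le_mul_left c.I.m h4
    omega

/-- the label is present -/
theorem beg_r {a r : ℕ} (ha : 1 ≤ a) (hR : c.RC a = c.RC (a - 1) + 1)
    (hr : r ≤ Rw c.I.pm.n c.E1 0 a - Rw c.I.pm.n c.E1 0 (a - 1) + 1) : beg c.D.L a + r ≤ c.D.L.J a := by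
  have h1 := J_sub_beg c.D.L a
  have h2 := beg_le_J c.D.L a
  have e1 : c.D.L.Rm a = c.RC (a - 1) := by
    unfold Lv.Rm
    rw [if_neg (by omega)]
    rfl
  have e2 : c.D.L.R a = c.RC a := rfl
  have e3 : c.D.L.F a = Rw c.I.pm.n c.E1 0 a + 2 := rfl
  have e4 : c.D.L.Fm a = Rw c.I.pm.n c.E1 0 (a - 1) + 2 := by
    unfold Lv.Fm
    rw [if_neg (by omega)]
    rfl
  rw [e1, e2, e3, e4, hR] at h1
  omega

end C2

namespace C1

variable {c : C1 Ω} {hm : 3 ≤ c.I.m} {cc : ℝ} {V : Type} {in0 : ∀ ω, c.d0.In (c.tW ω) (c.κ ω)} {hc : 0 ≤ cc}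
  {b0 s T : ℕ} {w : ℕ → Ω → V} {bit : ℕ → V → Prop} {o1 : Fin 7 → ℝ} {oK oG oN : ℝ}

/-- numbers of the row -/
structure Nw (c : C1 Ω) (K : ℝ) (B b0 s N μ L K3 : ℕ) (bV : ℕ → ℕ) : Prop where
  K6 : 648 ≤ K
  μB : μ ≤ B
  B0 : 8 * B ≤ b0
  s1 : 1 ≤ s
  mB : μ ≤ c.I.m * c.I.B
  rs : 192 * K ^ 2 * q2 (c.I.rs - μ / 2) ≤ 1
  L2 : 2 * B ≤ L
  K31 : 1 ≤ K3
  bv : ∀ k < N, c.I.m * (b0 + k * s) ≤ bV k
  bv' : ∀ k < N, bV k + 2 * μ ≤ c.I.m * (b0 + (k + L * K3) * s)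

/-- **the hypotheses of `V2_lab` for the label `(a, r)`** -/
theorem Wn.fa {N L K3 : ℕ} (H : c.Wn hm cc in0 hc b0 s (N + L * K3) w bit o1 oK oG oN) {K : ℝ} {B μ : ℕ} {bV : ℕ → ℕ}
    (Hn : Nw c K B b0 s N μ L K3 bV) (o : Fin 7 → ℝ) (o' : ℕ → ℝ) {a r : ℕ} (ha : 1 ≤ a) (ha' : a ≤ c.I.ha)
    (hrB : r ≤ B) (hr : r ≤ Rw c.I.pm.n c.E1 0 a - Rw c.I.pm.n c.E1 0 (a - 1) + 1) :
    Fa c.Q1 w (fun k ω => c.RT hm cc c.Q1 (b0 + k * s) a ω) (c.Cg hm cc B b0 s w bit a)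
      (c.Xl hm cc μ o o' b0 s w a r) c.t (fun k => c.I.m * (b0 + k * s)) bV
      (fun k e => c.xao hm (c.rz hm cc b0 s w k e) B a)
      (fun k e => c.I.rs + c.I.m * (c.rz hm cc b0 s w k e a - min r 1) + c.I.m * B) (c.I.m * a) μ (4 * K) N L (L * K3) := by
  have hm1 : 1 ≤ c.I.m := by omega
  -- the regime and the numbers of the label
  have hreg : ∀ k ω, c.Cg hm cc B b0 s w bit a k (w k ω) →
      c.rz hm cc b0 s w k (w k ω) a + (b0 + k * s) ≤ c.fx a r := by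
    intro k ω h
    have := h.2.2.2.2.2
    unfold fx
    omega
  have hlag : ∀ k ω, 0 < c.Q1.w ω → c.Cg hm cc B b0 s w bit a k (w k ω) →
      c.rz hm cc b0 s w k (w k ω) a = c.rz hm cc b0 s w k (w k ω) (a - 1) + 1 := by
    intro k ω hω h
    have h1 := H.rz_lag (k := k) (a := a - 1) (by omega) hω h.2.2.2.2.1
    rwa [show a - 1 + 1 = a by omega] at h1
  have h8 : ∀ k, 8 * μ ≤ c.I.m * (b0 + k * s) := by
    intro k
    have h1 : b0 + k * s ≤ c.I.m * (b0 + k * s) := Nat.le_mul_of_pos_left _ hm1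
    have h2 := Hn.B0
    have h3 := Hn.μB
    omega
  have hkap : ∀ k ω, c.Cg hm cc B b0 s w bit a k (w k ω) →
      (c.Xl hm cc μ o o' b0 s w a r k (w k ω)).rr 0 + c.I.m * (b0 + k * s) ≤
        (c.Xl hm cc μ o o' b0 s w a r k (w k ω)).rf 0 := by
    intro k ω h
    have h1 := hreg k ω h
    show c.I.rs + c.I.m * (c.rz hm cc b0 s w k (w k ω) a - min r 1) - μ / 2 + c.I.m * (b0 + k * s) ≤
      c.I.rs + c.I.m * max (c.rz hm cc b0 s w k (w k ω) a - min r 1) (c.fx a r)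
    have h2 : c.I.m * (c.rz hm cc b0 s w k (w k ω) a - min r 1 + (b0 + k * s)) ≤
        c.I.m * max (c.rz hm cc b0 s w k (w k ω) a - min r 1) (c.fx a r) :=
      Nat.mul_le_mul_left _ (le_trans (by omega) (le_max_right _ _))
    rw [Nat.mul_add] at h2
    omega
  refine
    { dec := fun k hk ω hω h => H.cg_dec (Nat.le_add_right _ _) ha' hω h
      b8 := fun k _ => h8 k
      bb := fun k hk => (Nat.add_le_add_right (Hn.bv k hk) _).trans (Hn.bv' k hk)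
      bv := Hn.bv
      bv' := Hn.bv'
      t := fun k _ ω _ _ => ⟨rfl, rfl, rfl⟩
      hy := ?_
      kap := fun k _ ω _ h => hkap k ω h
      R8 := ?_
      sm := ?_
      pf := ?_
      ao := ?_
      ob := ?_ }
  · intro k hk ω hω h
    obtain ⟨Rm, Ac, rc, HH⟩ := H.hyp k hk (w k ω) h.1 h.2.1
    have e1 := hlag k ω hω h
    have hsup : 0 < (c.mk2 hm cc in0 hc (b0 + k * s) (w k) (w k ω) h.1 4 o1 oK oG oN).Q.w ω := by
      show 0 < (c.Q1.cond (w k) (w k ω)).w ω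
      rw [c.Q1.cond_w _ _ h.1, if_pos rfl]
      exact div_pos hω h.1
    exact C2.xd_hy (c := c.mk2 hm cc in0 hc (b0 + k * s) (w k) (w k ω) h.1 4 o1 oK oG oN) (hm := hm) HH
      (mk2_hx (H.det k)) Hn.K6 hc mk2_W0 Hn.mB Hn.rs ha e1 (C2.beg_r ha e1 hr)
      (((Nat.sub_le _ _).trans (C2.J_lt_n h.2.2.1 h.2.2.2.1).le).trans (PN.n_le _)) hsup
  · intro k _ ω _ h
    have h1 := hkap k ω h
    have h2 := h8 k
    unfold Mtd.R
    exact le_min (by omega) (by omega)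
  · intro k _ ω hω h
    have h1 := H.rz_mono (Nat.le_add_right k (L * K3)) ha' hω
    have h2 := hreg (k + L * K3) ω h
    exact xd_sm (by omega) (by omega) 0
  · intro k _ ω ω' hω hω' e h e2
    have h1 : ∀ b ≤ a, c.rz hm cc b0 s w k (w k ω) b ≤ c.rz hm cc b0 s w (k + L * K3) (w (k + L * K3) ω) b :=
      fun b hb => H.rz_mono (Nat.le_add_right k (L * K3)) (hb.trans ha') hω
    exact xd_pf h1 e2
  · intro k _ ω ω' hω hω' e h hadv e2
    have h1 : c.rz hm cc b0 s w k (w k ω) a + B ≤ c.rz hm cc b0 s w (k + L * K3) (w (k + L * K3) ω) a := by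
      rw [H.rz_eq ha' hω, H.rz_eq ha' hω]
      have := Hn.L2
      omega
    exact xd_ao ha' h1 e2
  · intro k _ ω hω h hadv
    have h1 : c.rz hm cc b0 s w k (w k ω) a + L ≤ c.rz hm cc b0 s w (k + L * K3) (w (k + L * K3) ω) a := by
      rw [H.rz_eq ha' hω, H.rz_eq ha' hω]
      exact hadv
    show c.I.rs + c.I.m * (c.rz hm cc b0 s w k (w k ω) a - min r 1) + c.I.m * B ≤
      c.I.rs + c.I.m * (c.rz hm cc b0 s w (k + L * K3) (w (k + L * K3) ω) a - min r 1) - μ / 2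
    have e1 : c.rz hm cc b0 s w k (w k ω) a - min r 1 + 2 * B ≤
        c.rz hm cc b0 s w (k + L * K3) (w (k + L * K3) ω) a - min r 1 := by
      have := Hn.L2
      have h5 := hlag (k + L * K3) ω hω h
      have h6 := H.cg_dec (Nat.le_add_right k (L * K3)) ha' hω h
      have h7 := hlag k ω hω h6
      omega
    have e2 := Nat.mul_le_mul_left c.I.m e1
    rw [Nat.mul_add] at e2
    have e3 : 2 * B ≤ c.I.m * (2 * B) := Nat.le_mul_of_pos_left _ hm1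
    have e4 : c.I.m * (2 * B) = c.I.m * B + c.I.m * B := by ring
    have e5 : B ≤ c.I.m * B := Nat.le_mul_of_pos_left _ hm1
    have e6 := Hn.μB
    omega

end C1

end Vale.Agent.P106.U.H565
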