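import Vale.Agent.P106.U.H465.PfD
import Vale.Agent.P106.U.H470.V2M
import Vale.Agent.P106.U.H61.Reg
import Vale.Agent.P106.U.H785.MtrRun

/-!
# P106 / U / H470 / XD : the data of one label over helper565's run (row [V2]; helper470)

`c : C1`, `RC` = second path of a cap (blocks), label `(a, r)` from the end of the level, `kx = RC a - min r 1`,
`fx = F a + 2 - (r - 1)`.

* `C1.xd` : the one-step data with explicit numbers.  `xd_sm`, `xd_pf`, `xd_ao` : comparison of two caps.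
* `C2.xd_eq` : **the data `mt` of the place at the index `J a - r` are `xd`** (`at1`), if `RC a = RC (a-1) + 1`, `1 ≤ a`.
* `C2.xd_hy` : hypotheses `Hy (4 K)` at a place with `Hyp`.
-/

set_option autoImplicit false

namespace Vale.Agent.P106.U.H565

open Finset Vale.Agent.P127 Vale.Agent.P127.Stk Vale.Agent.P127.U Vale.Agent.P106.W
open Vale.Agent.P106.K (Ry RyOk bl Bin)
open Vale.Agent.P127.U.CellD (q2 rd q2_pos q2_le q2_mul_pow)
open Vale.Agent.P106.U Vale.Agent.P106.U.H449 Vale.Agent.P106.U.StripL Vale.Agent.P106.U.StripE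
open Vale.Agent.P106.U.LinkR Vale.Agent.P106.U.InsL Vale.Agent.P106.U.InpC Vale.Agent.P106.U.LSide
open Vale.Agent.P106.U.LinkW2
open Vale.Agent.P106.U.H823.NumG Vale.Agent.P106.U.H823.PathNum Vale.Agent.P106.U.H823.PathP
open Vale.Agent.P106.U.H428.Cls (Dt)
open Vale.Agent.P106.U.H785.Mtr Vale.Agent.P106.U.H470
open Vale.Agent.P106.U.H61.Reg (beg lev_sub k_sub f_sub)

variable {Ω : Type} [Fintype Ω]

theorem ind0 (p : Prop) : 0 ≤ Law.ind p := by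
  by_cases h : p
  · rw [Law.ind_of h]; norm_num
  · rw [Law.ind_not h]

/-- equality of data -/
theorem mtd_ext {π : Type} {D D' : Mtd Ω π} (a : D.a = D'.a) (rf : D.rf = D'.rf) (rk : D.rk = D'.rk) (μ : D.μ = D'.μ)
    (ν : D.ν = D'.ν) (o : D.o = D'.o) (oκ : D.oκ = D'.oκ) (oγ : D.oγ = D'.oγ) (l : D.l = D'.l) (t : D.t = D'.t)
    (p : D.p = D'.p) (un : D.un = D'.un) (κ : D.κ = D'.κ) (al : D.al = D'.al) (pf : D.pf = D'.pf)
    (gv : D.gv = D'.gv) : D = D' := by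
  cases D
  cases D'
  dsimp only at a rf rk μ ν o oκ oγ l t p un κ al pf gv
  subst a rf rk μ ν o oκ oγ l t p un κ al pf gv
  rfl

namespace C1

variable (c : C1 Ω) (hm : 3 ≤ c.I.m)

/-- line of the ray side at the level `a`: slope and value at the time of the level -/
noncomputable def xal (a : ℕ) (ω : Ω) : ℝ := c.ala c.E1 a ω
noncomputable def xka (a : ℕ) (ω : Ω) : ℝ := c.κ ω + c.ala c.E1 a ω * (c.tW ω - rd (c.I.m * a) (c.t ω))

/-- **the one-step data of a label** -/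
noncomputable def xd (μ : ℕ) (o : Fin 7 → ℝ) (o' : ℕ → ℝ) (RC : ℕ → ℕ) (a f k : ℕ) : Mtd Ω (ℕ → ℤ → Option ℤ) where
  a := fun _ => c.I.m * a
  rf := fun _ => c.I.rs + c.I.m * max k f
  rk := fun _ => c.I.rs + c.I.m * k
  ha := monotone_const
  hf := monotone_const
  hk := monotone_const
  hkf := fun _ => Nat.add_le_add_left (Nat.mul_le_mul_left _ (le_max_left _ _)) _
  μ := μ
  ν := μ / 2
  o := o
  oκ := o' 0
  oγ := o' 1
  l := fun ω => H786.Adp.toR c.θ (c.l ω)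
  t := c.t
  p := c.pp
  un := fun ω => (c.FW ω).cN (H786.Adp.toR c.θ (c.l ω)) (c.tW ω)
  κ := fun _ => c.xka a
  al := fun _ => c.xal a
  pf := fun _ => (c.dt hm).pfA RC a
  gv := fun _ v => - absl c.I.m c.d0 ((c.dt hm).gv a (RC a) (v a))

variable {c hm} {μ : ℕ} {o : Fin 7 → ℝ} {o' : ℕ → ℝ} {RC RC' : ℕ → ℕ} {a f f' k k' : ℕ}

/-- two caps -/
theorem xd_sm (hk : k ≤ k') (hf : k' ≤ f) (n : ℕ) :
    H420.Sm (c.xd hm μ o o' RC a f k) (c.xd hm μ o o' RC' a f k') n where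
  a := rfl
  rf := by
    show c.I.rs + c.I.m * max k f = c.I.rs + c.I.m * max k' f
    rw [max_eq_right (hk.trans hf), max_eq_right hf]
  rk := Nat.add_le_add_left (Nat.mul_le_mul_left _ hk) _
  μ := rfl
  ν := rfl
  o := rfl
  oκ := rfl
  oγ := rfl
  l := rfl
  t := rfl
  p := rfl
  un := rfl
  κ := rfl
  al := rfl

/-- the prefix letters are nested -/
theorem xd_pf (h : ∀ b ≤ a, RC b ≤ RC' b) {n : ℕ} {ω ω' : Ω}
    (e : (c.xd hm μ o o' RC' a f' k').pf n ω = (c.xd hm μ o o' RC' a f' k').pf n ω') :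
    (c.xd hm μ o o' RC a f k).pf n ω = (c.xd hm μ o o' RC a f k).pf n ω' := by
  show (c.dt hm).pfA RC a ω = (c.dt hm).pfA RC a ω'
  rw [Dt.pfA_res le_rfl h ω, Dt.pfA_res le_rfl h ω']
  exact congrArg _ e

variable (c hm) in
/-- the curvature of the line, `Bb` blocks below the index -/
noncomputable def xao (RC : ℕ → ℕ) (Bb a : ℕ) (ω : Ω) : ℝ :=
  - absl c.I.m c.d0 (((c.dt hm).L a ((RC a : ℤ) - a + Bb) ω + 1 / 2) * ((2 : ℝ) ^ c.I.m) ^ (-((RC a : ℤ) - a + Bb)))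

/-- it is an entry of the later prefix letter -/
theorem xd_ao {Bb n : ℕ} (ha : a ≤ c.I.ha) (h : RC a + Bb ≤ RC' a) {ω ω' : Ω}
    (e : (c.xd hm μ o o' RC' a f k).pf n ω = (c.xd hm μ o o' RC' a f k).pf n ω') :
    c.xao hm RC Bb a ω = c.xao hm RC Bb a ω' := by
  have h1 : (c.dt hm).pfR RC' a ω = (c.dt hm).pfR RC' a ω' := Dt.pfA_R le_rfl e
  have h2 := Dt.pfR_L (y := (RC a : ℤ) - a + Bb) h1 (by
    have h3 : ((c.dt hm).N : ℤ) = c.I.ha := rfl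
    rw [h3]
    have : (a : ℤ) ≤ c.I.ha := by exact_mod_cast ha
    omega) (by
    have : ((RC a + Bb : ℕ) : ℤ) ≤ RC' a := by exact_mod_cast h
    push_cast at this
    omega)
  unfold xao
  rw [h2]

end C1

namespace C2

variable (c : C2 Ω) (hm : 3 ≤ c.I.m)

theorem pfd_ao {k0 : ℕ → ℕ} {hk : Monotone k0} {hl : ∀ i, k0 i ≤ c.D.L.k (c.D.ix i)} {Bb a : ℕ} :
    (c.pfd hm k0 hk hl Bb).Ao a = c.xao hm c.RC Bb a := rfl

variable {c hm} {k0 : ℕ → ℕ} {hk : Monotone k0} {hl : ∀ i, k0 i ≤ c.D.L.k (c.D.ix i)} {Bb : ℕ} {μ : ℕ} {o : Fin 7 → ℝ}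
  {o' : ℕ → ℝ} {a r : ℕ}

theorem D_r0 : c.D.r0 = c.I.rs := rfl
theorem D_m : c.D.m = c.I.m := rfl
theorem D_o : c.D.o = 2 := rfl
theorem D_R : c.D.R = c.RC := rfl
theorem D_F : c.D.F = Rw c.I.pm.n c.E1 0 := rfl
theorem D_I : c.D.I = Rw c.I.pm.n c.E1 1 := rfl

lemma ofR_mt' {τ υ π : Type} {R : S3.Run Ω τ υ} {F : S3.Pf R π} (hμ : μ ≤ R.C.μ) : OfR R (S3.mt R F μ o o') :=
  ⟨rfl, rfl, rfl, rfl, hμ, fun _ => rfl, fun _ _ => rfl, fun _ _ => rfl⟩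

/-- numbers of the label -/
theorem lab_num (ha : 1 ≤ a) (hR : c.RC a = c.RC (a - 1) + 1) (hr : beg c.D.L a + r ≤ c.D.L.J a)
    (hN : c.D.L.J a - r ≤ c.D.N) : c.D.li (c.D.L.J a - r) = a ∧
      c.D.lf (c.D.L.J a - r) = c.I.rs + c.I.m * (Rw c.I.pm.n c.E1 0 a + 2 - (r - 1)) ∧
      c.D.lk (c.D.L.J a - r) = c.I.rs + c.I.m * (c.RC a - min r 1) := by
  have e1 : c.D.L.Rm a = c.RC (a - 1) := by
    unfold Lv.Rm
    rw [if_neg (by omega)]
    rfl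
  have e2 : c.D.L.R a = c.RC a := rfl
  have e3 : c.D.L.F a = Rw c.I.pm.n c.E1 0 a + 2 := rfl
  refine ⟨?_, ?_, ?_⟩
  · rw [c.D.li_eq hN]
    exact lev_sub c.D.L hr
  · rw [c.D.lf_eq hN, f_sub c.D.L hr, e1, e2, e3, D_r0, D_m]
    congr 2
    omega
  · rw [c.D.lk_eq hN, k_sub c.D.L hr, e1, e2, D_r0, D_m]
    congr 2
    omega

/-- **the data of the place are the data of the label** -/
theorem xd_eq (ha : 1 ≤ a) (hR : c.RC a = c.RC (a - 1) + 1) (hr : beg c.D.L a + r ≤ c.D.L.J a)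
    (hN : c.D.L.J a - r ≤ c.D.N) :
    at1 (S3.mt (c.erun hm) (c.pfd hm k0 hk hl Bb) μ o o') (c.D.L.J a - r)
      ((S3.mt (c.erun hm) (c.pfd hm k0 hk hl Bb) μ o o').rf (c.D.L.J a - r))
      ((S3.mt (c.erun hm) (c.pfd hm k0 hk hl Bb) μ o o').hkf _) =
    c.xd hm μ o o' c.RC a (Rw c.I.pm.n c.E1 0 a + 2 - (r - 1)) (c.RC a - min r 1) := by
  obtain ⟨h1, h2, h3⟩ := lab_num ha hR hr hN
  have h4 : c.RC a - min r 1 ≤ Rw c.I.pm.n c.E1 0 a + 2 - (r - 1) := by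
    have := c.D.lkf (c.D.L.J a - r)
    rw [h2, h3] at this
    have hm1 : 0 < c.I.m := by omega
    exact Nat.le_of_mul_le_mul_left (Nat.le_of_add_le_add_left this) hm1
  refine mtd_ext ?_ ?_ ?_ rfl rfl rfl rfl rfl rfl rfl rfl rfl ?_ ?_ ?_ ?_
  · funext n
    show c.D.m * c.D.li (c.D.L.J a - r) = c.I.m * a
    rw [h1, D_m]
  · funext n
    show c.D.lf (c.D.L.J a - r) = c.I.rs + c.I.m * max _ _
    rw [h2, max_eq_right h4]
  · funext n
    exact h3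
  · funext n ω
    show S3.kaL (c.erun hm) (c.D.L.J a - r) ω = c.xka a ω
    unfold S3.kaL C1.xka
    show c.κ ω + c.ala c.E1 (c.D.li (c.D.L.J a - r)) ω * (c.tW ω - (c.erun hm).C.s (c.D.L.J a - r) ω) = _
    have e : (c.erun hm).C.s (c.D.L.J a - r) ω = rd (c.I.m * a) (c.t ω) := by
      have h5 : (c.erun hm).C.s (c.D.L.J a - r) ω = rd ((c.erun hm).C.a (c.D.L.J a - r)) ((c.erun hm).C.t ω) := rfl
      rw [h5]
      show rd (c.D.m * c.D.li (c.D.L.J a - r)) (c.t ω) = _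
      rw [h1, D_m]
    rw [e, h1]
  · funext n ω
    show c.ala c.E1 (c.D.li (c.D.L.J a - r)) ω = c.xal a ω
    rw [h1]
    rfl
  · funext n
    show (c.dt hm).pfA c.RC (c.D.li (c.D.L.J a - r)) = _
    rw [h1]
    rfl
  · funext n v
    show - absl c.I.m c.d0 ((c.dt hm).gv (c.D.li (c.D.L.J a - r)) (c.RC (c.D.li (c.D.L.J a - r)))
      (v (c.D.li (c.D.L.J a - r)))) = _
    rw [h1]
    rfl

/-- **hypotheses of the data at a place** -/
theorem xd_hy {Rm : ℕ} {cc : ℝ} {Ac rc : ℕ} (H : c.Hyp Rm cc Ac rc) (HX : c.HX hm) {K : ℝ} (hK : 648 ≤ K)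
    (hc0 : 0 ≤ cc) (W0 : Fn c.Q (c.Fy c.b1) c.G) (hμ : μ ≤ c.I.m * c.I.B)
    (hs : 192 * K ^ 2 * q2 (c.I.rs - μ / 2) ≤ 1) (ha : 1 ≤ a) (hR : c.RC a = c.RC (a - 1) + 1)
    (hr : beg c.D.L a + r ≤ c.D.L.J a) (hN : c.D.L.J a - r ≤ c.D.N) {ω : Ω} (hω : 0 < c.Q.w ω) :
    (c.xd hm μ o o' c.RC a (Rw c.I.pm.n c.E1 0 a + 2 - (r - 1)) (c.RC a - min r 1)).Hy (4 * K) Set.univ ω := by
  obtain ⟨h1, h2, h3⟩ := lab_num ha hR hr hN
  have hok := erun_ok (hm := hm) H HX hK hc0 W0 (gU := max (Stk.hc c.Q c.G (c.Fy c.b1))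
    (Stk.hc c.run.Q (c.run.U 0) c.run.ry + ∑ i ∈ range (c.run.n + c.num.J), Stk.hc c.run.Q (c.run.U (i + 1))
      (fun ω => (c.run.Z i ω, fl1 (c.run.C.a (i + 1)) (c.run.t ω)))))
    (le_max_left _ _) le_rfl le_rfl (le_max_right _ _)
  rw [← xd_eq (hm := hm) (k0 := fun _ => 0) (hk := fun _ _ _ => le_rfl) (hl := fun _ => Nat.zero_le _) (Bb := 0)
    (μ := μ) (o := o) (o' := o') ha hR hr hN]
  refine at1_hy (I := {c.D.L.J a - r}) ?_ (Set.mem_singleton _)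
  have hq : q2 (c.I.rs) ≤ q2 (c.I.rs - μ / 2) := q2_le (Nat.sub_le _ _)
  refine (ofR_mt' hμ).hy_run hok (by linarith) hω ?_ ?_ ?_ ?_ ?_
  · show 4 * K ^ 2 * q2 (c.D.lk 0) ≤ 1
    have e : c.I.rs - μ / 2 ≤ c.D.lk 0 := (Nat.sub_le _ _).trans (Nat.le_add_right _ _)
    have := q2_le e
    nlinarith [sq_nonneg K, q2_pos (c.D.lk 0)]
  · intro i hi
    rw [Set.mem_singleton_iff.1 hi]
    exact hN
  · intro i hi
    rw [Set.mem_singleton_iff.1 hi]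
    show c.D.lk (c.D.L.J a - r) + c.I.m ≤ c.D.r0 + c.D.m * (c.D.o + c.D.I (c.D.li (c.D.L.J a - r)))
    rw [h3, h1, D_r0, D_m, D_o, D_I]
    have e1 : c.RC a ≤ Rw c.I.pm.n c.E1 1 a := c.w2.le a
    have e2 : c.I.m * (c.RC a - min r 1 + 1) ≤ c.I.m * (2 + Rw c.I.pm.n c.E1 1 a) := Nat.mul_le_mul_left _ (by omega)
    rw [Nat.mul_add, Nat.mul_one] at e2
    omega
  · intro i hi
    rw [Set.mem_singleton_iff.1 hi]
    exact gvA (hm := hm) (k0 := fun _ => 0) (hk := fun _ _ _ => le_rfl) (hl := fun _ => Nat.zero_le _) (Bb := 0) H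
      (by linarith) (c.D.L.J a - r) ω hω
  · intro i hi
    rw [Set.mem_singleton_iff.1 hi]
    have e : c.I.rs - μ / 2 ≤ (S3.mt (c.erun hm) (c.pfd hm (fun _ => 0) (fun _ _ _ => le_rfl)
        (fun _ => Nat.zero_le _) 0) μ o o').rr (c.D.L.J a - r) := by
      show c.I.rs - μ / 2 ≤ c.D.lk (c.D.L.J a - r) - μ / 2
      rw [h3]
      omega
    have := q2_le e
    nlinarith [sq_nonneg K, q2_pos (c.I.rs - μ / 2)]

end C2

end Vale.Agent.P106.U.H565
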